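import Vale.Agent.Lib.P161.Tree

/-!
P161: two-point homogeneity of the `d`-regular tree.
-/

namespace Vale.Agent.P161

open Classical in
/-- Bijection between two finite sets of the same size which respects two marked elements. -/
theorem exists_bij {V : Type*} (A B : Finset V) (h : A.card = B.card) (PA PB : V → Prop)
    (hA : ∀ a ∈ A, ∀ a' ∈ A, PA a → PA a' → a = a') (hB : ∀ b ∈ B, ∀ b' ∈ B, PB b → PB b' → b = b') :
    ∃ F F' : V → V, (∀ c ∈ A, F c ∈ B ∧ F' (F c) = c) ∧ (∀ c ∈ B, F' c ∈ A ∧ F (F' c) = c) ∧
      ∀ a ∈ A, ∀ b ∈ B, PA a → PB b → F a = b := by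
  have key : ∀ e : A ≃ B, ∃ F F' : V → V, (∀ c ∈ A, F c ∈ B ∧ F' (F c) = c) ∧
      (∀ c ∈ B, F' c ∈ A ∧ F (F' c) = c) ∧ ∀ c : A, F c = e c := by
    intro e
    refine ⟨fun c => if hc : c ∈ A then (e ⟨c, hc⟩ : V) else c,
      fun c => if hc : c ∈ B then (e.symm ⟨c, hc⟩ : V) else c, ?_, ?_, ?_⟩
    · intro c hc
      simp [hc]
    · intro c hc
      simp [hc]
    · rintro ⟨c, hc⟩
      simp [hc]
  by_cases hex : ∃ a ∈ A, ∃ b ∈ B, PA a ∧ PB b
  · obtain ⟨a, ha, b, hb, pa, pb⟩ := hex
    let e0 : A ≃ B := Finset.equivOfCardEq h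
    obtain ⟨F, F', h1, h2, h3⟩ := key (e0.trans (Equiv.swap (e0 ⟨a, ha⟩) ⟨b, hb⟩))
    refine ⟨F, F', h1, h2, ?_⟩
    intro a' ha' b' hb' pa' pb'
    have e1 := hA a' ha' a ha pa' pa
    have e2 := hB b' hb' b hb pb' pb
    subst e1 e2
    rw [h3 ⟨a', ha⟩]
    simp
  · obtain ⟨F, F', h1, h2, -⟩ := key (Finset.equivOfCardEq h)
    refine ⟨F, F', h1, h2, ?_⟩
    intro a ha b hb pa pb
    exact absurd ⟨a, ha, b, hb, pa, pb⟩ hex

variable {V : Type*} {G : SimpleGraph V}

/-- `c` is a child of `p` when the tree is rooted at `r`. -/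
def IsChild (G : SimpleGraph V) (r p c : V) : Prop := G.Adj p c ∧ G.dist r c = G.dist r p + 1

theorem exists_par (hG : G.IsTree) (r : V) : ∃ par : V → V, ∀ x, x ≠ r → IsChild G r (par x) x := by
  have : ∀ x, ∃ p, x ≠ r → IsChild G r p x := by
    intro x
    by_cases hx : x = r
    · exact ⟨x, fun h => absurd hx h⟩
    · have hpos : 0 < G.dist r x := hG.connected.pos_dist_of_ne (Ne.symm hx)
      obtain ⟨n, hn⟩ : ∃ n, G.dist r x = n + 1 := ⟨G.dist r x - 1, by omega⟩
      obtain ⟨w, hw, hd⟩ := exists_parent hG.connected hn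
      exact ⟨w, fun _ => ⟨hw.symm, by omega⟩⟩
  choose par hpar using this
  exact ⟨par, hpar⟩

theorem par_unique (hG : G.IsTree) {r p p' x : V} (h : IsChild G r p x) (h' : IsChild G r p' x) :
    p = p' := parent_unique hG h.1.symm h'.1.symm h.2 h'.2

open Classical in
/-- The children of a vertex. -/
noncomputable def ch (G : SimpleGraph V) [G.LocallyFinite] (r p : V) : Finset V :=
  (G.neighborFinset p).filter (fun c => G.dist r c = G.dist r p + 1)

theorem mem_ch [G.LocallyFinite] {r p c : V} : c ∈ ch G r p ↔ IsChild G r p c := by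
  classical
  simp [ch, IsChild]

open Classical in
theorem card_ch [G.LocallyFinite] (hG : G.IsTree) {d : ℕ} (hreg : G.IsRegularOfDegree d) (r p : V) :
    (ch G r p).card = d - (if G.dist r p = 0 then 0 else 1) := by
  have h1 := Finset.card_filter_add_card_filter_not (s := G.neighborFinset p)
    (fun c => G.dist r c = G.dist r p + 1)
  rw [G.card_neighborFinset_eq_degree, hreg.degree_eq] at h1
  have h2 : ((G.neighborFinset p).filter (fun c => ¬ G.dist r c = G.dist r p + 1)).card
      = if G.dist r p = 0 then 0 else 1 := by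
    split_ifs with h0
    · rw [Finset.card_eq_zero, Finset.filter_eq_empty_iff]
      intro c hc
      rw [SimpleGraph.mem_neighborFinset] at hc
      rcases hG.dist_eq_dist_add_one_of_adj r hc with h | h
      · omega
      · simpa using h
    · obtain ⟨n, hn⟩ : ∃ n, G.dist r p = n + 1 := ⟨G.dist r p - 1, by omega⟩
      obtain ⟨w, hw, hd⟩ := exists_parent hG.connected hn
      rw [Finset.card_eq_one]
      refine ⟨w, ?_⟩
      ext c
      simp only [Finset.mem_filter, SimpleGraph.mem_neighborFinset, Finset.mem_singleton]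
      constructor
      · rintro ⟨hc, hne⟩
        rcases hG.dist_eq_dist_add_one_of_adj r hc with h | h
        · exact parent_unique hG hc hw h (by omega)
        · exact absurd h hne
      · rintro rfl
        exact ⟨hw, by omega⟩
  rw [h2] at h1
  rw [ch]
  omega

/-- The map built recursively from the root. -/
noncomputable def treeMap (G : SimpleGraph V) (u u2 : V) (par : V → V) (F : V → V → V → V)
    (hpar : ∀ x, x ≠ u → IsChild G u (par x) x) (x : V) : V :=
  open Classical in
  if h : x = u then u2 else
    have : G.dist u (par x) < G.dist u x := by have := (hpar x h).2; omega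
    F (par x) (treeMap G u u2 par F hpar (par x)) x
termination_by G.dist u x

/-- Compatibility of the local bijections. -/
def Compat (G : SimpleGraph V) (u u2 : V) (F F' : V → V → V → V) : Prop :=
  ∀ p p2, G.dist u p = G.dist u2 p2 → (∀ c, IsChild G u p c → IsChild G u2 p2 (F p p2 c) ∧
    F' p2 p (F p p2 c) = c) ∧ (∀ c, IsChild G u2 p2 c → IsChild G u p (F' p2 p c) ∧
    F p p2 (F' p2 p c) = c)

theorem Compat.symm {u u2 : V} {F F' : V → V → V → V} (h : Compat G u u2 F F') :
    Compat G u2 u F' F := fun p p2 hd => ⟨(h p2 p hd.symm).2, (h p2 p hd.symm).1⟩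

section

variable {u u2 : V} {par par2 : V → V} {F F' : V → V → V → V}
  (hpar : ∀ x, x ≠ u → IsChild G u (par x) x) (hpar2 : ∀ x, x ≠ u2 → IsChild G u2 (par2 x) x)

theorem treeMap_root : treeMap G u u2 par F hpar u = u2 := by
  rw [treeMap]; simp

theorem treeMap_of_ne {x : V} (hx : x ≠ u) :
    treeMap G u u2 par F hpar x = F (par x) (treeMap G u u2 par F hpar (par x)) x := by
  conv_lhs => rw [treeMap]
  simp [hx]

theorem treeMap_dist (hF : Compat G u u2 F F') (x : V) :
    G.dist u2 (treeMap G u u2 par F hpar x) = G.dist u x ∧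
      (x ≠ u → IsChild G u2 (treeMap G u u2 par F hpar (par x)) (treeMap G u u2 par F hpar x)) := by
  induction hn : G.dist u x using Nat.strong_induction_on generalizing x with
  | _ n ih =>
    by_cases hx : x = u
    · subst hx
      refine ⟨?_, fun h => absurd rfl h⟩
      rw [treeMap_root, ← hn]; simp
    · have hc := hpar x hx
      have h1 := (ih (G.dist u (par x)) (by have := hc.2; omega) (par x) rfl).1
      have h2 := ((hF (par x) _ h1.symm).1 x hc).1
      rw [← treeMap_of_ne (u2 := u2) (F := F) hpar hx] at h2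
      exact ⟨by rw [h2.2, h1, ← hn, hc.2], fun _ => h2⟩

theorem treeMap_inv (hG : G.IsTree) (hF : Compat G u u2 F F') (x : V) :
    treeMap G u2 u par2 F' hpar2 (treeMap G u u2 par F hpar x) = x := by
  induction hn : G.dist u x using Nat.strong_induction_on generalizing x with
  | _ n ih =>
    by_cases hx : x = u
    · subst hx
      rw [treeMap_root, treeMap_root]
    · have hc := hpar x hx
      have ih1 := ih (G.dist u (par x)) (by have := hc.2; omega) (par x) rfl
      have hd := treeMap_dist hpar hF x
      have hdp := treeMap_dist hpar hF (par x)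
      have hne : treeMap G u u2 par F hpar x ≠ u2 := by
        intro h
        rw [h] at hd
        have h0 : G.dist u x = 0 := by rw [← hd.1]; simp
        have := hc.2
        omega
      have hpp : par2 (treeMap G u u2 par F hpar x) = treeMap G u u2 par F hpar (par x) :=
        par_unique hG (hpar2 _ hne) (hd.2 hx)
      rw [treeMap_of_ne hpar2 hne, hpp, ih1]
      conv_lhs => rw [treeMap_of_ne hpar hx]
      exact ((hF (par x) _ hdp.1.symm).1 x hc).2

theorem treeMap_adj (hG : G.IsTree) (hF : Compat G u u2 F F') {x y : V} (h : G.Adj x y) :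
    G.Adj (treeMap G u u2 par F hpar x) (treeMap G u u2 par F hpar y) := by
  have key : ∀ x y : V, IsChild G u y x →
      G.Adj (treeMap G u u2 par F hpar y) (treeMap G u u2 par F hpar x) := by
    intro x y hc
    have hx : x ≠ u := by
      rintro rfl
      have := hc.2
      simp at this
    have hy : par x = y := par_unique hG (hpar x hx) hc
    have := ((treeMap_dist hpar hF x).2 hx).1
    rwa [hy] at this
  rcases hG.dist_eq_dist_add_one_of_adj u h with h1 | h1
  · exact (key x y ⟨h.symm, h1⟩).symm
  · exact key y x ⟨h, h1⟩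

end

/-- Two-point homogeneity of the regular tree. -/
theorem exists_iso_of_dist_eq [G.LocallyFinite] (hG : G.IsTree) {d : ℕ}
    (hreg : G.IsRegularOfDegree d) {u v u2 v2 : V} (h : G.dist u v = G.dist u2 v2) :
    ∃ g : G ≃g G, g u = u2 ∧ g v = v2 := by
  have hc := hG.connected
  -- the local bijections
  have hloc : ∀ p p2, ∃ F F' : V → V, G.dist u p = G.dist u2 p2 →
      (∀ c, IsChild G u p c → IsChild G u2 p2 (F c) ∧ F' (F c) = c) ∧
      (∀ c, IsChild G u2 p2 c → IsChild G u p (F' c) ∧ F (F' c) = c) ∧
      ∀ a b, IsChild G u p a → IsChild G u2 p2 b → G.dist u a + G.dist v a = G.dist u v →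
        G.dist u2 b + G.dist v2 b = G.dist u2 v2 →
        G.dist u p + G.dist v p = G.dist u v → G.dist u2 p2 + G.dist v2 p2 = G.dist u2 v2 →
        F a = b := by
    intro p p2
    by_cases hd : G.dist u p = G.dist u2 p2
    · have hcard : (ch G u p).card = (ch G u2 p2).card := by
        rw [card_ch hG hreg, card_ch hG hreg, hd]
      obtain ⟨F, F', h1, h2, h3⟩ := exists_bij (ch G u p) (ch G u2 p2) hcard
        (fun a => G.dist u a + G.dist v a = G.dist u v ∧ G.dist u p + G.dist v p = G.dist u v)
        (fun b => G.dist u2 b + G.dist v2 b = G.dist u2 v2 ∧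
          G.dist u2 p2 + G.dist v2 p2 = G.dist u2 v2)
        (by
          rintro a ha a' ha' ⟨e1, e2⟩ ⟨e3, -⟩
          rw [mem_ch] at ha ha'
          have := ha.2
          have := ha'.2
          exact parent_unique hG (u := v) ha.1 ha'.1 (by omega) (by omega))
        (by
          rintro a ha a' ha' ⟨e1, e2⟩ ⟨e3, -⟩
          rw [mem_ch] at ha ha'
          have := ha.2
          have := ha'.2
          exact parent_unique hG (u := v2) ha.1 ha'.1 (by omega) (by omega))
      simp only [mem_ch] at h1 h2 h3
      exact ⟨F, F', fun _ => ⟨h1, h2, fun a b ha hb e1 e2 e3 e4 => h3 a ha b hb ⟨e1, e3⟩ ⟨e2, e4⟩⟩⟩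
    · exact ⟨id, id, fun h => absurd h hd⟩
  choose F F' hFF using hloc
  let F2 : V → V → V → V := fun p2 p => F' p p2
  have hF : Compat G u u2 F F2 := fun p p2 hd => ⟨(hFF p p2 hd).1, (hFF p p2 hd).2.1⟩
  obtain ⟨par, hpar⟩ := exists_par hG u
  obtain ⟨par2, hpar2⟩ := exists_par hG u2
  let f := treeMap G u u2 par F hpar
  let g := treeMap G u2 u par2 F2 hpar2
  have hgf : ∀ x, g (f x) = x := treeMap_inv hpar hpar2 hG hF
  have hfg : ∀ x, f (g x) = x := treeMap_inv hpar2 hpar hG hF.symm
  have hf : ∀ x y, G.Adj x y → G.Adj (f x) (f y) := fun x y => treeMap_adj hpar hG hF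
  have hg : ∀ x y, G.Adj x y → G.Adj (g x) (g y) := fun x y => treeMap_adj hpar2 hG hF.symm
  refine ⟨{ toFun := f, invFun := g, left_inv := hgf, right_inv := hfg,
            map_rel_iff' := fun {a b} => ⟨fun hab => ?_, hf a b⟩ }, ?_, ?_⟩
  · have := hg _ _ hab
    simpa [hgf] using this
  · exact treeMap_root hpar
  · -- the geodesic is mapped to the geodesic
    have hgeo : ∀ n, ∀ x, G.dist u x = n → G.dist u x + G.dist v x = G.dist u v →
        G.dist u2 (f x) + G.dist v2 (f x) = G.dist u2 v2 := by
      intro n
      induction n with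
      | zero =>
        intro x hx _
        have : u = x := hc.dist_eq_zero_iff.1 hx
        subst this
        have e : f u = u2 := treeMap_root hpar
        rw [e, SimpleGraph.dist_self, SimpleGraph.dist_comm]
        simp
      | succ n ih =>
        intro x hx hgx
        have hxu : x ≠ u := by
          rintro rfl
          simp at hx
        have hcx := hpar x hxu
        have hdp : G.dist u (par x) = n := by have := hcx.2; omega
        have hgp : G.dist u (par x) + G.dist v (par x) = G.dist u v := by
          have t1 : G.dist u v ≤ G.dist u (par x) + G.dist (par x) v := hc.dist_triangle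
          have t2 : G.dist v (par x) ≤ G.dist v x + G.dist x (par x) := hc.dist_triangle
          have t3 : G.dist x (par x) = 1 := SimpleGraph.dist_eq_one_iff_adj.2 hcx.1.symm
          have t4 : G.dist (par x) v = G.dist v (par x) := SimpleGraph.dist_comm
          omega
        have ih1 := ih (par x) hdp hgp
        have hd1 := (treeMap_dist hpar hF (par x)).1
        have hd1' : G.dist u2 (f (par x)) = n := by
          rw [← hdp]; exact hd1
        have hpos : 0 < G.dist v2 (f (par x)) := by
          have t4 : G.dist v x = G.dist u v - (n + 1) := by omega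
          have : n + 1 ≤ G.dist u v := by omega
          omega
        obtain ⟨m, hm⟩ : ∃ m, G.dist v2 (f (par x)) = m + 1 :=
          ⟨G.dist v2 (f (par x)) - 1, by omega⟩
        obtain ⟨w, hw, hwd⟩ := exists_parent hc hm
        have hcw : IsChild G u2 (f (par x)) w := by
          refine ⟨hw, ?_⟩
          have t1 : G.dist u2 v2 ≤ G.dist u2 w + G.dist w v2 := hc.dist_triangle
          have t2 : G.dist u2 w ≤ G.dist u2 (f (par x)) + G.dist (f (par x)) w := hc.dist_triangle
          have t3 : G.dist (f (par x)) w = 1 := SimpleGraph.dist_eq_one_iff_adj.2 hw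
          have t4 : G.dist w v2 = G.dist v2 w := SimpleGraph.dist_comm
          omega
        have hgw : G.dist u2 w + G.dist v2 w = G.dist u2 v2 := by
          have := hcw.2
          omega
        have hfx : f x = w := by
          have e : f x = F (par x) (f (par x)) x := treeMap_of_ne hpar hxu
          rw [e]
          exact (hFF (par x) (f (par x)) hd1.symm).2.2 x w hcx hcw hgx hgw hgp ih1
        rw [hfx]
        exact hgw
    have hv := hgeo _ v rfl (by simp)
    have hd := (treeMap_dist hpar hF v).1
    have hd' : G.dist u2 (f v) = G.dist u v := hd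
    have h0 : G.dist v2 (f v) = 0 := by omega
    exact (hc.dist_eq_zero_iff.1 h0).symm

/-- Any two vertices can be exchanged by an automorphism. -/
theorem exists_iso_swap [G.LocallyFinite] (hG : G.IsTree) {d : ℕ}
    (hreg : G.IsRegularOfDegree d) (u v : V) : ∃ g : G ≃g G, g u = v ∧ g v = u :=
  exists_iso_of_dist_eq hG hreg SimpleGraph.dist_comm

end Vale.Agent.P161
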