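import Vale.Agent.Lib.P161.Imp

/-!
P161, product measure part: `P = infinitePi (volume on [0,1])` on `ι → [0,1]`.
-/

open MeasureTheory unitInterval

namespace Vale.Agent.P161

variable {ι : Type*}

/-- The i.i.d. uniform measure on `ι → [0,1]`. -/
noncomputable abbrev PP (ι : Type*) : Measure (ι → unitInterval) :=
  Measure.infinitePi fun _ : ι => (volume : Measure unitInterval)

theorem measurable_piecewise_prod [DecidableEq ι] (s : Finset ι) :
    Measurable (fun p : (ι → unitInterval) × (ι → unitInterval) => s.piecewise p.1 p.2) := by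
  refine measurable_pi_iff.2 fun i => ?_
  by_cases hi : i ∈ s
  · have : (fun p : (ι → unitInterval) × (ι → unitInterval) => s.piecewise p.1 p.2 i)
        = fun p => p.1 i := by
      funext p; simp [hi]
    rw [this]; fun_prop
  · have : (fun p : (ι → unitInterval) × (ι → unitInterval) => s.piecewise p.1 p.2 i)
        = fun p => p.2 i := by
      funext p; simp [hi]
    rw [this]; fun_prop

/-- Mixing two independent uniform points along a finset of coordinates. -/
theorem measurePreserving_piecewise [DecidableEq ι] (s : Finset ι) :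
    MeasurePreserving (fun p : (ι → unitInterval) × (ι → unitInterval) => s.piecewise p.1 p.2)
      ((PP ι).prod (PP ι)) (PP ι) := by
  refine ⟨measurable_piecewise_prod s, Measure.eq_infinitePi _ fun r t ht => ?_⟩
  have hset : MeasurableSet ((r : Set ι).pi t) := .pi r.countable_toSet fun i _ => ht i
  rw [Measure.map_apply (measurable_piecewise_prod s) hset]
  have hpre : (fun p : (ι → unitInterval) × (ι → unitInterval) => s.piecewise p.1 p.2) ⁻¹'
        ((r : Set ι).pi t)
      = (((r ∩ s : Finset ι) : Set ι).pi t) ×ˢ (((r \ s : Finset ι) : Set ι).pi t) := by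
    ext p
    simp only [Set.mem_preimage, Set.mem_pi, Finset.mem_coe, Set.mem_prod, Finset.mem_inter,
      Finset.mem_sdiff]
    constructor
    · intro h
      refine ⟨fun i hi => ?_, fun i hi => ?_⟩
      · have := h i hi.1
        simpa [hi.2] using this
      · have := h i hi.1
        simpa [hi.2] using this
    · rintro ⟨h1, h2⟩ i hi
      by_cases hiS : i ∈ s
      · simpa [hiS] using h1 i ⟨hi, hiS⟩
      · simpa [hiS] using h2 i ⟨hi, hiS⟩
  rw [hpre, Measure.prod_prod, Measure.infinitePi_pi _ (fun i _ => ht i),
    Measure.infinitePi_pi _ (fun i _ => ht i)]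
  rw [← Finset.prod_union (Finset.disjoint_left.2 (by simp +contextual))]
  congr 1
  ext i; simp only [Finset.mem_union, Finset.mem_inter, Finset.mem_sdiff]; tauto

theorem piecewise_singleton_eq_update [DecidableEq ι] (i : ι) (ξ' ξ : ι → unitInterval) :
    ({i} : Finset ι).piecewise ξ' ξ = Function.update ξ i (ξ' i) := by
  funext j
  by_cases hj : j = i
  · subst hj; simp
  · simp [hj]

theorem lintegral_eval_PP (i : ι) {g : unitInterval → ENNReal} (hg : Measurable g) :
    ∫⁻ ξ, g (ξ i) ∂(PP ι) = ∫⁻ x, g x ∂(volume : Measure unitInterval) := by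
  rw [← (measurePreserving_eval_infinitePi (fun _ : ι => (volume : Measure unitInterval)) i).map_eq,
    lintegral_map hg (measurable_pi_apply i)]

theorem integral_eval_PP (i : ι) {g : unitInterval → ℝ} (hg : Measurable g) :
    ∫ ξ, g (ξ i) ∂(PP ι) = ∫ x, g x ∂(volume : Measure unitInterval) := by
  rw [← (measurePreserving_eval_infinitePi (fun _ : ι => (volume : Measure unitInterval)) i).map_eq,
    integral_map (measurable_pi_apply i).aemeasurable hg.aestronglyMeasurable]

theorem measurable_update_uncurry [DecidableEq ι] (i : ι) :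
    Measurable fun p : (ι → unitInterval) × unitInterval => Function.update p.1 i p.2 := by
  refine measurable_pi_iff.2 fun j => ?_
  by_cases hj : j = i
  · subst hj
    simp only [Function.update_self]
    exact measurable_snd
  · simp only [Function.update_of_ne hj]
    fun_prop

/-- Resampling one coordinate. -/
theorem lintegral_update [DecidableEq ι] (i : ι) {f : (ι → unitInterval) → ENNReal}
    (hf : Measurable f) :
    ∫⁻ ξ, ∫⁻ x, f (Function.update ξ i x) ∂(volume : Measure unitInterval) ∂(PP ι)
      = ∫⁻ ξ, f ξ ∂(PP ι) := by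
  have hmp := measurePreserving_piecewise ({i} : Finset ι)
  have h1 : ∫⁻ ξ, f ξ ∂(PP ι)
      = ∫⁻ p : (ι → unitInterval) × (ι → unitInterval), f (({i} : Finset ι).piecewise p.1 p.2)
        ∂((PP ι).prod (PP ι)) := by
    conv_lhs => rw [← hmp.map_eq]
    rw [lintegral_map hf hmp.measurable]
  have h2 : Measurable fun p : (ι → unitInterval) × (ι → unitInterval) =>
      f (({i} : Finset ι).piecewise p.1 p.2) := hf.comp (measurable_piecewise_prod _)
  rw [h1, lintegral_prod_symm' _ h2]
  refine lintegral_congr fun ξ => ?_
  simp only [piecewise_singleton_eq_update]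
  have hg : Measurable fun x => f (Function.update ξ i x) := hf.comp (measurable_update ξ)
  exact (lintegral_eval_PP i hg).symm

theorem integral_update [DecidableEq ι] (i : ι) {f : (ι → unitInterval) → ℝ}
    (hf : Measurable f) (C : ℝ) (hC : ∀ ξ, |f ξ| ≤ C) :
    ∫ ξ, ∫ x, f (Function.update ξ i x) ∂(volume : Measure unitInterval) ∂(PP ι)
      = ∫ ξ, f ξ ∂(PP ι) := by
  have hmp := measurePreserving_piecewise ({i} : Finset ι)
  have h1 : ∫ ξ, f ξ ∂(PP ι)
      = ∫ p : (ι → unitInterval) × (ι → unitInterval), f (({i} : Finset ι).piecewise p.1 p.2)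
        ∂((PP ι).prod (PP ι)) := by
    conv_lhs => rw [← hmp.map_eq]
    rw [integral_map hmp.measurable.aemeasurable hf.aestronglyMeasurable]
  rw [h1, integral_prod_symm]
  · refine integral_congr_ae (Filter.Eventually.of_forall fun ξ => ?_)
    simp only [piecewise_singleton_eq_update]
    have hg : Measurable fun x => f (Function.update ξ i x) := hf.comp (measurable_update ξ)
    exact (integral_eval_PP i hg).symm
  · refine Integrable.of_bound (C := C) ?_ (Filter.Eventually.of_forall fun p => hC _)
    exact (hf.comp (measurable_piecewise_prod ({i} : Finset ι))).aestronglyMeasurable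

/-- Resampling the coordinates in a finite set: the average of `f` over the coordinates in `s`. -/
noncomputable def avg [DecidableEq ι] (s : Finset ι) (f : (ι → unitInterval) → ℝ)
    (ξ : ι → unitInterval) : ℝ :=
  ∫ ξ', f (s.piecewise ξ' ξ) ∂(PP ι)

theorem measurable_avg [DecidableEq ι] (s : Finset ι) {f : (ι → unitInterval) → ℝ}
    (hf : Measurable f) : Measurable (avg s f) := by
  have h : StronglyMeasurable (fun p : (ι → unitInterval) × (ι → unitInterval) =>
      f (s.piecewise p.2 p.1)) :=
    (hf.comp ((measurable_piecewise_prod s).comp measurable_swap)).stronglyMeasurable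
  exact h.integral_prod_right.measurable

theorem abs_avg_le [DecidableEq ι] (s : Finset ι) {f : (ι → unitInterval) → ℝ} {C : ℝ}
    (hC : ∀ ξ, |f ξ| ≤ C) (ξ : ι → unitInterval) : |avg s f ξ| ≤ C := by
  have h := norm_integral_le_of_norm_le_const (μ := PP ι)
    (f := fun ξ' => f (s.piecewise ξ' ξ)) (C := C) (Filter.Eventually.of_forall fun y => hC _)
  simpa [avg] using h

theorem avg_empty [DecidableEq ι] (f : (ι → unitInterval) → ℝ) : avg ∅ f = f := by
  funext ξ
  simp [avg]

/-- `avg s f` does not depend on the coordinates in `s`. -/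
theorem avg_congr [DecidableEq ι] (s : Finset ι) (f : (ι → unitInterval) → ℝ)
    {ξ ξ' : ι → unitInterval} (h : ∀ i, i ∉ s → ξ i = ξ' i) : avg s f ξ = avg s f ξ' := by
  unfold avg
  congr 1
  funext z
  congr 1
  funext i
  by_cases hi : i ∈ s
  · simp [hi]
  · simp [hi, h i hi]

theorem integrable_of_abs_le {f : (ι → unitInterval) → ℝ} (hf : Measurable f) {C : ℝ}
    (hC : ∀ x, |f x| ≤ C) : Integrable f (PP ι) :=
  Integrable.of_bound hf.aestronglyMeasurable C (Filter.Eventually.of_forall hC)

/-- Tower property: integrating against functions that ignore the coordinates in `s`. -/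
theorem integral_avg_mul [DecidableEq ι] (s : Finset ι) {f φ : (ι → unitInterval) → ℝ}
    (hf : Measurable f) (hφ : Measurable φ) {C D : ℝ} (hC : ∀ x, |f x| ≤ C)
    (hD : ∀ x, |φ x| ≤ D) (hφs : ∀ ξ ξ' : ι → unitInterval, φ (s.piecewise ξ' ξ) = φ ξ) :
    ∫ x, avg s f x * φ x ∂(PP ι) = ∫ x, f x * φ x ∂(PP ι) := by
  have hmp := measurePreserving_piecewise s
  have hm : Measurable fun x => f x * φ x := hf.mul hφ
  have h1 : ∫ x, f x * φ x ∂(PP ι)
      = ∫ p : (ι → unitInterval) × (ι → unitInterval),
        f (s.piecewise p.1 p.2) * φ (s.piecewise p.1 p.2) ∂((PP ι).prod (PP ι)) := by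
    conv_lhs => rw [← hmp.map_eq]
    rw [integral_map hmp.measurable.aemeasurable hm.aestronglyMeasurable]
  rw [h1, integral_prod_symm]
  · refine integral_congr_ae (Filter.Eventually.of_forall fun x => ?_)
    simp only [hφs, integral_mul_const]
    rfl
  · refine Integrable.of_bound (C := C * D) ?_ (Filter.Eventually.of_forall fun p => ?_)
    · exact (hm.comp (measurable_piecewise_prod s)).aestronglyMeasurable
    · simp only [norm_mul, Real.norm_eq_abs]
      exact mul_le_mul (hC _) (hD _) (abs_nonneg _) ((abs_nonneg _).trans (hC p.1))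

/-- `avg` has the same mean. -/
theorem integral_avg [DecidableEq ι] (s : Finset ι) {f : (ι → unitInterval) → ℝ}
    (hf : Measurable f) {C : ℝ} (hC : ∀ x, |f x| ≤ C) :
    ∫ x, avg s f x ∂(PP ι) = ∫ x, f x ∂(PP ι) := by
  have := integral_avg_mul s hf (φ := fun _ => 1) measurable_const hC (D := 1)
    (fun _ => by simp) (fun _ _ => rfl)
  simpa using this

/-- Resampling one more coordinate. -/
theorem avg_insert [DecidableEq ι] (s : Finset ι) {i : ι} (hi : i ∉ s)
    {f : (ι → unitInterval) → ℝ} (hf : Measurable f) {C : ℝ} (hC : ∀ x, |f x| ≤ C)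
    (x : ι → unitInterval) :
    avg (insert i s) f x = ∫ y, avg s f (Function.update x i (y i)) ∂(PP ι) := by
  have hmp := measurePreserving_piecewise ({i} : Finset ι)
  have hmx : Measurable fun y : (ι → unitInterval) => (insert i s).piecewise y x :=
    (measurable_piecewise_prod (insert i s)).comp (measurable_id.prodMk measurable_const)
  have hm : Measurable fun y => f ((insert i s).piecewise y x) := hf.comp hmx
  have h1 : avg (insert i s) f x
      = ∫ p : (ι → unitInterval) × (ι → unitInterval),
        f ((insert i s).piecewise (({i} : Finset ι).piecewise p.1 p.2) x)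
        ∂((PP ι).prod (PP ι)) := by
    unfold avg
    conv_lhs => rw [← hmp.map_eq]
    rw [integral_map hmp.measurable.aemeasurable hm.aestronglyMeasurable]
  rw [h1, integral_prod]
  · refine integral_congr_ae (Filter.Eventually.of_forall fun y => ?_)
    unfold avg
    refine integral_congr_ae (Filter.Eventually.of_forall fun z => ?_)
    simp only
    congr 1
    funext j
    by_cases hji : j = i
    · subst hji; simp [hi]
    · by_cases hj : j ∈ s
      · simp [hj, hji]
      · simp [hj, hji]
  · refine Integrable.of_bound (C := C) ?_ (Filter.Eventually.of_forall fun p => hC _)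
    exact (hm.comp (measurable_piecewise_prod ({i} : Finset ι))).aestronglyMeasurable

/-- Averaging preserves a one-coordinate oscillation bound. -/
theorem avg_osc [DecidableEq ι] (s : Finset ι) {i : ι} (hi : i ∉ s)
    {f : (ι → unitInterval) → ℝ} (hf : Measurable f)
    {C : ℝ} (hC : ∀ x, |f x| ≤ C) {c : ℝ}
    (hc : ∀ ξ x, |f (Function.update ξ i x) - f ξ| ≤ c) (ξ : ι → unitInterval)
    (x : unitInterval) :
    |avg s f (Function.update ξ i x) - avg s f ξ| ≤ c := by
  have hmx : ∀ ξ, Measurable fun y : (ι → unitInterval) => f (s.piecewise y ξ) := fun ξ =>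
    hf.comp ((measurable_piecewise_prod s).comp (measurable_id.prodMk measurable_const))
  have hint : ∀ ξ, Integrable (fun y : (ι → unitInterval) => f (s.piecewise y ξ))
      (PP ι) := fun ξ => integrable_of_abs_le (hmx ξ) fun y => hC _
  unfold avg
  rw [← integral_sub (hint _) (hint _)]
  have h := norm_integral_le_of_norm_le_const (μ := PP ι)
    (f := fun y => f (s.piecewise y (Function.update ξ i x)) - f (s.piecewise y ξ)) (C := c)
    (Filter.Eventually.of_forall fun y => ?_)
  · simpa using h
  · have : s.piecewise y (Function.update ξ i x) = Function.update (s.piecewise y ξ) i x := by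
      funext j
      by_cases hji : j = i
      · subst hji; simp [hi]
      · by_cases hj : j ∈ s <;> simp [hj, hji]
    rw [this]
    exact hc _ _

/-- Efron-Stein inequality. -/
theorem efron_stein [DecidableEq ι] (s : Finset ι) {f : (ι → unitInterval) → ℝ}
    (hf : Measurable f) (C : ℝ) (hC : ∀ ξ, |f ξ| ≤ C) (c : ι → ℝ)
    (hc : ∀ i ∈ s, ∀ ξ x, |f (Function.update ξ i x) - f ξ| ≤ c i) :
    ∫ ξ, (f ξ - avg s f ξ) ^ 2 ∂(PP ι) ≤ ∑ i ∈ s, c i ^ 2 := by
  induction s using Finset.induction_on with
  | empty => simp [avg_empty]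
  | insert i t hit ih =>
    have IH := ih fun j hj => hc j (Finset.mem_insert_of_mem hj)
    have hci := hc i (Finset.mem_insert_self i t)
    have hmT := measurable_avg t hf
    have hmS := measurable_avg (insert i t) hf
    have hbT := abs_avg_le t hC
    have hbS := abs_avg_le (insert i t) hC
    have hstep : ∀ x, |avg t f x - avg (insert i t) f x| ≤ c i := by
      intro x
      rw [avg_insert t hit hf hC x]
      have hmu : Measurable fun y : (ι → unitInterval) => avg t f (Function.update x i (y i)) :=
        hmT.comp ((measurable_update x).comp (measurable_pi_apply i))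
      have hint : Integrable (fun y : (ι → unitInterval) =>
          avg t f (Function.update x i (y i))) (PP ι) :=
        integrable_of_abs_le hmu fun y => hbT _
      have h2 : avg t f x = ∫ _y, avg t f x ∂(PP ι) := by simp
      conv_lhs => rw [h2]
      rw [← integral_sub (integrable_const _) hint]
      have h := norm_integral_le_of_norm_le_const (μ := PP ι)
        (f := fun y => avg t f x - avg t f (Function.update x i (y i))) (C := c i)
        (Filter.Eventually.of_forall fun y => by
          rw [Real.norm_eq_abs, abs_sub_comm]; exact avg_osc t hit hf hC hci x (y i))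
      simpa using h
    have hφm : Measurable fun x => avg t f x - avg (insert i t) f x := hmT.sub hmS
    have hφd : ∀ ξ ξ' : ι → unitInterval,
        avg t f (t.piecewise ξ' ξ) - avg (insert i t) f (t.piecewise ξ' ξ)
          = avg t f ξ - avg (insert i t) f ξ := by
      intro ξ ξ'
      rw [avg_congr t f (ξ := t.piecewise ξ' ξ) (ξ' := ξ) (fun j hj => by simp [hj]),
        avg_congr (insert i t) f (ξ := t.piecewise ξ' ξ) (ξ' := ξ) (fun j hj => by
          have : j ∉ t := fun h => hj (Finset.mem_insert_of_mem h)
          simp [this])]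
    have horth : ∫ x, (f x - avg t f x) * (avg t f x - avg (insert i t) f x) ∂(PP ι) = 0 := by
      have h1 := integral_avg_mul t hf hφm hC hstep hφd
      have hi1 : Integrable (fun x => f x * (avg t f x - avg (insert i t) f x)) (PP ι) := by
        refine integrable_of_abs_le (hf.mul hφm) (C := C * c i) fun x => ?_
        rw [abs_mul]
        exact mul_le_mul (hC _) (hstep _) (abs_nonneg _) ((abs_nonneg _).trans (hC x))
      have hi2 : Integrable (fun x => avg t f x * (avg t f x - avg (insert i t) f x))
          (PP ι) := by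
        refine integrable_of_abs_le (hmT.mul hφm) (C := C * c i) fun x => ?_
        rw [abs_mul]
        exact mul_le_mul (hbT _) (hstep _) (abs_nonneg _) ((abs_nonneg _).trans (hbT x))
      simp only [sub_mul]
      rw [integral_sub hi1 hi2, h1, sub_self]
    have hbd : ∀ {u : (ι → unitInterval) → ℝ} {M : ℝ}, Measurable u → (∀ x, |u x| ≤ M) →
        Integrable (fun x => (u x) ^ 2) (PP ι) := by
      intro u M hu hM
      refine integrable_of_abs_le (hu.pow_const 2) (C := M ^ 2) fun x => ?_
      rw [abs_pow]
      exact pow_le_pow_left₀ (abs_nonneg _) (hM x) 2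
    have hsplit : ∀ x, (f x - avg (insert i t) f x) ^ 2 = (f x - avg t f x) ^ 2
        + (avg t f x - avg (insert i t) f x) ^ 2
        + 2 * ((f x - avg t f x) * (avg t f x - avg (insert i t) f x)) := by
      intro x; ring
    have hb1 : ∀ x, |f x - avg t f x| ≤ C + C := fun x =>
      (abs_sub _ _).trans (add_le_add (hC x) (hbT x))
    have hI1 : Integrable (fun x => (f x - avg t f x) ^ 2) (PP ι) := hbd (hf.sub hmT) hb1
    have hI2 : Integrable (fun x => (avg t f x - avg (insert i t) f x) ^ 2) (PP ι) :=
      hbd hφm hstep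
    have hI3 : Integrable (fun x => (f x - avg t f x) *
        (avg t f x - avg (insert i t) f x)) (PP ι) := by
      refine integrable_of_abs_le ((hf.sub hmT).mul hφm) (C := (C + C) * c i) fun x => ?_
      rw [abs_mul]
      exact mul_le_mul (hb1 _) (hstep _) (abs_nonneg _) ((abs_nonneg _).trans (hb1 x))
    have key : ∫ x, (f x - avg (insert i t) f x) ^ 2 ∂(PP ι)
        = ∫ x, (f x - avg t f x) ^ 2 ∂(PP ι)
          + ∫ x, (avg t f x - avg (insert i t) f x) ^ 2 ∂(PP ι) := by
      simp only [hsplit]
      have e1 := integral_add (μ := PP ι)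
        (f := fun x => (f x - avg t f x) ^ 2 + (avg t f x - avg (insert i t) f x) ^ 2)
        (g := fun x => 2 * ((f x - avg t f x) * (avg t f x - avg (insert i t) f x)))
        (hI1.add hI2) (hI3.const_mul 2)
      rw [e1, integral_add hI1 hI2, integral_const_mul, horth, mul_zero, add_zero]
    rw [key, Finset.sum_insert hit, add_comm (c i ^ 2)]
    refine add_le_add IH ?_
    calc ∫ x, (avg t f x - avg (insert i t) f x) ^ 2 ∂(PP ι)
        ≤ ∫ _x, c i ^ 2 ∂(PP ι) := by
          refine integral_mono hI2 (integrable_const _) fun x => ?_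
          exact sq_le_sq' (abs_le.1 (hstep x)).1 (abs_le.1 (hstep x)).2
      _ = c i ^ 2 := by simp

/-- Telescoping a coordinatewise Lipschitz bound. -/
theorem lipschitz_of_coord [DecidableEq ι] (S : Finset ι) {f : (ι → unitInterval) → ℝ}
    (c : ι → ℝ)
    (hdep : ∀ ξ ξ' : ι → unitInterval, (∀ i ∈ S, ξ i = ξ' i) → f ξ = f ξ')
    (hc : ∀ i ∈ S, ∀ ξ (x : unitInterval),
      |f (Function.update ξ i x) - f ξ| ≤ c i * |(x : ℝ) - ξ i|)
    (ξ ξ' : ι → unitInterval) :
    |f ξ - f ξ'| ≤ ∑ i ∈ S, c i * |(ξ i : ℝ) - ξ' i| := by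
  have key : ∀ T : Finset ι, T ⊆ S →
      |f (T.piecewise ξ ξ') - f ξ'| ≤ ∑ i ∈ T, c i * |(ξ i : ℝ) - ξ' i| := by
    intro T
    induction T using Finset.induction_on with
    | empty => intro _; simp
    | insert i T hi ih =>
      intro hT
      have hiS : i ∈ S := hT (Finset.mem_insert_self i T)
      have IH := ih fun j hj => hT (Finset.mem_insert_of_mem hj)
      have hup : (insert i T).piecewise ξ ξ' = Function.update (T.piecewise ξ ξ') i (ξ i) := by
        rw [Finset.piecewise_insert]
      have h1 := hc i hiS (T.piecewise ξ ξ') (ξ i)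
      rw [← hup] at h1
      have h2 : (T.piecewise ξ ξ') i = ξ' i := by simp [hi]
      rw [h2] at h1
      rw [Finset.sum_insert hi]
      calc |f ((insert i T).piecewise ξ ξ') - f ξ'|
          = |(f ((insert i T).piecewise ξ ξ') - f (T.piecewise ξ ξ'))
              + (f (T.piecewise ξ ξ') - f ξ')| := by ring_nf
        _ ≤ _ := (abs_add_le _ _).trans (add_le_add h1 IH)
  have h := key S subset_rfl
  have h3 : f (S.piecewise ξ ξ') = f ξ := hdep _ _ fun i hi => by simp [hi]
  rwa [h3] at h

/-- A coordinatewise Lipschitz function which depends only on the coordinates in `S` has an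
average over `s ⊆ S` which depends only on, and is Lipschitz in, the coordinates in `S \ s`. -/
theorem avg_lipschitz [DecidableEq ι] (S s : Finset ι) {f : (ι → unitInterval) → ℝ}
    (hf : Measurable f) (C : ℝ) (hC : ∀ ξ, |f ξ| ≤ C) (c : ι → ℝ)
    (hdep : ∀ ξ ξ' : ι → unitInterval, (∀ i ∈ S, ξ i = ξ' i) → f ξ = f ξ')
    (hc : ∀ i ∈ S, ∀ ξ (x : unitInterval),
      |f (Function.update ξ i x) - f ξ| ≤ c i * |(x : ℝ) - ξ i|)
    (ξ ξ' : ι → unitInterval) :
    |avg s f ξ - avg s f ξ'| ≤ ∑ i ∈ S \ s, c i * |(ξ i : ℝ) - ξ' i| := by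
  have hmx : ∀ ξ, Measurable fun y : (ι → unitInterval) => f (s.piecewise y ξ) := fun ξ =>
    hf.comp ((measurable_piecewise_prod s).comp (measurable_id.prodMk measurable_const))
  have hint : ∀ ξ, Integrable (fun y : (ι → unitInterval) => f (s.piecewise y ξ))
      (PP ι) := fun ξ => integrable_of_abs_le (hmx ξ) fun y => hC _
  unfold avg
  rw [← integral_sub (hint _) (hint _)]
  have h := norm_integral_le_of_norm_le_const (μ := PP ι)
    (f := fun y => f (s.piecewise y ξ) - f (s.piecewise y ξ'))
    (C := ∑ i ∈ S \ s, c i * |(ξ i : ℝ) - ξ' i|)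
    (Filter.Eventually.of_forall fun y => ?_)
  · simpa using h
  · have h1 := lipschitz_of_coord S c hdep hc (s.piecewise y ξ) (s.piecewise y ξ')
    refine h1.trans (le_of_eq ?_)
    have h2 : ∑ i ∈ S, c i * |((s.piecewise y ξ i : unitInterval) : ℝ) - s.piecewise y ξ' i|
        = ∑ i ∈ S \ s, c i * |((s.piecewise y ξ i : unitInterval) : ℝ) - s.piecewise y ξ' i| := by
      symm
      refine Finset.sum_subset Finset.sdiff_subset fun i hiS hi => ?_
      have : i ∈ s := by
        by_contra hc'
        exact hi (Finset.mem_sdiff.2 ⟨hiS, hc'⟩)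
      simp [this]
    rw [h2]
    refine Finset.sum_congr rfl fun i hi => ?_
    have : i ∉ s := (Finset.mem_sdiff.1 hi).2
    simp [this]

end Vale.Agent.P161
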