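import Vale.Agent.Lib.P161.Imp

/-!
P161, tree part. Everything is stated with the graph distance of a tree `G`.
-/

namespace Vale.Agent.P161

variable {V : Type*} {G : SimpleGraph V}

/-- A vertex of a tree has at most one neighbour that is closer to `u`. -/
theorem parent_unique (hG : G.IsTree) {u v w₁ w₂ : V} (h₁ : G.Adj v w₁) (h₂ : G.Adj v w₂)
    (d₁ : G.dist u v = G.dist u w₁ + 1) (d₂ : G.dist u v = G.dist u w₂ + 1) : w₁ = w₂ := by
  obtain ⟨p₁, hp₁, l₁⟩ := hG.connected.exists_path_of_dist u w₁
  obtain ⟨p₂, hp₂, l₂⟩ := hG.connected.exists_path_of_dist u w₂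
  have q₁ : (p₁.concat h₁.symm).IsPath := by
    apply SimpleGraph.Walk.isPath_of_length_eq_dist
    rw [SimpleGraph.Walk.length_concat, l₁, d₁]
  have q₂ : (p₂.concat h₂.symm).IsPath := by
    apply SimpleGraph.Walk.isPath_of_length_eq_dist
    rw [SimpleGraph.Walk.length_concat, l₂, d₂]
  have h := (hG.existsUnique_path u v).unique q₁ q₂
  have h3 := congrArg SimpleGraph.Walk.penultimate h
  simpa using h3

/-- A vertex different from `u` has a neighbour that is closer to `u`. -/
theorem exists_parent (hG : G.Connected) {u v : V} {n : ℕ} (h : G.dist u v = n + 1) :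
    ∃ w, G.Adj v w ∧ G.dist u w = n := by
  obtain ⟨p, hp⟩ := hG.exists_walk_length_eq_dist u v
  have hnil : ¬ p.Nil := by
    intro hn
    have := SimpleGraph.Walk.length_eq_zero_iff.2 hn
    omega
  refine ⟨p.penultimate, (p.adj_penultimate hnil).symm, ?_⟩
  have h1 : G.dist u p.penultimate ≤ n := by
    have := SimpleGraph.dist_le p.dropLast
    rw [SimpleGraph.Walk.length_dropLast] at this
    omega
  have h2 : G.dist u v ≤ G.dist u p.penultimate + G.dist p.penultimate v :=
    hG.dist_triangle
  have h3 : G.dist p.penultimate v = 1 := SimpleGraph.dist_eq_one_iff_adj.2 (p.adj_penultimate hnil)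
  omega

/-- The only edge between the two sides of the edge `p q` is `p q` itself. -/
theorem cross_edge (hG : G.IsTree) {p q y z : V} (hpq : G.Adj p q) (hyz : G.Adj y z)
    (hy : G.dist y q = G.dist y p + 1) (hz : G.dist z p = G.dist z q + 1) :
    y = p ∧ z = q := by
  have hc := hG.connected
  have e1 := hG.dist_eq_dist_add_one_of_adj p hyz
  have e2 := hG.dist_eq_dist_add_one_of_adj q hyz
  have c1 : G.dist p y = G.dist y p := SimpleGraph.dist_comm
  have c2 : G.dist p z = G.dist z p := SimpleGraph.dist_comm
  have c3 : G.dist q y = G.dist y q := SimpleGraph.dist_comm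
  have c4 : G.dist q z = G.dist z q := SimpleGraph.dist_comm
  have hab : G.dist z q = G.dist y p := by omega
  rcases Nat.eq_zero_or_pos (G.dist y p) with h0 | hpos
  · have hyp : y = p := (hc.dist_eq_zero_iff).1 h0
    have hzq : z = q := (hc.dist_eq_zero_iff).1 (by omega)
    exact ⟨hyp, hzq⟩
  · exfalso
    obtain ⟨n, hn⟩ : ∃ n, G.dist z q = n + 1 := ⟨G.dist z q - 1, by omega⟩
    obtain ⟨q', hq', hzq'⟩ := exists_parent hc hn
    -- both `p` and `q'` are parents of `q` seen from `y`
    have h1 : G.dist y q' ≤ G.dist y z + G.dist z q' := hc.dist_triangle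
    have h2 : G.dist y z = 1 := SimpleGraph.dist_eq_one_iff_adj.2 hyz
    have h3 : G.dist y q ≤ G.dist y q' + G.dist q' q := hc.dist_triangle
    have h4 : G.dist q' q = 1 := SimpleGraph.dist_eq_one_iff_adj.2 hq'.symm
    have h5 : G.dist y q = G.dist y q' + 1 := by omega
    have h6 := parent_unique hG hpq.symm hq' hy h5
    subst h6
    omega

/-- Edge separation: if `p ~ q`, `w` is on the `p`-side and `x` is on the `q`-side, then the
distance between `w` and `x` goes through the edge. -/
theorem dist_through_edge (hG : G.IsTree) {p q w x : V} (hpq : G.Adj p q)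
    (hw : G.dist w q = G.dist w p + 1) (hx : G.dist x p = G.dist x q + 1) :
    G.dist w x = G.dist w p + 1 + G.dist q x := by
  have hc := hG.connected
  have key : ∀ n : ℕ, ∀ w : V, G.dist w p = n → G.dist w q = G.dist w p + 1 →
      G.dist x w = n + 1 + G.dist q x := by
    intro n
    induction n using Nat.strong_induction_on with
    | _ n ih =>
      intro w hn hwq
      rcases n with _ | n
      · have : w = p := (hc.dist_eq_zero_iff).1 hn
        subst this
        rw [hx, SimpleGraph.dist_comm (u := q)]; omega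
      · have hn' : G.dist p w = n + 1 := by rw [SimpleGraph.dist_comm]; exact hn
        obtain ⟨w', hww', hw'⟩ := exists_parent hc hn'
        have hw'p : G.dist w' p = n := by rw [SimpleGraph.dist_comm]; exact hw'
        have hw'q : G.dist w' q = G.dist w' p + 1 := by
          have h1 : G.dist w q ≤ G.dist w w' + G.dist w' q := hc.dist_triangle
          have h2 : G.dist w w' = 1 := SimpleGraph.dist_eq_one_iff_adj.2 hww'
          have h3 : G.dist w' q ≤ G.dist w' p + G.dist p q := hc.dist_triangle
          have h4 : G.dist p q = 1 := SimpleGraph.dist_eq_one_iff_adj.2 hpq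
          omega
        have IH := ih n (by omega) w' hw'p hw'q
        rcases hG.dist_eq_dist_add_one_of_adj x hww' with h | h
        · omega
        · exfalso
          -- `w` is a parent of `w'` seen from `x`
          rcases n with _ | m
          · have hw'eq : w' = p := (hc.dist_eq_zero_iff).1 hw'p
            subst hw'eq
            have hwq' : w = q := parent_unique hG hww'.symm hpq h hx
            rw [hwq', SimpleGraph.dist_self] at hwq
            omega
          · obtain ⟨w'', hw'w'', hw''⟩ := exists_parent hc hw'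
            have hw''p : G.dist w'' p = m := by rw [SimpleGraph.dist_comm]; exact hw''
            have hw''q : G.dist w'' q = G.dist w'' p + 1 := by
              have h1 : G.dist w' q ≤ G.dist w' w'' + G.dist w'' q := hc.dist_triangle
              have h2 : G.dist w' w'' = 1 := SimpleGraph.dist_eq_one_iff_adj.2 hw'w''
              have h3 : G.dist w'' q ≤ G.dist w'' p + G.dist p q := hc.dist_triangle
              have h4 : G.dist p q = 1 := SimpleGraph.dist_eq_one_iff_adj.2 hpq
              omega
            have IH' := ih m (by omega) w'' hw''p hw''q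
            have h5 : G.dist x w' = G.dist x w'' + 1 := by omega
            have h6 := parent_unique hG hww'.symm hw'w'' h h5
            rw [h6] at hn
            omega
  have h := key (G.dist w p) w rfl hw
  rw [SimpleGraph.dist_comm (u := w)]
  exact h

/-- Sphere sizes in a `d`-regular graph. -/
theorem card_sphere_le [G.LocallyFinite] (hG : G.IsTree) {d : ℕ} (hd : 2 ≤ d)
    (hreg : G.IsRegularOfDegree d) (o : V) (n : ℕ) (A : Finset V)
    (hA : ∀ w ∈ A, G.dist o w = n) : A.card ≤ d * (d - 1) ^ (n - 1) := by
  classical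
  have hc := hG.connected
  induction n generalizing A with
  | zero =>
    have : A ⊆ {o} := fun w hw => by
      have := (hc.dist_eq_zero_iff).1 (hA w hw)
      simp [this]
    have h1 := Finset.card_le_card this
    simp only [Finset.card_singleton] at h1
    simp only [Nat.zero_sub, pow_zero, mul_one]
    omega
  | succ n ih =>
    have hpar : ∀ w ∈ A, ∃ v, G.Adj w v ∧ G.dist o v = n := fun w hw =>
      exists_parent hc (hA w hw)
    choose! f hf using hpar
    have hIH := ih (A.image f) (fun v hv => by
      obtain ⟨w, hw, rfl⟩ := Finset.mem_image.1 hv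
      exact (hf w hw).2)
    rcases n with _ | n
    · -- sphere of radius one
      have : A ⊆ G.neighborFinset o := fun w hw => by
        have h1 := SimpleGraph.dist_eq_one_iff_adj.1 (hA w hw)
        simpa using h1
      have h1 := Finset.card_le_card this
      rw [SimpleGraph.card_neighborFinset_eq_degree, hreg o] at h1
      simpa using h1
    · have hfib : ∀ b ∈ A.image f, (A.filter fun a => f a = b).card ≤ d - 1 := by
        intro b hb
        obtain ⟨w, hw, rfl⟩ := Finset.mem_image.1 hb
        have hd1 := (hf w hw).2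
        obtain ⟨c, hbc, hc'⟩ := exists_parent hc hd1
        have hsub : (A.filter fun a => f a = f w) ⊆ (G.neighborFinset (f w)).erase c := by
          intro a ha
          obtain ⟨haA, hfa⟩ := Finset.mem_filter.1 ha
          rw [Finset.mem_erase, SimpleGraph.mem_neighborFinset]
          refine ⟨fun hac => ?_, ?_⟩
          · have := hA a haA
            rw [hac, hc'] at this
            omega
          · have := (hf a haA).1
            rw [hfa] at this
            exact this.symm
        have h1 := Finset.card_le_card hsub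
        rw [Finset.card_erase_of_mem (by simpa using hbc),
          SimpleGraph.card_neighborFinset_eq_degree, hreg (f w)] at h1
        exact h1
      have h2 := Finset.card_le_mul_card_image A (d - 1) hfib
      calc A.card ≤ (d - 1) * (A.image f).card := h2
        _ ≤ (d - 1) * (d * (d - 1) ^ (n + 1 - 1)) := Nat.mul_le_mul_left _ hIH
        _ = d * (d - 1) ^ (n + 1 + 1 - 1) := by
            simp only [Nat.add_sub_cancel]
            ring

/-- Uniform bound for finite geometric sums over the tree. -/
theorem sum_pow_dist_le [G.LocallyFinite] (hG : G.IsTree) {d : ℕ} (hd : 2 ≤ d)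
    (hreg : G.IsRegularOfDegree d) {r : ℝ} (hr : 0 ≤ r) (hr1 : r * (d - 1) < 1) :
    ∃ S : ℝ, ∀ (o : V) (A : Finset V), ∑ w ∈ A, r ^ G.dist o w ≤ S := by
  classical
  have hd' : (1 : ℝ) ≤ (d : ℝ) - 1 := by
    have : (2 : ℝ) ≤ d := by exact_mod_cast hd
    linarith
  have hq0 : 0 ≤ r * ((d : ℝ) - 1) := mul_nonneg hr (by linarith)
  refine ⟨d * (1 - r * (d - 1))⁻¹, fun o A => ?_⟩
  obtain ⟨N, hN⟩ : ∃ N : ℕ, ∀ w ∈ A, G.dist o w < N := by
    refine ⟨A.sup (fun w => G.dist o w) + 1, fun w hw => ?_⟩
    exact Nat.lt_succ_of_le (Finset.le_sup (f := fun w => G.dist o w) hw)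
  have hfib : ∑ w ∈ A, r ^ G.dist o w
      = ∑ n ∈ Finset.range N, ∑ w ∈ A with G.dist o w = n, r ^ G.dist o w := by
    refine (Finset.sum_fiberwise_of_maps_to (fun w hw => ?_) _).symm
    exact Finset.mem_range.2 (hN w hw)
  rw [hfib]
  have hterm : ∀ n ∈ Finset.range N, ∑ w ∈ A with G.dist o w = n, r ^ G.dist o w
      ≤ d * (r * ((d : ℝ) - 1)) ^ n := by
    intro n _
    have h1 : ∑ w ∈ A with G.dist o w = n, r ^ G.dist o w
        = ((A.filter fun w => G.dist o w = n).card : ℝ) * r ^ n := by
      rw [Finset.sum_congr rfl (g := fun _ => r ^ n) (fun w hw => by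
        rw [(Finset.mem_filter.1 hw).2])]
      simp
    rw [h1]
    have h2 := card_sphere_le hG hd hreg o n (A.filter fun w => G.dist o w = n)
      (fun w hw => (Finset.mem_filter.1 hw).2)
    have h3 : ((A.filter fun w => G.dist o w = n).card : ℝ) ≤ d * ((d : ℝ) - 1) ^ (n - 1) := by
      have : (((d - 1 : ℕ) : ℝ)) = (d : ℝ) - 1 := by
        rw [Nat.cast_sub (by omega)]; simp
      rw [← this]
      exact_mod_cast h2
    have h4 : ((d : ℝ) - 1) ^ (n - 1) ≤ ((d : ℝ) - 1) ^ n :=
      pow_le_pow_right₀ hd' (Nat.sub_le n 1)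
    have h5 : ((A.filter fun w => G.dist o w = n).card : ℝ) ≤ d * ((d : ℝ) - 1) ^ n :=
      h3.trans (mul_le_mul_of_nonneg_left h4 (by positivity))
    calc ((A.filter fun w => G.dist o w = n).card : ℝ) * r ^ n
        ≤ (d * ((d : ℝ) - 1) ^ n) * r ^ n := mul_le_mul_of_nonneg_right h5 (pow_nonneg hr n)
      _ = d * (r * ((d : ℝ) - 1)) ^ n := by rw [mul_pow]; ring
  calc ∑ n ∈ Finset.range N, ∑ w ∈ A with G.dist o w = n, r ^ G.dist o w
      ≤ ∑ n ∈ Finset.range N, d * (r * ((d : ℝ) - 1)) ^ n := Finset.sum_le_sum hterm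
    _ = d * ∑ n ∈ Finset.range N, (r * ((d : ℝ) - 1)) ^ n := by rw [Finset.mul_sum]
    _ ≤ d * (1 - r * (d - 1))⁻¹ := by
        refine mul_le_mul_of_nonneg_left ?_ (by positivity)
        rw [← tsum_geometric_of_lt_one hq0 hr1]
        exact (summable_geometric_of_lt_one hq0 hr1).sum_le_tsum _
          (fun n _ => pow_nonneg hq0 n)

/-- Kernel inequality: for `θ < θ'` and `θ θ' (d-1) < 1`,
`∑_w θ^{d(v,w)} θ'^{d(w,x)} ≤ C θ'^{d(v,x)}`. -/
theorem kernel_bound [G.LocallyFinite] (hG : G.IsTree) {d : ℕ} (hd : 2 ≤ d)
    (hreg : G.IsRegularOfDegree d) {θ θ' : ℝ} (h0 : 0 ≤ θ) (h1 : θ < θ')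
    (h2 : θ * θ' * (d - 1) < 1) :
    ∃ C : ℝ, 0 ≤ C ∧ ∀ (v x : V) (A : Finset V),
      ∑ w ∈ A, θ ^ G.dist v w * θ' ^ G.dist w x ≤ C * θ' ^ G.dist v x := by
  classical
  have hc := hG.connected
  have hθ' : 0 < θ' := lt_of_le_of_lt h0 h1
  obtain ⟨S, hS⟩ := sum_pow_dist_le hG hd hreg (r := θ * θ') (mul_nonneg h0 hθ'.le) h2
  have hS0 : 0 ≤ S := by
    obtain ⟨o⟩ := hc.nonempty
    simpa using hS o ∅
  have hρ : θ / θ' < 1 := (div_lt_one hθ').2 h1
  have hρ0 : 0 ≤ θ / θ' := div_nonneg h0 hθ'.le
  refine ⟨S / (1 - θ / θ'), div_nonneg hS0 (by linarith), fun v x A => ?_⟩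
  set C := S / (1 - θ / θ') with hC
  have hCeq : S + θ / θ' * C = C := by
    have hne : (1 - θ / θ') ≠ 0 := by linarith
    have h3 : C * (1 - θ / θ') = S := by rw [hC]; exact div_mul_cancel₀ S hne
    linarith
  have hCS : S ≤ C := by
    have : 0 ≤ θ / θ' * C := mul_nonneg hρ0 (div_nonneg hS0 (by linarith))
    linarith
  have key : ∀ n : ℕ, ∀ v : V, G.dist x v = n → ∀ A : Finset V,
      ∑ w ∈ A, θ ^ G.dist v w * θ' ^ G.dist w x ≤ C * θ' ^ n := by
    intro n
    induction n with
    | zero =>
      intro v hv A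
      have hvx : x = v := (hc.dist_eq_zero_iff).1 hv
      subst hvx
      have : ∀ w ∈ A, θ ^ G.dist x w * θ' ^ G.dist w x = (θ * θ') ^ G.dist x w := fun w _ => by
        rw [SimpleGraph.dist_comm (u := w), mul_pow]
      rw [Finset.sum_congr rfl this, pow_zero, mul_one]
      exact (hS x A).trans hCS
    | succ n ih =>
      intro v hv A
      obtain ⟨v', hvv', hv'⟩ := exists_parent hc hv
      have hxv' : G.dist x v = G.dist x v' + 1 := by omega
      rw [← Finset.sum_filter_add_sum_filter_not A (fun w => G.dist w v' = G.dist w v + 1)]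
      have hA1 : ∑ w ∈ A with G.dist w v' = G.dist w v + 1, θ ^ G.dist v w * θ' ^ G.dist w x
          ≤ S * θ' ^ (n + 1) := by
        have : ∀ w ∈ A.filter (fun w => G.dist w v' = G.dist w v + 1),
            θ ^ G.dist v w * θ' ^ G.dist w x = (θ * θ') ^ G.dist v w * θ' ^ (n + 1) := by
          intro w hw
          have hw' := (Finset.mem_filter.1 hw).2
          have h3 := dist_through_edge hG hvv' hw' hxv'
          have h4 : G.dist w x = G.dist v w + (n + 1) := by
            rw [h3, SimpleGraph.dist_comm (u := w), SimpleGraph.dist_comm (u := v') (v := x), hv']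
            ring
          rw [h4, pow_add, mul_pow]
          ring
        rw [Finset.sum_congr rfl this, ← Finset.sum_mul]
        exact mul_le_mul_of_nonneg_right (hS v _) (pow_nonneg hθ'.le _)
      have hA2 : ∑ w ∈ A with ¬ (G.dist w v' = G.dist w v + 1),
          θ ^ G.dist v w * θ' ^ G.dist w x ≤ θ / θ' * C * θ' ^ (n + 1) := by
        have : ∀ w ∈ A.filter (fun w => ¬ (G.dist w v' = G.dist w v + 1)),
            θ ^ G.dist v w * θ' ^ G.dist w x
              = θ * (θ ^ G.dist v' w * θ' ^ G.dist w x) := by
          intro w hw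
          have hw' := (Finset.mem_filter.1 hw).2
          have h3 := hG.dist_eq_dist_add_one_of_adj w hvv'
          have h4 : G.dist v w = G.dist v' w + 1 := by
            rw [SimpleGraph.dist_comm (u := v), SimpleGraph.dist_comm (u := v')]
            omega
          rw [h4, pow_succ]
          ring
        rw [Finset.sum_congr rfl this, ← Finset.mul_sum]
        calc θ * ∑ w ∈ A with ¬ (G.dist w v' = G.dist w v + 1),
              θ ^ G.dist v' w * θ' ^ G.dist w x
            ≤ θ * (C * θ' ^ n) := mul_le_mul_of_nonneg_left (ih v' hv' _) h0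
          _ = θ / θ' * C * θ' ^ (n + 1) := by
              rw [pow_succ]
              field_simp
      calc _ ≤ S * θ' ^ (n + 1) + θ / θ' * C * θ' ^ (n + 1) := add_le_add hA1 hA2
        _ = (S + θ / θ' * C) * θ' ^ (n + 1) := by ring
        _ = C * θ' ^ (n + 1) := by rw [hCeq]
  have h := key (G.dist x v) v rfl A
  rwa [SimpleGraph.dist_comm (u := x)] at h

/-- Balls are finite. -/
theorem finite_ball [G.LocallyFinite] (hG : G.Connected) (o : V) (n : ℕ) :
    {w : V | G.dist o w ≤ n}.Finite := by
  induction n with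
  | zero =>
    refine (Set.finite_singleton o).subset fun w hw => ?_
    have : G.dist o w = 0 := Nat.le_zero.1 hw
    exact ((hG.dist_eq_zero_iff).1 this).symm
  | succ n ih =>
    have h : {w : V | G.dist o w ≤ n + 1} ⊆ {w : V | G.dist o w ≤ n} ∪
        ⋃ v ∈ {w : V | G.dist o w ≤ n}, G.neighborSet v := by
      intro w hw
      rcases Nat.lt_or_ge (G.dist o w) (n + 1) with h1 | h1
      · exact Or.inl (Nat.lt_succ_iff.1 h1)
      · have h2 : G.dist o w = n + 1 := le_antisymm hw h1
        obtain ⟨v, hv, hd⟩ := exists_parent hG h2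
        refine Or.inr (Set.mem_biUnion (x := v) (by simp [hd]) hv.symm)
    refine (ih.union (ih.biUnion fun v _ => ?_)).subset h
    exact Set.toFinite _

/-- A locally finite connected graph has countably many vertices. -/
theorem countable_of_locallyFinite [G.LocallyFinite] (hG : G.Connected) : Countable V := by
  obtain ⟨o⟩ := hG.nonempty
  have h : (Set.univ : Set V) = ⋃ n : ℕ, {w : V | G.dist o w ≤ n} := by
    ext w
    simp only [Set.mem_univ, Set.mem_iUnion, Set.mem_ofPred_eq, true_iff]
    exact ⟨_, le_rfl⟩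
  rw [← Set.countable_univ_iff, h]
  exact Set.countable_iUnion fun n => (finite_ball hG o n).countable

end Vale.Agent.P161
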