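import Vale.Agent.Lib.P161.Defs
import Vale.Agent.Lib.P161.Prod
import Vale.Agent.Lib.P161.Tree
import Vale.Agent.Lib.P161.Homog

/-!
P161: block approximation of the pair correlations of a factor of IID on a regular tree.
-/

open MeasureTheory Filter

namespace Vale.Agent.P161

namespace Block

variable {V : Type*}

open Classical in
/-- Averaging over the coordinates outside the finite set `S`. -/
noncomputable def ce (S : Finset V) (f : (V → unitInterval) → ℝ) (U : V → unitInterval) : ℝ :=
  ∫ U', f (S.piecewise U U') ∂(PP V)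

open Classical in
theorem measurable_ce (S : Finset V) {f : (V → unitInterval) → ℝ} (hf : Measurable f) :
    Measurable (ce S f) := by
  have h : StronglyMeasurable (fun p : (V → unitInterval) × (V → unitInterval) =>
      f (S.piecewise p.1 p.2)) := (hf.comp (measurable_piecewise_prod S)).stronglyMeasurable
  exact h.integral_prod_right.measurable

theorem abs_ce_le (S : Finset V) {f : (V → unitInterval) → ℝ} {C : ℝ} (hC : ∀ ξ, |f ξ| ≤ C)
    (ξ : V → unitInterval) : |ce S f ξ| ≤ C := by
  classical
  have h := norm_integral_le_of_norm_le_const (μ := PP V)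
    (f := fun ξ' => f (S.piecewise ξ ξ')) (C := C) (Eventually.of_forall fun y => hC _)
  simpa [ce] using h

theorem ce_congr (S : Finset V) (f : (V → unitInterval) → ℝ) {ξ ξ' : V → unitInterval}
    (h : ∀ i ∈ S, ξ i = ξ' i) : ce S f ξ = ce S f ξ' := by
  classical
  unfold ce
  congr 1
  funext z
  congr 1
  funext i
  by_cases hi : i ∈ S
  · simp [hi, h i hi]
  · simp [hi]

theorem ce_self (S : Finset V) {f : (V → unitInterval) → ℝ}
    (h : ∀ ξ ξ' : V → unitInterval, (∀ i ∈ S, ξ i = ξ' i) → f ξ = f ξ') : ce S f = f := by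
  classical
  funext ξ
  have : ∀ z, f (S.piecewise ξ z) = f ξ := fun z => h _ _ fun i hi => by simp [hi]
  simp [ce, this]

theorem integral_ce (S : Finset V) {f : (V → unitInterval) → ℝ} (hf : Measurable f) {C : ℝ}
    (hC : ∀ x, |f x| ≤ C) : ∫ x, ce S f x ∂(PP V) = ∫ x, f x ∂(PP V) := by
  classical
  have hmp := measurePreserving_piecewise S
  have h1 : ∫ x, f x ∂(PP V) = ∫ p : (V → unitInterval) × (V → unitInterval),
      f (S.piecewise p.1 p.2) ∂((PP V).prod (PP V)) := by
    conv_lhs => rw [← hmp.map_eq]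
    rw [integral_map hmp.measurable.aemeasurable hf.aestronglyMeasurable]
  rw [h1, integral_prod]
  · rfl
  · exact Integrable.of_bound (C := C)
      (hf.comp (measurable_piecewise_prod S)).aestronglyMeasurable
      (Eventually.of_forall fun p => hC _)

theorem integral_abs_ce_sub_le (S : Finset V) {f g : (V → unitInterval) → ℝ} (hf : Measurable f)
    (hg : Measurable g) {C : ℝ} (hC : ∀ x, |f x| ≤ C) (hD : ∀ x, |g x| ≤ C) :
    ∫ x, |ce S f x - ce S g x| ∂(PP V) ≤ ∫ x, |f x - g x| ∂(PP V) := by
  classical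
  have hb : ∀ x, |(|f x - g x|)| ≤ 2 * C := fun x => by
    rw [abs_abs]; have := abs_sub (f x) (g x); linarith [hC x, hD x]
  have hm : Measurable fun x => |f x - g x| := (hf.sub hg).abs
  have hms : ∀ U, Measurable fun z : V → unitInterval => S.piecewise U z := fun U =>
    (measurable_piecewise_prod S).comp (measurable_const.prodMk measurable_id)
  rw [← integral_ce S hm hb]
  refine integral_mono ?_ ?_ fun U => ?_
  · refine integrable_of_abs_le ((measurable_ce S hf).sub (measurable_ce S hg)).abs
      (C := 2 * C) fun x => ?_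
    rw [abs_abs]
    have := abs_sub (ce S f x) (ce S g x)
    linarith [abs_ce_le S hC x, abs_ce_le S hD x]
  · exact integrable_of_abs_le (measurable_ce S hm) fun x => abs_ce_le S hb x
  · have h1 : ce S f U - ce S g U = ∫ z, (f (S.piecewise U z) - g (S.piecewise U z)) ∂(PP V) := by
      rw [integral_sub]
      · rfl
      · exact integrable_of_abs_le (hf.comp (hms U)) fun x => hC _
      · exact integrable_of_abs_le (hg.comp (hms U)) fun x => hD _
    rw [h1]
    exact abs_integral_le_integral_abs

theorem ce_ae_congr (S : Finset V) {f g : (V → unitInterval) → ℝ} (h : f =ᵐ[PP V] g) :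
    ce S f =ᵐ[PP V] ce S g := by
  classical
  have hmp := measurePreserving_piecewise S
  have h1 : ∀ᵐ p ∂((PP V).prod (PP V)), f (S.piecewise p.1 p.2) = g (S.piecewise p.1 p.2) :=
    hmp.quasiMeasurePreserving.ae h
  have h2 := Measure.ae_ae_of_ae_prod h1
  filter_upwards [h2] with U hU
  exact integral_congr_ae hU

/-- reindexing the labels -/
def act {V : Type*} (g : V ≃ V) (U : V → unitInterval) : V → unitInterval := fun v => U (g.symm v)

theorem measurePreserving_act (g : V ≃ V) : MeasurePreserving (act g) (PP V) (PP V) := by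
  refine ⟨measurable_pi_iff.2 fun v => measurable_pi_apply _, ?_⟩
  exact Measure.map_infinitePi_infinitePi_of_inj
    (P := fun _ : V => (volume : Measure unitInterval)) g.symm.injective

theorem integral_act (g : V ≃ V) {F : (V → unitInterval) → ℝ} (hF : Measurable F) :
    ∫ U, F (act g U) ∂(PP V) = ∫ U, F U ∂(PP V) := by
  have hmp := measurePreserving_act g
  conv_rhs => rw [← hmp.map_eq]
  rw [integral_map hmp.measurable.aemeasurable hF.aestronglyMeasurable]

theorem ce_act (g : V ≃ V) (S : Finset V) (f : (V → unitInterval) → ℝ) (hf : Measurable f)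
    (U : V → unitInterval) :
    ce (S.map g.toEmbedding) f (act g U) = ce S (fun x => f (act g x)) U := by
  classical
  have hmp := measurePreserving_act g
  unfold ce
  conv_lhs => rw [← hmp.map_eq]
  rw [integral_map hmp.measurable.aemeasurable]
  · congr 1
    funext z
    congr 1
    funext v
    by_cases hv : v ∈ S.map g.toEmbedding
    · have : g.symm v ∈ S := by
        rw [Finset.mem_map_equiv] at hv; exact hv
      simp [act, this]
    · have : g.symm v ∉ S := by
        rw [Finset.mem_map_equiv] at hv; exact hv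
      simp [act, this]
  · exact (hf.comp ((measurable_piecewise_prod _).comp
      (measurable_const.prodMk measurable_id))).aestronglyMeasurable

theorem exists_local (A : Set (V → unitInterval)) (hA : MeasurableSet A) {ε : ℝ} (hε : 0 < ε) :
    ∃ (S : Finset V) (B : Set (V → unitInterval)), MeasurableSet B ∧
      (∀ ξ ξ' : V → unitInterval, (∀ i ∈ S, ξ i = ξ' i) → (ξ ∈ B ↔ ξ' ∈ B)) ∧
      PP V (symmDiff A B) < ENNReal.ofReal ε := by
  have halg : IsSetAlgebra (measurableCylinders fun _ : V => unitInterval) :=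
    ⟨empty_mem_measurableCylinders _, fun _ h => compl_mem_measurableCylinders h,
      fun _ _ h h' => union_mem_measurableCylinders h h'⟩
  have hd := Measure.MeasureDense.of_generateFrom_isSetAlgebra_finite (PP V) halg
    generateFrom_measurableCylinders.symm
  obtain ⟨B, hB, hlt⟩ := hd.approx A hA (measure_ne_top _ _) ε hε
  obtain ⟨S, T, hT, rfl⟩ := (mem_measurableCylinders B).1 hB
  refine ⟨S, _, hd.measurable _ hB, fun ξ ξ' h => ?_, hlt⟩
  simp only [mem_cylinder]
  have : S.restrict ξ = S.restrict ξ' := by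
    funext i; exact h i i.2
  rw [this]

open Classical in
/-- the sign function of a set -/
noncomputable def sg (A : Set (V → unitInterval)) (U : V → unitInterval) : ℝ :=
  if U ∈ A then 1 else -1

theorem measurable_sg {A : Set (V → unitInterval)} (hA : MeasurableSet A) :
    Measurable (sg A) :=
  Measurable.ite hA measurable_const measurable_const

theorem abs_sg (A : Set (V → unitInterval)) (U : V → unitInterval) : |sg A U| ≤ 1 := by
  unfold sg; split_ifs <;> simp

theorem integral_abs_sg_sub (A B : Set (V → unitInterval)) (hA : MeasurableSet A)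
    (hB : MeasurableSet B) :
    ∫ U, |sg A U - sg B U| ∂(PP V) = 2 * (PP V).real (symmDiff A B) := by
  have h : (fun U => |sg A U - sg B U|) = (symmDiff A B).indicator fun _ => (2 : ℝ) := by
    funext U
    by_cases h1 : U ∈ A <;> by_cases h2 : U ∈ B <;>
      simp [sg, h1, h2, Set.indicator, Set.mem_symmDiff] <;> norm_num
  rw [h, integral_indicator_const _ (hA.symmDiff hB), smul_eq_mul, mul_comm]

theorem exists_tail (A : Set (V → unitInterval)) (hA : MeasurableSet A) {ε : ℝ} (hε : 0 < ε) :
    ∃ S₀ : Finset V, ∀ S : Finset V, S₀ ⊆ S →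
      ∫ U, |ce S (sg A) U - sg A U| ∂(PP V) ≤ ε := by
  obtain ⟨S₀, B, hB, hdep, hlt⟩ := exists_local A hA (ε := ε / 4) (by positivity)
  refine ⟨S₀, fun S hS => ?_⟩
  have hg : ce S (sg B) = sg B := ce_self S fun ξ ξ' h => by
    have := hdep ξ ξ' fun i hi => h i (hS hi)
    unfold sg
    by_cases h1 : ξ ∈ B
    · rw [if_pos h1, if_pos (this.1 h1)]
    · rw [if_neg h1, if_neg (fun h2 => h1 (this.2 h2))]
  have hreal : (PP V).real (symmDiff A B) ≤ ε / 4 := by
    rw [Measure.real]
    exact ENNReal.toReal_le_of_le_ofReal (by positivity) hlt.le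
  have h1 := integral_abs_ce_sub_le S (measurable_sg hA) (measurable_sg hB) (abs_sg A) (abs_sg B)
  rw [hg, integral_abs_sg_sub A B hA hB] at h1
  have hi1 : Integrable (fun U => |ce S (sg A) U - sg B U|) (PP V) := by
    refine integrable_of_abs_le ((measurable_ce S (measurable_sg hA)).sub (measurable_sg hB)).abs
      (C := 2) fun x => ?_
    rw [abs_abs]
    have := abs_sub (ce S (sg A) x) (sg B x)
    linarith [abs_ce_le S (abs_sg A) x, abs_sg B x]
  have hi2 : Integrable (fun U => |sg A U - sg B U|) (PP V) := by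
    refine integrable_of_abs_le ((measurable_sg hA).sub (measurable_sg hB)).abs
      (C := 2) fun x => ?_
    rw [abs_abs]
    have := abs_sub (sg A x) (sg B x)
    linarith [abs_sg A x, abs_sg B x]
  have hi3 : Integrable (fun U => |ce S (sg A) U - sg A U|) (PP V) := by
    refine integrable_of_abs_le ((measurable_ce S (measurable_sg hA)).sub (measurable_sg hA)).abs
      (C := 2) fun x => ?_
    rw [abs_abs]
    have := abs_sub (ce S (sg A) x) (sg A x)
    linarith [abs_ce_le S (abs_sg A) x, abs_sg A x]
  calc ∫ U, |ce S (sg A) U - sg A U| ∂(PP V)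
      ≤ ∫ U, (|ce S (sg A) U - sg B U| + |sg A U - sg B U|) ∂(PP V) := by
        refine integral_mono hi3 (hi1.add hi2) fun U => ?_
        have := abs_sub_le (ce S (sg A) U) (sg B U) (sg A U)
        rw [abs_sub_comm (sg B U)] at this
        exact this
    _ = ∫ U, |ce S (sg A) U - sg B U| ∂(PP V) + ∫ U, |sg A U - sg B U| ∂(PP V) :=
        integral_add hi1 hi2
    _ ≤ ε := by rw [integral_abs_sg_sub A B hA hB]; linarith

theorem dist_iso_le {G : SimpleGraph V} (hG : G.Connected) (g : G ≃g G) (u v : V) :
    G.dist (g u) (g v) ≤ G.dist u v := by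
  obtain ⟨w, hw⟩ := hG.exists_walk_length_eq_dist u v
  rw [← hw]
  have := SimpleGraph.dist_le (w.map g.toHom)
  rwa [SimpleGraph.Walk.length_map] at this

theorem dist_iso {G : SimpleGraph V} (hG : G.Connected) (g : G ≃g G) (u v : V) :
    G.dist (g u) (g v) = G.dist u v := by
  refine le_antisymm (dist_iso_le hG g u v) ?_
  have := dist_iso_le hG g.symm (g u) (g v)
  simpa using this

/-- the ball as a finite set -/
noncomputable def bl {G : SimpleGraph V} [G.LocallyFinite] (hG : G.Connected) (v : V) (r : ℕ) :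
    Finset V := (finite_ball hG v r).toFinset

theorem mem_bl {G : SimpleGraph V} [G.LocallyFinite] (hG : G.Connected) {v w : V} {r : ℕ} :
    w ∈ bl hG v r ↔ G.dist v w ≤ r := by
  simp [bl]

theorem map_bl {G : SimpleGraph V} [G.LocallyFinite] (hG : G.Connected) (g : G ≃g G) (v : V)
    (r : ℕ) : (bl hG v r).map g.toEquiv.toEmbedding = bl hG (g v) r := by
  ext w
  rw [Finset.mem_map_equiv, mem_bl, mem_bl, ← dist_iso hG g]
  have : g (g.toEquiv.symm w) = w := g.toEquiv.apply_symm_apply w
  rw [this]

/-- If `X` only depends on the coordinates in `S`, has mean zero, and `Y` ignores them, then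
`E[X Y] = 0`. -/
theorem integral_mul_eq_zero (S : Finset V) {X Y : (V → unitInterval) → ℝ} (hX : Measurable X)
    (hY : Measurable Y) (hX1 : ∀ x, |X x| ≤ 1) (hY1 : ∀ x, |Y x| ≤ 1)
    (hXS : ∀ ξ ξ' : V → unitInterval, (∀ i ∈ S, ξ i = ξ' i) → X ξ = X ξ')
    (hYS : ∀ ξ ξ' : V → unitInterval, (∀ i, i ∉ S → ξ i = ξ' i) → Y ξ = Y ξ')
    (h0 : ∫ U, X U ∂(PP V) = 0) : ∫ U, X U * Y U ∂(PP V) = 0 := by
  classical
  have h1 := integral_avg_mul S hX hY hX1 hY1 (fun ξ ξ' => hYS _ _ fun i hi => by simp [hi])
  rw [← h1]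
  have h2 : ∀ ξ, avg S X ξ = 0 := fun ξ => by
    unfold avg
    rw [← h0]
    congr 1
    funext z
    exact hXS _ _ fun i hi => by simp [hi]
  simp [h2]

theorem measurable_spin : Measurable spin := measurable_of_countable _

theorem abs_spin (b : Bool) : |spin b| ≤ 1 := by cases b <;> simp [spin]

end Block

open Block in
theorem exists_blockApprox {V : Type*} {G : SimpleGraph V} [G.LocallyFinite] (hG : G.IsTree)
    {d : ℕ} (hreg : G.IsRegularOfDegree d) {mu : Measure (V → Bool)} (hF : IsFactorOfIID G mu)
    (hmean : ∀ v, ∫ s, spin (s v) ∂mu = 0) {eps : ℝ} (heps : 0 < eps) :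
    ∃ (rho : ℕ → ℝ) (M : ℕ), (∀ m, M < m → rho m = 0) ∧
      (∀ (A : Finset V) (c : V → ℝ), 0 ≤ ∑ u ∈ A, ∑ v ∈ A, c u * c v * rho (G.dist u v)) ∧
      ∀ u v, |rho (G.dist u v) - ∫ s, spin (s u) * spin (s v) ∂mu| ≤ eps := by
  classical
  have hc := hG.connected
  obtain ⟨Φ, hΦ, heq, hmap⟩ := hF
  have hΦ' : AEMeasurable Φ (PP V) := hΦ.aemeasurable
  -- the signs
  set A : V → Set (V → unitInterval) := fun v => {U | Φ U v = true} with hAdef
  have hA : ∀ v, MeasurableSet (A v) := fun v =>
    ((measurable_pi_apply v).comp hΦ) (measurableSet_singleton true)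
  have hsg : ∀ v U, sg (A v) U = spin (Φ U v) := fun v U => by
    by_cases h : Φ U v = true <;> simp [sg, spin, hAdef, h]
  have hfm : ∀ v, Measurable (sg (A v)) := fun v => measurable_sg (hA v)
  have hf1 : ∀ v U, |sg (A v) U| ≤ 1 := fun v U => abs_sg _ _
  have hf0 : ∀ v, ∫ U, sg (A v) U ∂(PP V) = 0 := fun v => by
    rw [← hmean v, ← hmap, integral_map hΦ']
    · simp only [hsg]
    · exact (measurable_spin.comp (measurable_pi_apply v)).aestronglyMeasurable
  have hcorr : ∀ u v, ∫ s, spin (s u) * spin (s v) ∂mu =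
      ∫ U, sg (A u) U * sg (A v) U ∂(PP V) := fun u v => by
    rw [← hmap, integral_map hΦ']
    · simp only [hsg]
    · exact ((measurable_spin.comp (measurable_pi_apply u)).mul
        (measurable_spin.comp (measurable_pi_apply v))).aestronglyMeasurable
  have hact : ∀ (g : G ≃g G) (v : V),
      (fun U => sg (A (g v)) (act g.toEquiv U)) =ᵐ[PP V] sg (A v) := fun g v => by
    filter_upwards [heq g] with U hU
    rw [hsg, hsg]
    have h1 := congrFun hU (g v)
    simp only [RelIso.symm_apply_apply] at h1
    rw [← h1]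
    rfl
  -- block factors
  set X : ℕ → V → (V → unitInterval) → ℝ := fun r v => ce (bl hc v r) (sg (A v)) with hXdef
  have hXm : ∀ r v, Measurable (X r v) := fun r v => measurable_ce _ (hfm v)
  have hX1 : ∀ r v U, |X r v U| ≤ 1 := fun r v U => abs_ce_le _ (hf1 v) U
  have hX0 : ∀ r v, ∫ U, X r v U ∂(PP V) = 0 := fun r v => by
    rw [hXdef]; simp only; rw [integral_ce _ (hfm v) (hf1 v), hf0]
  have hXact : ∀ (g : G ≃g G) (r : ℕ) (v : V),
      (fun U => X r (g v) (act g.toEquiv U)) =ᵐ[PP V] X r v := fun g r v => by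
    have h1 : (fun U => X r (g v) (act g.toEquiv U)) =
        ce (bl hc v r) (fun x => sg (A (g v)) (act g.toEquiv x)) := by
      funext U
      rw [hXdef]
      simp only
      rw [← map_bl hc g v r, ce_act _ _ _ (hfm _)]
    rw [h1]
    exact ce_ae_congr _ (hact g v)
  -- uniform approximation
  obtain ⟨o⟩ := hc.nonempty
  obtain ⟨S₀, hS₀⟩ := exists_tail (A o) (hA o) (ε := eps / 2) (by positivity)
  set r : ℕ := S₀.sup fun w => G.dist o w with hr
  have hsub : S₀ ⊆ bl hc o r := fun w hw => (mem_bl hc).2 (Finset.le_sup (f := fun w => G.dist o w) hw)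
  have hL1 : ∀ v, ∫ U, |X r v U - sg (A v) U| ∂(PP V) ≤ eps / 2 := by
    intro v
    obtain ⟨g, hg, -⟩ := exists_iso_of_dist_eq hG hreg (u := o) (v := o) (u2 := v) (v2 := v)
      (by rw [SimpleGraph.dist_self, SimpleGraph.dist_self])
    have h1 : ∫ U, |X r v U - sg (A v) U| ∂(PP V) = ∫ U, |X r o U - sg (A o) U| ∂(PP V) := by
      rw [← integral_act g.toEquiv (F := fun U => |X r v U - sg (A v) U|)
        ((hXm r v).sub (hfm v)).abs]
      refine integral_congr_ae ?_
      rw [← hg]
      filter_upwards [hXact g r o, hact g o] with U h1 h2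
      rw [h1, h2]
    rw [h1]
    exact hS₀ _ hsub
  -- the correlation function
  set cor : V → V → ℝ := fun u v => ∫ U, X r u U * X r v U ∂(PP V) with hcor
  have hcoract : ∀ (g : G ≃g G) u v, cor (g u) (g v) = cor u v := by
    intro g u v
    rw [hcor]
    simp only
    rw [← integral_act g.toEquiv (F := fun U => X r (g u) U * X r (g v) U)
      ((hXm r _).mul (hXm r _))]
    refine integral_congr_ae ?_
    filter_upwards [hXact g r u, hXact g r v] with U h1 h2
    rw [h1, h2]
  set rho : ℕ → ℝ := fun m => if h : ∃ p : V × V, G.dist p.1 p.2 = m then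
    cor h.choose.1 h.choose.2 else 0 with hrho
  have hrho' : ∀ u v, rho (G.dist u v) = cor u v := by
    intro u v
    have h : ∃ p : V × V, G.dist p.1 p.2 = G.dist u v := ⟨(u, v), rfl⟩
    rw [hrho]
    simp only
    rw [dif_pos h]
    obtain ⟨g, hg1, hg2⟩ := exists_iso_of_dist_eq hG hreg h.choose_spec
    calc cor h.choose.1 h.choose.2 = cor (g h.choose.1) (g h.choose.2) := (hcoract g _ _).symm
      _ = cor u v := by rw [hg1, hg2]
  refine ⟨rho, 2 * r, ?_, ?_, ?_⟩
  · intro m hm
    rw [hrho]
    simp only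
    split_ifs with h
    · have hd := h.choose_spec
      refine integral_mul_eq_zero (bl hc h.choose.1 r) (hXm _ _) (hXm _ _) (hX1 _ _) (hX1 _ _)
        (fun ξ ξ' h' => ce_congr _ _ h') (fun ξ ξ' h' => ce_congr _ _ fun i hi => h' i fun hi' => ?_)
        (hX0 _ _)
      rw [mem_bl] at hi hi'
      have := hc.dist_triangle (u := h.choose.1) (v := i) (w := h.choose.2)
      rw [SimpleGraph.dist_comm (u := i)] at this
      omega
    · rfl
  · intro B c
    have hint : ∀ u v, Integrable (fun U => c u * c v * (X r u U * X r v U)) (PP V) := by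
      intro u v
      refine Integrable.const_mul ?_ _
      refine integrable_of_abs_le ((hXm r u).mul (hXm r v)) (C := 1) fun x => ?_
      rw [abs_mul]
      exact mul_le_one₀ (hX1 r u x) (abs_nonneg _) (hX1 r v x)
    have h1 : ∑ u ∈ B, ∑ v ∈ B, c u * c v * rho (G.dist u v) =
        ∫ U, (∑ u ∈ B, c u * X r u U) ^ 2 ∂(PP V) := by
      have h2 : ∀ U, (∑ u ∈ B, c u * X r u U) ^ 2 =
          ∑ u ∈ B, ∑ v ∈ B, c u * c v * (X r u U * X r v U) := by
        intro U
        rw [sq, Finset.sum_mul_sum]
        refine Finset.sum_congr rfl fun u _ => Finset.sum_congr rfl fun v _ => ?_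
        ring
      simp only [h2]
      rw [integral_finsetSum _ fun u _ => integrable_finsetSum _ fun v _ => hint u v]
      refine Finset.sum_congr rfl fun u _ => ?_
      rw [integral_finsetSum _ fun v _ => hint u v]
      refine Finset.sum_congr rfl fun v _ => ?_
      rw [integral_const_mul, hrho']
    rw [h1]
    exact integral_nonneg fun U => sq_nonneg _
  · intro u v
    rw [hrho', hcorr]
    have hi : ∀ w, Integrable (fun U => |X r w U - sg (A w) U|) (PP V) := by
      intro w
      refine integrable_of_abs_le ((hXm r w).sub (hfm w)).abs (C := 2) fun x => ?_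
      rw [abs_abs]
      have := abs_sub (X r w x) (sg (A w) x)
      linarith [hX1 r w x, hf1 w x]
    have hp : ∀ {F H : (V → unitInterval) → ℝ}, Measurable F → Measurable H → (∀ x, |F x| ≤ 1) →
        (∀ x, |H x| ≤ 1) → Integrable (fun U => F U * H U) (PP V) := by
      intro F H hF hH hF1 hH1
      refine integrable_of_abs_le (hF.mul hH) (C := 1) fun x => ?_
      rw [abs_mul]
      exact mul_le_one₀ (hF1 x) (abs_nonneg _) (hH1 x)
    have h1 : cor u v - ∫ U, sg (A u) U * sg (A v) U ∂(PP V) =
        ∫ U, (X r u U * X r v U - sg (A u) U * sg (A v) U) ∂(PP V) :=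
      (integral_sub (hp (hXm r u) (hXm r v) (hX1 r u) (hX1 r v))
        (hp (hfm u) (hfm v) (hf1 u) (hf1 v))).symm
    rw [h1]
    calc |∫ U, (X r u U * X r v U - sg (A u) U * sg (A v) U) ∂(PP V)|
        ≤ ∫ U, |X r u U * X r v U - sg (A u) U * sg (A v) U| ∂(PP V) :=
          abs_integral_le_integral_abs
      _ ≤ ∫ U, (|X r u U - sg (A u) U| + |X r v U - sg (A v) U|) ∂(PP V) := by
          refine integral_mono ?_ ((hi u).add (hi v)) fun U => ?_
          · exact ((hp (hXm r u) (hXm r v) (hX1 r u) (hX1 r v)).sub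
              (hp (hfm u) (hfm v) (hf1 u) (hf1 v))).abs
          · have e1 : X r u U * X r v U - sg (A u) U * sg (A v) U =
                (X r u U - sg (A u) U) * X r v U + sg (A u) U * (X r v U - sg (A v) U) := by ring
            simp only
            rw [e1]
            refine (abs_add_le _ _).trans (add_le_add ?_ ?_)
            · rw [abs_mul]
              exact mul_le_of_le_one_right (abs_nonneg _) (hX1 r v U)
            · rw [abs_mul]
              exact mul_le_of_le_one_left (abs_nonneg _) (hf1 u U)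
      _ = ∫ U, |X r u U - sg (A u) U| ∂(PP V) + ∫ U, |X r v U - sg (A v) U| ∂(PP V) :=
          integral_add (hi u) (hi v)
      _ ≤ eps := by linarith [hL1 u, hL1 v]

end Vale.Agent.P161
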