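import Vale.Agent.Lib.P161.Imp

/-!
P161, channel part: the density `1 + κ (2 t - 1)` on `[0,1]`, its cdf `cdfK κ` and the inverse
cdf `qK κ`.
-/

open MeasureTheory unitInterval

namespace Vale.Agent.P161

/-- The cdf `(1 - κ) t + κ t²`. -/
noncomputable def cdfR (κ t : ℝ) : ℝ := (1 - κ) * t + κ * t ^ 2

/-- Its inverse on `[0,1]`, for `|κ| < 1`. -/
noncomputable def qR (κ x : ℝ) : ℝ := 2 * x / (1 - κ + Real.sqrt ((1 - κ) ^ 2 + 4 * κ * x))

/-- `[0,1]`-valued versions (clipped, so that they are total functions). -/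
noncomputable def cdfK (κ : ℝ) (t : unitInterval) : unitInterval :=
  Set.projIcc 0 1 zero_le_one (cdfR κ t)

noncomputable def qK (κ : ℝ) (x : unitInterval) : unitInterval :=
  Set.projIcc 0 1 zero_le_one (qR κ x)

theorem cdfR_mem {κ : ℝ} (hκ : |κ| < 1) {t : ℝ} (ht : t ∈ Set.Icc (0 : ℝ) 1) :
    cdfR κ t ∈ Set.Icc (0 : ℝ) 1 := by
  obtain ⟨h1, h2⟩ := abs_lt.1 hκ
  obtain ⟨h3, h4⟩ := ht
  constructor
  · have : cdfR κ t = t * (1 - κ * (1 - t)) := by unfold cdfR; ring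
    rw [this]
    have : κ * (1 - t) ≤ 1 := by nlinarith
    exact mul_nonneg h3 (by linarith)
  · have : 1 - cdfR κ t = (1 - t) * (1 + κ * t) := by unfold cdfR; ring
    have h5 : 0 ≤ (1 - t) * (1 + κ * t) := mul_nonneg (by linarith) (by nlinarith)
    linarith

theorem disc_nonneg {κ : ℝ} {x : ℝ} (hx : x ∈ Set.Icc (0 : ℝ) 1) :
    0 ≤ (1 - κ) ^ 2 + 4 * κ * x := by
  obtain ⟨h3, h4⟩ := hx
  rcases le_total 0 κ with h | h
  · positivity
  · nlinarith [sq_nonneg (1 + κ)]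

theorem qR_mem {κ : ℝ} (hκ : |κ| < 1) {x : ℝ} (hx : x ∈ Set.Icc (0 : ℝ) 1) :
    qR κ x ∈ Set.Icc (0 : ℝ) 1 := by
  obtain ⟨h1, h2⟩ := abs_lt.1 hκ
  have hd := disc_nonneg (κ := κ) hx
  obtain ⟨h3, h4⟩ := hx
  have hs := Real.sqrt_nonneg ((1 - κ) ^ 2 + 4 * κ * x)
  have hpos : 0 < 1 - κ + Real.sqrt ((1 - κ) ^ 2 + 4 * κ * x) := by linarith
  constructor
  · unfold qR; positivity
  · unfold qR
    rw [div_le_one hpos]
    rcases le_total (2 * x) (1 - κ) with h | h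
    · linarith
    · have : 2 * x - (1 - κ) ≤ Real.sqrt ((1 - κ) ^ 2 + 4 * κ * x) := by
        apply Real.le_sqrt_of_sq_le
        nlinarith only [h3, h4]
      linarith

theorem coe_cdfK {κ : ℝ} (hκ : |κ| < 1) (t : unitInterval) : (cdfK κ t : ℝ) = cdfR κ t := by
  unfold cdfK
  rw [Set.projIcc_of_mem zero_le_one (cdfR_mem hκ t.2)]

theorem coe_qK {κ : ℝ} (hκ : |κ| < 1) (x : unitInterval) : (qK κ x : ℝ) = qR κ x := by
  unfold qK
  rw [Set.projIcc_of_mem zero_le_one (qR_mem hκ x.2)]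

theorem cdfR_qR {κ : ℝ} (hκ : |κ| < 1) {x : ℝ} (hx : x ∈ Set.Icc (0 : ℝ) 1) :
    cdfR κ (qR κ x) = x := by
  obtain ⟨h1, h2⟩ := abs_lt.1 hκ
  have hd := disc_nonneg (κ := κ) hx
  have hs := Real.sqrt_nonneg ((1 - κ) ^ 2 + 4 * κ * x)
  have hsq := Real.sq_sqrt hd
  unfold cdfR qR
  set s := Real.sqrt ((1 - κ) ^ 2 + 4 * κ * x)
  have hpos : 0 < 1 - κ + s := by linarith
  have hne : (1 - κ + s) ≠ 0 := hpos.ne'
  field_simp
  linear_combination (-x) * hsq

theorem qR_cdfR {κ : ℝ} (hκ : |κ| < 1) {t : ℝ} (ht : t ∈ Set.Icc (0 : ℝ) 1) :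
    qR κ (cdfR κ t) = t := by
  obtain ⟨h1, h2⟩ := abs_lt.1 hκ
  obtain ⟨h3, h4⟩ := ht
  have hpos : 0 < 1 + κ * (2 * t - 1) := by
    have : |κ * (2 * t - 1)| < 1 := by
      rw [abs_mul]
      have h5 : |2 * t - 1| ≤ 1 := abs_le.2 ⟨by linarith, by linarith⟩
      calc |κ| * |2 * t - 1| ≤ |κ| * 1 := mul_le_mul_of_nonneg_left h5 (abs_nonneg _)
        _ < 1 := by linarith
    linarith [(abs_lt.1 this).1]
  have hs : Real.sqrt ((1 - κ) ^ 2 + 4 * κ * cdfR κ t) = 1 + κ * (2 * t - 1) := by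
    have : (1 - κ) ^ 2 + 4 * κ * cdfR κ t = (1 + κ * (2 * t - 1)) ^ 2 := by
      unfold cdfR; ring
    rw [this, Real.sqrt_sq hpos.le]
  unfold qR
  rw [hs]
  have h6 : 0 < 1 - κ * (1 - t) := by nlinarith
  have hne : (1 - κ + (1 + κ * (2 * t - 1))) ≠ 0 := by
    have : 1 - κ + (1 + κ * (2 * t - 1)) = 2 * (1 - κ * (1 - t)) := by ring
    rw [this]; positivity
  rw [div_eq_iff hne]
  unfold cdfR; ring

theorem cdfK_qK {κ : ℝ} (hκ : |κ| < 1) (x : unitInterval) : cdfK κ (qK κ x) = x := by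
  apply Subtype.ext
  rw [coe_cdfK hκ, coe_qK hκ, cdfR_qR hκ x.2]

theorem qK_cdfK {κ : ℝ} (hκ : |κ| < 1) (t : unitInterval) : qK κ (cdfK κ t) = t := by
  apply Subtype.ext
  rw [coe_qK hκ, coe_cdfK hκ, qR_cdfR hκ t.2]

theorem measurable_qK : Measurable fun p : ℝ × unitInterval => qK p.1 p.2 := by
  unfold qK
  refine continuous_projIcc.measurable.comp ?_
  unfold qR
  fun_prop

theorem measurable_cdfK : Measurable fun p : ℝ × unitInterval => cdfK p.1 p.2 := by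
  unfold cdfK
  refine continuous_projIcc.measurable.comp ?_
  unfold cdfR
  fun_prop

theorem cdfR_sub (κ t t' : ℝ) : cdfR κ t - cdfR κ t' = (t - t') * (1 + κ * (t + t' - 1)) := by
  unfold cdfR; ring

theorem mul_sub_sq_le (t : unitInterval) : (t : ℝ) * (1 - t) ≤ 1 / 4 := by
  nlinarith [sq_nonneg ((t : ℝ) - 1 / 2)]

/-- Lipschitz bound for the sampler. -/
theorem qK_lipschitz {a κ κ' : ℝ} (ha : 0 ≤ a) (ha1 : a < 1) (hκ : |κ| ≤ a) (hκ' : |κ'| ≤ a)
    (x x' : unitInterval) :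
    |(qK κ x : ℝ) - qK κ' x'| ≤ 1 / (1 - a) * |(x : ℝ) - x'| + 1 / (4 * (1 - a)) * |κ - κ'| := by
  have h1 : |κ| < 1 := lt_of_le_of_lt hκ ha1
  have h1' : |κ'| < 1 := lt_of_le_of_lt hκ' ha1
  set t := qK κ x with ht
  set t' := qK κ' x' with ht'
  have e1 : cdfR κ (t : ℝ) = x := by rw [← coe_cdfK h1, ht, cdfK_qK h1]
  have e2 : cdfR κ' (t' : ℝ) = x' := by rw [← coe_cdfK h1', ht', cdfK_qK h1']
  have e3 : ((t : ℝ) - t') * (1 + κ * (t + t' - 1)) = (x - x') + (κ - κ') * (t' * (1 - t')) := by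
    rw [← cdfR_sub, e1, ← e2]
    unfold cdfR; ring
  have hlow : 1 - a ≤ 1 + κ * ((t : ℝ) + t' - 1) := by
    have h5 : |(t : ℝ) + t' - 1| ≤ 1 :=
      abs_le.2 ⟨by linarith [t.2.1, t'.2.1], by linarith [t.2.2, t'.2.2]⟩
    have : |κ * ((t : ℝ) + t' - 1)| ≤ a := by
      rw [abs_mul]
      calc |κ| * |(t : ℝ) + t' - 1| ≤ a * 1 := mul_le_mul hκ h5 (abs_nonneg _) ha
        _ = a := mul_one a
    linarith [(abs_le.1 this).1]
  have hpos : 0 < 1 - a := by linarith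
  have h6 : |(t : ℝ) - t'| * (1 - a) ≤ |(x : ℝ) - x'| + 1 / 4 * |κ - κ'| := by
    calc |(t : ℝ) - t'| * (1 - a) ≤ |(t : ℝ) - t'| * |1 + κ * ((t : ℝ) + t' - 1)| := by
          refine mul_le_mul_of_nonneg_left (hlow.trans (le_abs_self _)) (abs_nonneg _)
      _ = |(x - x') + (κ - κ') * ((t' : ℝ) * (1 - t'))| := by rw [← abs_mul, e3]
      _ ≤ |(x : ℝ) - x'| + |(κ - κ') * ((t' : ℝ) * (1 - t'))| := abs_add_le _ _
      _ ≤ |(x : ℝ) - x'| + 1 / 4 * |κ - κ'| := by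
          rw [abs_mul]
          have h7 : |(t' : ℝ) * (1 - t')| ≤ 1 / 4 := by
            rw [abs_of_nonneg (mul_nonneg t'.2.1 (by linarith [t'.2.2]))]
            exact mul_sub_sq_le t'
          nlinarith only [abs_nonneg (κ - κ'), h7]
  calc |(t : ℝ) - t'| = |(t : ℝ) - t'| * (1 - a) / (1 - a) := by field_simp
    _ ≤ (|(x : ℝ) - x'| + 1 / 4 * |κ - κ'|) / (1 - a) := by gcongr
    _ = 1 / (1 - a) * |(x : ℝ) - x'| + 1 / (4 * (1 - a)) * |κ - κ'| := by
        field_simp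

theorem cdfK_lipschitz {κ κ' : ℝ} (hκ : |κ| < 1) (hκ' : |κ'| < 1) (t : unitInterval) :
    |(cdfK κ t : ℝ) - cdfK κ' t| ≤ 1 / 4 * |κ - κ'| := by
  rw [coe_cdfK hκ, coe_cdfK hκ']
  have : cdfR κ t - cdfR κ' t = -((κ - κ') * ((t : ℝ) * (1 - t))) := by unfold cdfR; ring
  rw [this, abs_neg, abs_mul, mul_comm]
  refine mul_le_mul_of_nonneg_right ?_ (abs_nonneg _)
  rw [abs_of_nonneg (mul_nonneg t.2.1 (by linarith [t.2.2]))]
  exact mul_sub_sq_le t

theorem integral_unitInterval (g : ℝ → ℝ) :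
    ∫ t : unitInterval, g t = ∫ t in (0 : ℝ)..1, g t := by
  rw [intervalIntegral.integral_of_le zero_le_one, ← integral_Icc_eq_integral_Ioc]
  exact integral_subtype measurableSet_Icc g

theorem integral_cubic (c0 c1 c2 c3 : ℝ) :
    ∫ t in (0 : ℝ)..1, (c0 + c1 * t + c2 * t ^ 2 + c3 * t ^ 3) = c0 + c1 / 2 + c2 / 3 + c3 / 4 := by
  have hd : ∀ t ∈ Set.uIcc (0 : ℝ) 1, HasDerivAt
      (fun t : ℝ => c0 * t + c1 / 2 * t ^ 2 + c2 / 3 * t ^ 3 + c3 / 4 * t ^ 4)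
      (c0 + c1 * t + c2 * t ^ 2 + c3 * t ^ 3) t := by
    intro t _
    have h : HasDerivAt (fun t : ℝ => c0 * t + c1 / 2 * t ^ 2 + c2 / 3 * t ^ 3 + c3 / 4 * t ^ 4)
        (c0 * 1 + c1 / 2 * (((2 : ℕ) : ℝ) * t ^ (2 - 1)) + c2 / 3 * (((3 : ℕ) : ℝ) * t ^ (3 - 1))
          + c3 / 4 * (((4 : ℕ) : ℝ) * t ^ (4 - 1))) t :=
      ((((hasDerivAt_id t).const_mul c0).add ((hasDerivAt_pow 2 t).const_mul (c1 / 2))).add
      ((hasDerivAt_pow 3 t).const_mul (c2 / 3))).add ((hasDerivAt_pow 4 t).const_mul (c3 / 4))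
    exact h.congr_deriv (by norm_num; ring)
  rw [intervalIntegral.integral_eq_sub_of_hasDerivAt hd
    (Continuous.intervalIntegrable (by fun_prop) _ _)]
  ring

theorem integral_unitInterval_cubic (g : ℝ → ℝ) (c0 c1 c2 c3 : ℝ)
    (hg : ∀ t, g t = c0 + c1 * t + c2 * t ^ 2 + c3 * t ^ 3) :
    ∫ t : unitInterval, g t = c0 + c1 / 2 + c2 / 3 + c3 / 4 := by
  rw [integral_unitInterval g, ← integral_cubic]
  simp only [hg]

theorem integral_unit_density (κ : ℝ) : ∫ t : unitInterval, (1 + κ * (2 * (t : ℝ) - 1)) = 1 := by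
  rw [integral_unitInterval_cubic (fun t => 1 + κ * (2 * t - 1)) (1 - κ) (2 * κ) 0 0
    (fun t => by ring)]
  ring

/-- First and second moments of the centred signal. -/
theorem integral_signal_mul (κ : ℝ) :
    ∫ t : unitInterval, (2 * (t : ℝ) - 1) * (1 + κ * (2 * (t : ℝ) - 1)) = κ / 3 := by
  rw [integral_unitInterval_cubic (fun t => (2 * t - 1) * (1 + κ * (2 * t - 1)))
    (κ - 1) (2 - 4 * κ) (4 * κ) 0 (fun t => by ring)]
  ring

theorem integral_signal_sq_mul (κ : ℝ) :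
    ∫ t : unitInterval, (2 * (t : ℝ) - 1) ^ 2 * (1 + κ * (2 * (t : ℝ) - 1)) = 1 / 3 := by
  rw [integral_unitInterval_cubic (fun t => (2 * t - 1) ^ 2 * (1 + κ * (2 * t - 1)))
    (1 - κ) (6 * κ - 4) (4 - 12 * κ) (8 * κ) (fun t => by ring)]
  ring

theorem density_nonneg {κ : ℝ} (hκ : |κ| ≤ 1) (t : unitInterval) :
    0 ≤ 1 + κ * (2 * (t : ℝ) - 1) := by
  have h5 : |2 * (t : ℝ) - 1| ≤ 1 := abs_le.2 ⟨by linarith [t.2.1], by linarith [t.2.2]⟩
  have : |κ * (2 * (t : ℝ) - 1)| ≤ 1 := by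
    rw [abs_mul]
    calc |κ| * |2 * (t : ℝ) - 1| ≤ 1 * 1 := mul_le_mul hκ h5 (abs_nonneg _) zero_le_one
      _ = 1 := mul_one 1
  linarith [(abs_le.1 this).1]

theorem setIntegral_Iic_density (κ : ℝ) (t : unitInterval) :
    ∫ s in Set.Iic t, (1 + κ * (2 * (s : ℝ) - 1)) = cdfR κ t := by
  have h1 := unitInterval.measurePreserving_coe.setIntegral_preimage_emb
    unitInterval.measurableEmbedding_coe (fun y : ℝ => 1 + κ * (2 * y - 1)) (Set.Iic (t : ℝ))
  have h2 : ((↑) : unitInterval → ℝ) ⁻¹' Set.Iic (t : ℝ) = Set.Iic t := by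
    ext x; simp
  rw [h2] at h1
  rw [h1, Measure.restrict_restrict measurableSet_Iic]
  have h3 : Set.Iic (t : ℝ) ∩ unitInterval = Set.Icc 0 (t : ℝ) := by
    ext x
    simp only [Set.mem_inter_iff, Set.mem_Iic, Set.mem_Icc]
    constructor
    · rintro ⟨h, h4, _⟩; exact ⟨h4, h⟩
    · rintro ⟨h4, h⟩; exact ⟨h, h4, h.trans t.2.2⟩
  rw [h3, integral_Icc_eq_integral_Ioc, ← intervalIntegral.integral_of_le t.2.1]
  have hd : ∀ s ∈ Set.uIcc (0 : ℝ) t, HasDerivAt (fun s : ℝ => (1 - κ) * s + κ * s ^ 2)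
      (1 + κ * (2 * s - 1)) s := by
    intro s _
    have h : HasDerivAt (fun s : ℝ => (1 - κ) * s + κ * s ^ 2)
        ((1 - κ) * 1 + κ * (((2 : ℕ) : ℝ) * s ^ (2 - 1))) s :=
      ((hasDerivAt_id s).const_mul (1 - κ)).add ((hasDerivAt_pow 2 s).const_mul κ)
    exact h.congr_deriv (by norm_num; ring)
  rw [intervalIntegral.integral_eq_sub_of_hasDerivAt hd
    (Continuous.intervalIntegrable (by fun_prop) _ _)]
  unfold cdfR
  ring

theorem integrable_density (κ : ℝ) :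
    Integrable (fun t : unitInterval => 1 + κ * (2 * (t : ℝ) - 1)) := by
  refine Integrable.of_bound (C := 1 + |κ|) (by fun_prop) (Filter.Eventually.of_forall fun t => ?_)
  have h5 : |2 * (t : ℝ) - 1| ≤ 1 := abs_le.2 ⟨by linarith [t.2.1], by linarith [t.2.2]⟩
  rw [Real.norm_eq_abs]
  calc |1 + κ * (2 * (t : ℝ) - 1)| ≤ |(1 : ℝ)| + |κ * (2 * (t : ℝ) - 1)| := abs_add_le _ _
    _ ≤ 1 + |κ| := by
      rw [abs_one, abs_mul]
      nlinarith [abs_nonneg κ]

theorem lintegral_density {κ : ℝ} (hκ : |κ| ≤ 1) :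
    ∫⁻ t : unitInterval, ENNReal.ofReal (1 + κ * (2 * (t : ℝ) - 1)) = 1 := by
  rw [← ofReal_integral_eq_lintegral_ofReal]
  · rw [integral_unit_density, ENNReal.ofReal_one]
  · exact integrable_density κ
  · exact Filter.Eventually.of_forall fun t => density_nonneg hκ t

theorem strictMono_cdfR {κ : ℝ} (hκ : |κ| < 1) {s t : unitInterval} :
    cdfR κ s ≤ cdfR κ t ↔ s ≤ t := by
  have hpos : 0 < 1 + κ * ((s : ℝ) + t - 1) := by
    have h5 : |(s : ℝ) + t - 1| ≤ 1 :=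
      abs_le.2 ⟨by linarith [s.2.1, t.2.1], by linarith [s.2.2, t.2.2]⟩
    have : |κ * ((s : ℝ) + t - 1)| < 1 := by
      rw [abs_mul]
      calc |κ| * |(s : ℝ) + t - 1| ≤ |κ| * 1 := mul_le_mul_of_nonneg_left h5 (abs_nonneg _)
        _ < 1 := by linarith
    linarith [(abs_lt.1 this).1]
  have h := cdfR_sub κ s t
  rw [← sub_nonpos, h, mul_nonpos_iff]
  constructor
  · rintro (⟨_, h2⟩ | ⟨h1, _⟩)
    · exact absurd hpos (not_lt.2 h2)
    · exact_mod_cast sub_nonpos.1 h1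
  · intro hst
    exact Or.inr ⟨sub_nonpos.2 (by exact_mod_cast hst), hpos.le⟩

/-- Sampling identity. -/
theorem lintegral_qK {κ : ℝ} (hκ : |κ| < 1) {f : unitInterval → ENNReal} (hf : Measurable f) :
    ∫⁻ x, f (qK κ x) = ∫⁻ t : unitInterval, f t * ENNReal.ofReal (1 + κ * (2 * t - 1)) := by
  have hq : Measurable (qK κ) := measurable_qK.comp (f := fun y => (κ, y)) (measurable_const.prodMk measurable_id)
  have hden : Measurable fun t : unitInterval => ENNReal.ofReal (1 + κ * (2 * (t : ℝ) - 1)) := by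
    fun_prop
  have hprob : IsProbabilityMeasure ((volume : Measure unitInterval).withDensity
      fun t => ENNReal.ofReal (1 + κ * (2 * (t : ℝ) - 1))) := by
    constructor
    rw [withDensity_apply _ MeasurableSet.univ, Measure.restrict_univ, lintegral_density hκ.le]
  have hmeas : (volume : Measure unitInterval).map (qK κ)
      = (volume : Measure unitInterval).withDensity
        fun t => ENNReal.ofReal (1 + κ * (2 * (t : ℝ) - 1)) := by
    have : IsProbabilityMeasure ((volume : Measure unitInterval).map (qK κ)) :=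
      Measure.isProbabilityMeasure_map hq.aemeasurable
    refine Measure.ext_of_Iic _ _ fun t => ?_
    rw [Measure.map_apply hq measurableSet_Iic, withDensity_apply _ measurableSet_Iic]
    have hpre : qK κ ⁻¹' Set.Iic t = Set.Iic (cdfK κ t) := by
      ext x
      simp only [Set.mem_preimage, Set.mem_Iic]
      rw [← strictMono_cdfR hκ, ← coe_cdfK hκ, cdfK_qK hκ, ← coe_cdfK hκ]
      exact Iff.rfl
    rw [hpre, unitInterval.volume_Iic, coe_cdfK hκ]
    rw [← ofReal_integral_eq_lintegral_ofReal]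
    · congr 1
      exact (setIntegral_Iic_density κ t).symm
    · exact (integrable_density κ).integrableOn
    · exact Filter.Eventually.of_forall fun t => density_nonneg hκ.le t
  rw [← lintegral_map hf hq, hmeas, lintegral_withDensity_eq_lintegral_mul _ hden hf]
  refine lintegral_congr fun t => ?_
  simp [mul_comm]

end Vale.Agent.P161
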