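import Vale.Agent.Lib.P161.Defs
import Vale.Agent.Lib.P161.Prod
import Vale.Agent.Lib.P161.Chan

/-!
P161, core part 1: likelihoods, posterior means and their Lipschitz dependence on the signals.
`μ` is an arbitrary probability measure on `V → Bool`.
-/

open MeasureTheory

namespace Vale.Agent.P161

variable {V : Type*}

theorem abs_spin27 (b : Bool) : |spin b| = 1 := by cases b <;> simp [spin]

theorem spin_sq (b : Bool) : spin b * spin b = 1 := by cases b <;> simp [spin]

theorem measurable_spin : Measurable spin := measurable_of_finite _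

/-- The likelihood of the signals `t x`, `x ∈ R`, given the spins. -/
noncomputable def lik (a : ℝ) (R : Finset (V × ℕ)) (t : V × ℕ → unitInterval)
    (σ : V → Bool) : ℝ :=
  ∏ x ∈ R, (1 + a * spin (σ x.1) * (2 * (t x : ℝ) - 1))

/-- Marginal density of the signals in `R`. -/
noncomputable def WW (μ : Measure (V → Bool)) (a : ℝ) (R : Finset (V × ℕ))
    (t : V × ℕ → unitInterval) : ℝ :=
  ∫ σ, lik a R t σ ∂μ

noncomputable def NN (μ : Measure (V → Bool)) (a : ℝ) (v : V) (R : Finset (V × ℕ))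
    (t : V × ℕ → unitInterval) : ℝ :=
  ∫ σ, spin (σ v) * lik a R t σ ∂μ

/-- Posterior mean of the spin at `v` given the signals in `R`. -/
noncomputable def mm (μ : Measure (V → Bool)) (a : ℝ) (v : V) (R : Finset (V × ℕ))
    (t : V × ℕ → unitInterval) : ℝ :=
  NN μ a v R t / WW μ a R t

theorem abs_two_mul_sub_one_le (t : unitInterval) : |2 * (t : ℝ) - 1| ≤ 1 := by
  rw [abs_le]; constructor <;> linarith [t.2.1, t.2.2]

theorem factor_bounds {a : ℝ} (ha : 0 ≤ a) (b : Bool) (t : unitInterval) :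
    1 - a ≤ 1 + a * spin b * (2 * (t : ℝ) - 1) ∧ 1 + a * spin b * (2 * (t : ℝ) - 1) ≤ 1 + a := by
  have h1 : |a * spin b * (2 * (t : ℝ) - 1)| ≤ a := by
    rw [abs_mul, abs_mul, abs_spin27, mul_one, abs_of_nonneg ha]
    calc a * |2 * (t : ℝ) - 1| ≤ a * 1 :=
          mul_le_mul_of_nonneg_left (abs_two_mul_sub_one_le t) ha
      _ = a := mul_one a
  rw [abs_le] at h1
  constructor <;> linarith [h1.1, h1.2]

theorem lik_pos {a : ℝ} (ha : 0 ≤ a) (ha1 : a < 1) (R : Finset (V × ℕ))
    (t : V × ℕ → unitInterval) (σ : V → Bool) : 0 < lik a R t σ := by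
  refine Finset.prod_pos fun x _ => ?_
  linarith [(factor_bounds ha (σ x.1) (t x)).1]

theorem lik_ge {a : ℝ} (ha : 0 ≤ a) (ha1 : a < 1) (R : Finset (V × ℕ))
    (t : V × ℕ → unitInterval) (σ : V → Bool) : (1 - a) ^ R.card ≤ lik a R t σ := by
  unfold lik
  rw [← Finset.prod_const]
  exact Finset.prod_le_prod (fun x _ => by linarith)
    fun x _ => (factor_bounds ha (σ x.1) (t x)).1

theorem lik_le {a : ℝ} (ha : 0 ≤ a) (ha1 : a < 1) (R : Finset (V × ℕ))
    (t : V × ℕ → unitInterval) (σ : V → Bool) : lik a R t σ ≤ (1 + a) ^ R.card := by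
  unfold lik
  rw [← Finset.prod_const]
  exact Finset.prod_le_prod
    (fun x _ => by linarith [(factor_bounds ha (σ x.1) (t x)).1])
    fun x _ => (factor_bounds ha (σ x.1) (t x)).2

theorem lik_insert [DecidableEq V] (a : ℝ) {x : V × ℕ} {R : Finset (V × ℕ)} (hx : x ∉ R)
    (t : V × ℕ → unitInterval) (σ : V → Bool) :
    lik a (insert x R) t σ = (1 + a * spin (σ x.1) * (2 * (t x : ℝ) - 1)) * lik a R t σ := by
  unfold lik
  rw [Finset.prod_insert hx]

theorem lik_congr (a : ℝ) {R : Finset (V × ℕ)} {t t' : V × ℕ → unitInterval}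
    (h : ∀ x ∈ R, t x = t' x) (σ : V → Bool) : lik a R t σ = lik a R t' σ := by
  unfold lik
  exact Finset.prod_congr rfl fun x hx => by rw [h x hx]

theorem measurable_lik (a : ℝ) (R : Finset (V × ℕ)) :
    Measurable fun p : (V × ℕ → unitInterval) × (V → Bool) => lik a R p.1 p.2 := by
  unfold lik
  refine Finset.measurable_prod _ fun x _ => ?_
  refine Measurable.add measurable_const (Measurable.mul (Measurable.mul measurable_const ?_) ?_)
  · exact measurable_spin.comp ((measurable_pi_apply x.1).comp measurable_snd)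
  · refine Measurable.sub (Measurable.mul measurable_const ?_) measurable_const
    exact measurable_subtype_coe.comp ((measurable_pi_apply x).comp measurable_fst)

theorem measurable_lik_right (a : ℝ) (R : Finset (V × ℕ)) (t : V × ℕ → unitInterval) :
    Measurable fun σ : V → Bool => lik a R t σ :=
  (measurable_lik a R).comp (f := fun σ => (t, σ)) (measurable_const.prodMk measurable_id)

section prob

variable {μ : Measure (V → Bool)} [IsProbabilityMeasure μ]

theorem integrable_of_bdd {f : (V → Bool) → ℝ} (hf : Measurable f) (C : ℝ)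
    (hC : ∀ σ, |f σ| ≤ C) : Integrable f μ :=
  Integrable.of_bound hf.aestronglyMeasurable C (Filter.Eventually.of_forall hC)

theorem abs_lik_le {a : ℝ} (ha : 0 ≤ a) (ha1 : a < 1) (R : Finset (V × ℕ))
    (t : V × ℕ → unitInterval) (σ : V → Bool) : |lik a R t σ| ≤ (1 + a) ^ R.card := by
  rw [abs_of_pos (lik_pos ha ha1 R t σ)]
  exact lik_le ha ha1 R t σ

theorem integrable_lik {a : ℝ} (ha : 0 ≤ a) (ha1 : a < 1) (R : Finset (V × ℕ))
    (t : V × ℕ → unitInterval) : Integrable (fun σ => lik a R t σ) μ :=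
  integrable_of_bdd (measurable_lik_right a R t) _ (abs_lik_le ha ha1 R t)

theorem integrable_spin_lik {a : ℝ} (ha : 0 ≤ a) (ha1 : a < 1) (v : V) (R : Finset (V × ℕ))
    (t : V × ℕ → unitInterval) : Integrable (fun σ => spin (σ v) * lik a R t σ) μ := by
  refine integrable_of_bdd ?_ ((1 + a) ^ R.card) fun σ => ?_
  · exact (measurable_spin.comp (measurable_pi_apply v)).mul (measurable_lik_right a R t)
  · rw [abs_mul, abs_spin27, one_mul]; exact abs_lik_le ha ha1 R t σ

theorem integrable_spin_spin_lik {a : ℝ} (ha : 0 ≤ a) (ha1 : a < 1) (v w : V)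
    (R : Finset (V × ℕ)) (t : V × ℕ → unitInterval) :
    Integrable (fun σ => spin (σ v) * spin (σ w) * lik a R t σ) μ := by
  refine integrable_of_bdd ?_ ((1 + a) ^ R.card) fun σ => ?_
  · exact ((measurable_spin.comp (measurable_pi_apply v)).mul
      (measurable_spin.comp (measurable_pi_apply w))).mul (measurable_lik_right a R t)
  · rw [abs_mul, abs_mul, abs_spin27, abs_spin27, one_mul, one_mul]; exact abs_lik_le ha ha1 R t σ

theorem WW_pos {a : ℝ} (ha : 0 ≤ a) (ha1 : a < 1) (R : Finset (V × ℕ))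
    (t : V × ℕ → unitInterval) : 0 < WW μ a R t := by
  have h : (1 - a) ^ R.card ≤ WW μ a R t := by
    have : (1 - a) ^ R.card = ∫ _σ, (1 - a) ^ R.card ∂μ := by simp
    rw [this]
    exact integral_mono (integrable_const _) (integrable_lik ha ha1 R t) (lik_ge ha ha1 R t)
  exact lt_of_lt_of_le (pow_pos (by linarith) _) h

omit [IsProbabilityMeasure μ] in
theorem abs_NN_le {a : ℝ} (ha : 0 ≤ a) (ha1 : a < 1) (v : V) (R : Finset (V × ℕ))
    (t : V × ℕ → unitInterval) : |NN μ a v R t| ≤ WW μ a R t := by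
  unfold NN WW
  calc |∫ σ, spin (σ v) * lik a R t σ ∂μ| ≤ ∫ σ, |spin (σ v) * lik a R t σ| ∂μ :=
        abs_integral_le_integral_abs
    _ = ∫ σ, lik a R t σ ∂μ := by
        congr 1; funext σ
        rw [abs_mul, abs_spin27, one_mul, abs_of_pos (lik_pos ha ha1 R t σ)]

theorem abs_mm_le {a : ℝ} (ha : 0 ≤ a) (ha1 : a < 1) (v : V) (R : Finset (V × ℕ))
    (t : V × ℕ → unitInterval) : |mm μ a v R t| ≤ 1 := by
  unfold mm
  rw [abs_div, abs_of_pos (WW_pos ha ha1 R t), div_le_one (WW_pos ha ha1 R t)]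
  exact abs_NN_le ha ha1 v R t

theorem WW_empty (a : ℝ) (t : V × ℕ → unitInterval) : WW μ a ∅ t = 1 := by
  simp [WW, lik]

theorem WW_insert [DecidableEq V] {a : ℝ} (ha : 0 ≤ a) (ha1 : a < 1) {x : V × ℕ}
    {R : Finset (V × ℕ)} (hx : x ∉ R) (t : V × ℕ → unitInterval) :
    WW μ a (insert x R) t = WW μ a R t + a * (2 * (t x : ℝ) - 1) * NN μ a x.1 R t := by
  unfold WW NN
  rw [← integral_const_mul, ← integral_add (integrable_lik ha ha1 R t)
    ((integrable_spin_lik ha ha1 x.1 R t).const_mul _)]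
  congr 1; funext σ
  rw [lik_insert a hx]; ring

theorem WW_insert' [DecidableEq V] {a : ℝ} (ha : 0 ≤ a) (ha1 : a < 1) {x : V × ℕ}
    {R : Finset (V × ℕ)} (hx : x ∉ R) (t : V × ℕ → unitInterval) :
    WW μ a (insert x R) t = WW μ a R t * (1 + a * mm μ a x.1 R t * (2 * (t x : ℝ) - 1)) := by
  rw [WW_insert ha ha1 hx]
  have hW := (WW_pos (μ := μ) ha ha1 R t).ne'
  unfold mm
  field_simp

theorem NN_insert [DecidableEq V] {a : ℝ} (ha : 0 ≤ a) (ha1 : a < 1) (v : V) {x : V × ℕ}
    {R : Finset (V × ℕ)} (hx : x ∉ R) (t : V × ℕ → unitInterval) :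
    NN μ a v (insert x R) t = NN μ a v R t + a * (2 * (t x : ℝ) - 1) *
      ∫ σ, spin (σ v) * spin (σ x.1) * lik a R t σ ∂μ := by
  unfold NN
  rw [← integral_const_mul, ← integral_add (integrable_spin_lik ha ha1 v R t)
    ((integrable_spin_spin_lik ha ha1 v x.1 R t).const_mul _)]
  congr 1; funext σ
  rw [lik_insert a hx]; ring

omit [IsProbabilityMeasure μ] in
theorem WW_congr {a : ℝ} {R : Finset (V × ℕ)} {t t' : V × ℕ → unitInterval}
    (h : ∀ x ∈ R, t x = t' x) : WW μ a R t = WW μ a R t' := by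
  unfold WW; congr 1; funext σ; exact lik_congr a h σ

omit [IsProbabilityMeasure μ] in
theorem NN_congr {a : ℝ} {v : V} {R : Finset (V × ℕ)} {t t' : V × ℕ → unitInterval}
    (h : ∀ x ∈ R, t x = t' x) : NN μ a v R t = NN μ a v R t' := by
  unfold NN; congr 1; funext σ; rw [lik_congr a h σ]

omit [IsProbabilityMeasure μ] in
theorem mm_congr {a : ℝ} {v : V} {R : Finset (V × ℕ)} {t t' : V × ℕ → unitInterval}
    (h : ∀ x ∈ R, t x = t' x) : mm μ a v R t = mm μ a v R t' := by
  unfold mm; rw [NN_congr h, WW_congr h]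

end prob

/-- Covariance bound under tilts: the only quantitative input on `μ`. -/
def CovBound (μ : Measure (V → Bool)) (a : ℝ) (D : V → V → ℝ) : Prop :=
  ∀ (R : Finset (V × ℕ)) (t : V × ℕ → unitInterval) (u v : V),
    |(∫ σ, spin (σ u) * spin (σ v) * lik a R t σ ∂μ) * WW μ a R t
      - NN μ a u R t * NN μ a v R t| ≤ D u v * WW μ a R t ^ 2

theorem mm_lipschitz {μ : Measure (V → Bool)} [IsProbabilityMeasure μ] {a : ℝ} (ha : 0 ≤ a)
    (ha1 : a < 1) {D : V → V → ℝ} (hD : CovBound μ a D) (v : V) (R : Finset (V × ℕ))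
    (t t' : V × ℕ → unitInterval) :
    |mm μ a v R t - mm μ a v R t'| ≤
      ∑ x ∈ R, (2 * a / (1 - a) ^ 2 * D v x.1) * |(t x : ℝ) - t' x| := by
  classical
  refine lipschitz_of_coord R (fun x => 2 * a / (1 - a) ^ 2 * D v x.1)
    (fun ξ ξ' h => mm_congr h) (fun x hx ξ y => ?_) t t'
  -- one coordinate
  set R' := R.erase x with hR'
  have hxR' : x ∉ R' := Finset.notMem_erase x R
  have hins : insert x R' = R := Finset.insert_erase hx
  set W' := WW μ a R' ξ
  set Wx := NN μ a x.1 R' ξ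
  set N' := NN μ a v R' ξ
  set Nx := ∫ σ, spin (σ v) * spin (σ x.1) * lik a R' ξ σ ∂μ
  have hcg : ∀ z ∈ R', Function.update ξ x y z = ξ z := by
    intro z hz
    have : z ≠ x := fun h => hxR' (h ▸ hz)
    simp [this]
  have hW1 : WW μ a R ξ = W' + a * (2 * (ξ x : ℝ) - 1) * Wx := by
    rw [← hins, WW_insert ha ha1 hxR']
  have hN1 : NN μ a v R ξ = N' + a * (2 * (ξ x : ℝ) - 1) * Nx := by
    rw [← hins, NN_insert ha ha1 v hxR']
  have hW2 : WW μ a R (Function.update ξ x y) = W' + a * (2 * (y : ℝ) - 1) * Wx := by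
    rw [← hins, WW_insert ha ha1 hxR', WW_congr hcg, NN_congr hcg, Function.update_self]
  have hN2 : NN μ a v R (Function.update ξ x y) = N' + a * (2 * (y : ℝ) - 1) * Nx := by
    rw [← hins, NN_insert ha ha1 v hxR', NN_congr hcg, Function.update_self]
    congr 2
    refine integral_congr_ae (Filter.Eventually.of_forall fun σ => ?_)
    simp only [lik_congr a hcg]
  have hW'pos : 0 < W' := WW_pos ha ha1 R' ξ
  have hWx : |Wx| ≤ W' := abs_NN_le ha ha1 x.1 R' ξ
  have hcov : |Nx * W' - N' * Wx| ≤ D v x.1 * W' ^ 2 := hD R' ξ v x.1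
  have hlow : ∀ z : unitInterval, (1 - a) * W' ≤ W' + a * (2 * (z : ℝ) - 1) * Wx := by
    intro z
    have h1 : |a * (2 * (z : ℝ) - 1) * Wx| ≤ a * W' := by
      rw [abs_mul, abs_mul, abs_of_nonneg ha]
      calc a * |2 * (z : ℝ) - 1| * |Wx| ≤ a * 1 * W' := by
            apply mul_le_mul (mul_le_mul_of_nonneg_left (abs_two_mul_sub_one_le z) ha) hWx
              (abs_nonneg _) (by linarith)
        _ = a * W' := by ring
    have := (abs_le.1 h1).1
    linarith
  have h1a : 0 < 1 - a := by linarith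
  have hA : 0 < W' + a * (2 * (y : ℝ) - 1) * Wx := lt_of_lt_of_le (by positivity) (hlow y)
  have hB : 0 < W' + a * (2 * (ξ x : ℝ) - 1) * Wx := lt_of_lt_of_le (by positivity) (hlow (ξ x))
  unfold mm
  rw [hW1, hN1, hW2, hN2, div_sub_div _ _ hA.ne' hB.ne']
  have hnum : (N' + a * (2 * (y : ℝ) - 1) * Nx) * (W' + a * (2 * (ξ x : ℝ) - 1) * Wx) -
      (W' + a * (2 * (y : ℝ) - 1) * Wx) * (N' + a * (2 * (ξ x : ℝ) - 1) * Nx)
      = 2 * a * ((y : ℝ) - ξ x) * (Nx * W' - N' * Wx) := by ring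
  rw [hnum, abs_div, abs_mul, abs_mul, abs_of_nonneg (by linarith : (0:ℝ) ≤ 2 * a),
    abs_of_pos (mul_pos hA hB), div_le_iff₀ (mul_pos hA hB)]
  have hprod : ((1 - a) * W') * ((1 - a) * W') ≤
      (W' + a * (2 * (y : ℝ) - 1) * Wx) * (W' + a * (2 * (ξ x : ℝ) - 1) * Wx) :=
    mul_le_mul (hlow y) (hlow (ξ x)) (by positivity) hA.le
  have hDnn : 0 ≤ D v x.1 := by
    have := (abs_nonneg _).trans hcov
    by_contra hneg
    push Not at hneg
    linarith only [mul_pos_of_neg_of_neg hneg (neg_lt_zero.2 (pow_pos hW'pos 2)), this]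
  calc 2 * a * |(y : ℝ) - ξ x| * |Nx * W' - N' * Wx|
      ≤ 2 * a * |(y : ℝ) - ξ x| * (D v x.1 * W' ^ 2) :=
        mul_le_mul_of_nonneg_left hcov (by positivity)
    _ = 2 * a / (1 - a) ^ 2 * D v x.1 * |(y : ℝ) - ξ x| * (((1 - a) * W') * ((1 - a) * W')) := by
        field_simp
    _ ≤ _ := mul_le_mul_of_nonneg_left hprod (by positivity)

end Vale.Agent.P161
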