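import Vale.Agent.Lib.P161.Prod

/-!
P161: splitting one uniform label per vertex into a label and countably many noise variables.
-/

open MeasureTheory

namespace Vale.Agent.P161

/-- Merge labels and noise into one array. -/
def mergeM (V : Type*) (p : (V → unitInterval) × (V × ℕ → unitInterval)) :
    V × ℕ → unitInterval := fun x => if x.2 = 0 then p.1 x.1 else p.2 (x.1, x.2 - 1)

theorem measurable_mergeM (V : Type*) : Measurable (mergeM V) := by
  refine measurable_pi_lambda _ fun x => ?_
  unfold mergeM
  by_cases hx : x.2 = 0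
  · simp only [hx, if_true]
    exact (measurable_pi_apply x.1).comp measurable_fst
  · simp only [hx, if_false]
    exact (measurable_pi_apply _).comp measurable_snd

theorem map_mergeM (V : Type*) : ((PP V).prod (PP (V × ℕ))).map (mergeM V) = PP (V × ℕ) := by
  classical
  refine Measure.eq_infinitePi _ fun s t ht => ?_
  have hset : MeasurableSet ((s : Set (V × ℕ)).pi t) := .pi s.countable_toSet fun i _ => ht i
  rw [Measure.map_apply (measurable_mergeM V) hset]
  set A : Finset V := (s.filter fun x => x.2 = 0).image Prod.fst with hA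
  set B : Finset (V × ℕ) := (s.filter fun x => ¬ x.2 = 0).image fun x => (x.1, x.2 - 1) with hB
  have hpre : mergeM V ⁻¹' ((s : Set (V × ℕ)).pi t) =
      ((A : Set V).pi fun v => t (v, 0)) ×ˢ
        ((B : Set (V × ℕ)).pi fun x => t (x.1, x.2 + 1)) := by
    ext p
    simp only [Set.mem_preimage, Set.mem_pi, Finset.mem_coe, Set.mem_prod]
    constructor
    · intro h
      refine ⟨fun v hv => ?_, fun x hx => ?_⟩
      · rw [hA, Finset.mem_image] at hv
        obtain ⟨y, hy, rfl⟩ := hv
        rw [Finset.mem_filter] at hy
        have h1 := h y hy.1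
        have h2 : y = (y.1, 0) := Prod.ext rfl hy.2
        rw [h2] at h1
        simpa [mergeM] using h1
      · rw [hB, Finset.mem_image] at hx
        obtain ⟨y, hy, rfl⟩ := hx
        rw [Finset.mem_filter] at hy
        have h1 := h y hy.1
        have h2 : ((y.1, y.2 - 1 + 1) : V × ℕ) = y := Prod.ext rfl (by
          have := hy.2; simp only; omega)
        simp only
        rw [h2]
        simpa [mergeM, hy.2] using h1
    · rintro ⟨h1, h2⟩ x hx
      by_cases hx0 : x.2 = 0
      · have h3 := h1 x.1 (by
          rw [hA, Finset.mem_image]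
          exact ⟨x, Finset.mem_filter.2 ⟨hx, hx0⟩, rfl⟩)
        have h4 : ((x.1, 0) : V × ℕ) = x := Prod.ext rfl hx0.symm
        rw [h4] at h3
        simpa [mergeM, hx0] using h3
      · have h3 := h2 (x.1, x.2 - 1) (by
          rw [hB, Finset.mem_image]
          exact ⟨x, Finset.mem_filter.2 ⟨hx, hx0⟩, rfl⟩)
        have h4 : ((x.1, x.2 - 1 + 1) : V × ℕ) = x := Prod.ext rfl (by simp only; omega)
        simp only at h3
        rw [h4] at h3
        simpa [mergeM, hx0] using h3
  rw [hpre, Measure.prod_prod, Measure.infinitePi_pi _ (fun v _ => ht (v, 0)),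
    Measure.infinitePi_pi _ (fun x _ => ht (x.1, x.2 + 1))]
  rw [← Finset.prod_filter_mul_prod_filter_not s fun x => x.2 = 0]
  congr 1
  · rw [hA, Finset.prod_image]
    · refine Finset.prod_congr rfl fun x hx => ?_
      have h4 : ((x.1, 0) : V × ℕ) = x := Prod.ext rfl (Finset.mem_filter.1 hx).2.symm
      rw [h4]
    · intro x hx y hy hxy
      have h1 := (Finset.mem_filter.1 (Finset.mem_coe.1 hx)).2
      have h2 := (Finset.mem_filter.1 (Finset.mem_coe.1 hy)).2
      exact Prod.ext hxy (h1.trans h2.symm)
  · rw [hB, Finset.prod_image]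
    · refine Finset.prod_congr rfl fun x hx => ?_
      have h0 := (Finset.mem_filter.1 hx).2
      have h4 : ((x.1, x.2 - 1 + 1) : V × ℕ) = x := Prod.ext rfl (by simp only; omega)
      simp only
      rw [h4]
    · intro x hx y hy hxy
      have h1 := (Finset.mem_filter.1 (Finset.mem_coe.1 hx)).2
      have h2 := (Finset.mem_filter.1 (Finset.mem_coe.1 hy)).2
      have hxy' : ((x.1, x.2 - 1) : V × ℕ) = (y.1, y.2 - 1) := hxy
      have h3 : x.1 = y.1 := (Prod.ext_iff.1 hxy').1
      have h5 : x.2 - 1 = y.2 - 1 := (Prod.ext_iff.1 hxy').2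
      exact Prod.ext h3 (by omega)

/-- Split an array into labels and noise. -/
def splitM (V : Type*) (t : V × ℕ → unitInterval) :
    (V → unitInterval) × (V × ℕ → unitInterval) := (fun v => t (v, 0), fun x => t (x.1, x.2 + 1))

theorem measurable_splitM (V : Type*) : Measurable (splitM V) :=
  Measurable.prodMk (measurable_pi_lambda _ fun _ => measurable_pi_apply _)
    (measurable_pi_lambda _ fun _ => measurable_pi_apply _)

theorem splitM_mergeM (V : Type*) (p : (V → unitInterval) × (V × ℕ → unitInterval)) :
    splitM V (mergeM V p) = p := by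
  refine Prod.ext ?_ ?_
  · funext v; simp [splitM, mergeM]
  · funext x; simp [splitM, mergeM]

theorem map_splitM (V : Type*) : (PP (V × ℕ)).map (splitM V) = (PP V).prod (PP (V × ℕ)) := by
  rw [← map_mergeM V, Measure.map_map (measurable_splitM V) (measurable_mergeM V)]
  have : splitM V ∘ mergeM V = id := funext (splitM_mergeM V)
  rw [this, Measure.map_id]
  rw [map_mergeM]

theorem exists_decode (V : Type*) :
    ∃ dec : unitInterval → unitInterval × (ℕ → unitInterval), Measurable dec ∧
      (PP V).map (fun U => ((fun v => (dec (U v)).1 : V → unitInterval),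
        (fun x => (dec (U x.1)).2 x.2 : V × ℕ → unitInterval))) = (PP V).prod (PP (V × ℕ)) := by
  obtain ⟨f, hf, hfl⟩ := Measure.exists_measurable_map_eq (PP ℕ)
  refine ⟨fun x => (f x 0, fun k => f x (k + 1)), ?_, ?_⟩
  · exact Measurable.prodMk ((measurable_pi_apply 0).comp hf)
      (measurable_pi_lambda _ fun k => (measurable_pi_apply (k + 1)).comp hf)
  · have h1 : (PP V).map (fun (U : V → unitInterval) (v : V) => f (U v)) =
        Measure.infinitePi fun _ : V => PP ℕ := by
      have := Measure.infinitePi_map_pi (fun _ : V => (volume : Measure unitInterval))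
        (f := fun _ => f) (fun _ => hf)
      simp only [hfl] at this
      exact this
    have hm1 : Measurable fun (U : V → unitInterval) (v : V) => f (U v) :=
      measurable_pi_lambda _ fun v => hf.comp (measurable_pi_apply v)
    have h2 : (PP V).map (fun (U : V → unitInterval) (x : V × ℕ) => f (U x.1) x.2) =
        PP (V × ℕ) := by
      have h3 := Measure.infinitePi_map_curry_symm
        (fun (_ : V) (_ : ℕ) => (volume : Measure unitInterval))
      rw [← h1, Measure.map_map (MeasurableEquiv.measurable _) hm1] at h3
      exact h3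
    have hm2 : Measurable fun (U : V → unitInterval) (x : V × ℕ) => f (U x.1) x.2 :=
      measurable_pi_lambda _ fun x =>
        (measurable_pi_apply x.2).comp (hf.comp (measurable_pi_apply x.1))
    have h4 : (fun U : V → unitInterval => ((fun v => f (U v) 0 : V → unitInterval),
        (fun x => f (U x.1) (x.2 + 1) : V × ℕ → unitInterval))) =
        splitM V ∘ fun (U : V → unitInterval) (x : V × ℕ) => f (U x.1) x.2 := rfl
    rw [← map_splitM V, ← h2, Measure.map_map (measurable_splitM V) hm2]
    rfl

end Vale.Agent.P161
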