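import Vale.Agent.Lib.P161.Defs
import Vale.Agent.Lib.P161.Tree

/-!
P161, Ising part: properties of the free Ising measure on a tree that are used by the core.
-/

open MeasureTheory

namespace Vale.Agent.P161

variable {V : Type*} {G : SimpleGraph V}

/-- `f` depends only on the spins in `D`. -/
def DepOn {α : Type*} (D : Set V) (f : (V → Bool) → α) : Prop :=
  ∀ σ τ : V → Bool, (∀ v ∈ D, σ v = τ v) → f σ = f τ

theorem spin_mul_self (b : Bool) : spin b * spin b = 1 := by
  cases b <;> simp [spin]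

theorem abs_spin (b : Bool) : |spin b| = 1 := by
  cases b <;> simp [spin]

/-- The cylinder set of `η` over `D`. -/
def cyl (D : Finset V) (η : V → Bool) : Set (V → Bool) := {σ | ∀ v ∈ D, σ v = η v}

theorem measurableSet_cyl (D : Finset V) (η : V → Bool) : MeasurableSet (cyl D η) := by
  have : cyl D η = ⋂ v ∈ D, (fun σ : V → Bool => σ v) ⁻¹' {η v} := by
    ext σ; simp [cyl]
  rw [this]
  exact Finset.measurableSet_biInter D fun v _ => measurable_pi_apply v (measurableSet_singleton _)

open Classical in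
/-- The edge weight of a pattern. -/
noncomputable def wt (G : SimpleGraph V) (θ : ℝ) (D : Finset V) (η : V → Bool) : ℝ :=
  ∏ e ∈ D.sym2 with e ∈ G.edgeSet, edgeFactor θ η e

theorem edgeFactor_mk (θ : ℝ) (η : V → Bool) (u v : V) :
    edgeFactor θ η s(u, v) = (1 + θ * spin (η u) * spin (η v)) / 2 := rfl

theorem edgeFactor_nonneg {θ : ℝ} (hθ : |θ| ≤ 1) (η : V → Bool) (e : Sym2 V) :
    0 ≤ edgeFactor θ η e := by
  induction e using Sym2.ind with
  | _ u v =>
    rw [edgeFactor_mk]
    have h : |θ * spin (η u) * spin (η v)| ≤ 1 := by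
      rw [abs_mul, abs_mul, abs_spin, abs_spin]; simpa using hθ
    linarith [(abs_le.1 h).1]

theorem wt_nonneg {θ : ℝ} (hθ : |θ| ≤ 1) (D : Finset V) (η : V → Bool) : 0 ≤ wt G θ D η := by
  classical
  exact Finset.prod_nonneg fun e _ => edgeFactor_nonneg hθ η e

theorem IsFreeIsing.cyl_eq {β : ℝ} {μ : Measure (V → Bool)} (hμ : IsFreeIsing G β μ)
    {D : Finset V} (hD : (G.induce (D : Set V)).Connected) (η : V → Bool) :
    μ (cyl D η) = ENNReal.ofReal (1 / 2 * wt G (Real.tanh β) D η) := hμ D hD η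

theorem wt_congr (θ : ℝ) (D : Finset V) {η η' : V → Bool} (h : ∀ v ∈ D, η v = η' v) :
    wt G θ D η = wt G θ D η' := by
  classical
  unfold wt
  refine Finset.prod_congr rfl fun e he => ?_
  have he' := (Finset.mem_filter.1 he).1
  induction e using Sym2.ind with
  | _ u v =>
    rw [Finset.mk_mem_sym2_iff] at he'
    rw [edgeFactor_mk, edgeFactor_mk, h u he'.1, h v he'.2]

theorem wt_singleton (θ : ℝ) (v : V) (η : V → Bool) : wt G θ {v} η = 1 := by
  classical
  unfold wt
  have : (({v} : Finset V).sym2.filter fun e => e ∈ G.edgeSet) = ∅ := by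
    ext e
    induction e using Sym2.ind with
    | _ a b =>
      simp only [Finset.mem_filter, Finset.mk_mem_sym2_iff, Finset.mem_singleton,
        SimpleGraph.mem_edgeSet, Finset.notMem_empty, iff_false, not_and, and_imp]
      rintro rfl rfl
      exact G.loopless.irrefl _
  rw [this, Finset.prod_empty]

theorem connected_singleton (v : V) : (G.induce (({v} : Finset V) : Set V)).Connected := by
  have : Subsingleton ((({v} : Finset V) : Set V)) := by
    rw [Finset.coe_singleton]; infer_instance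
  have : Nonempty ((({v} : Finset V) : Set V)) := ⟨⟨v, by simp⟩⟩
  exact SimpleGraph.Connected.mk (fun a b => by
    rw [Subsingleton.elim a b])

theorem IsFreeIsing.isProbabilityMeasure [Nonempty V] {β : ℝ} {μ : Measure (V → Bool)}
    (hμ : IsFreeIsing G β μ) : IsProbabilityMeasure μ := by
  obtain ⟨v⟩ := (inferInstance : Nonempty V)
  have h1 := fun η => hμ.cyl_eq (connected_singleton (G := G) v) η
  simp only [wt_singleton, mul_one] at h1
  have hu : (Set.univ : Set (V → Bool)) = cyl {v} (fun _ => true) ∪ cyl {v} (fun _ => false) := by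
    ext σ
    simp only [Set.mem_univ, cyl, Finset.mem_singleton, forall_eq, Set.mem_union,
      Set.mem_ofPred_eq, true_iff]
    cases σ v <;> simp
  have hd : Disjoint (cyl {v} (fun _ => true)) (cyl {v} (fun _ => false)) := by
    rw [Set.disjoint_left]
    intro σ hσ hσ'
    have a := hσ v (by simp)
    have b := hσ' v (by simp)
    rw [a] at b
    exact Bool.noConfusion b
  constructor
  rw [hu, measure_union hd (measurableSet_cyl _ _), h1, h1, ← ENNReal.ofReal_add (by norm_num)
    (by norm_num)]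
  norm_num

/-! ### Patterns -/

open Classical in
/-- The spin pattern which is `+` exactly on `T`. -/
noncomputable def pat (T : Finset V) : V → Bool := fun v => decide (v ∈ T)

open Classical in
theorem exists_pat (D : Finset V) (σ : V → Bool) :
    ∀ T ∈ D.powerset, σ ∈ cyl D (pat T) ↔ T = D.filter (fun v => σ v = true) := by
  intro T hT
  rw [Finset.mem_powerset] at hT
  constructor
  · intro h
    ext v
    rw [Finset.mem_filter]
    constructor
    · intro hv
      exact ⟨hT hv, by rw [h v (hT hv)]; simp [pat, hv]⟩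
    · rintro ⟨hvD, hv⟩
      have := h v hvD
      rw [hv] at this
      simpa [pat] using this.symm
  · rintro rfl v hv
    simp only [pat, Finset.mem_filter, hv, true_and]
    cases σ v <;> simp

theorem DepOn.eq_sum {D : Finset V} {f : (V → Bool) → ℝ} (hf : DepOn (D : Set V) f)
    (σ : V → Bool) :
    f σ = ∑ T ∈ D.powerset, (cyl D (pat T)).indicator (fun _ => f (pat T)) σ := by
  classical
  have hmem : D.filter (fun v => σ v = true) ∈ D.powerset := by
    rw [Finset.mem_powerset]; exact Finset.filter_subset _ _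
  rw [Finset.sum_eq_single_of_mem _ hmem]
  · have h := (exists_pat D σ _ hmem).2 rfl
    rw [Set.indicator_of_mem h]
    exact hf _ _ fun v hv => h v hv
  · intro T hT hne
    refine Set.indicator_of_notMem (fun h => hne ((exists_pat D σ T hT).1 h)) _

theorem DepOn.measurable {D : Finset V} {f : (V → Bool) → ℝ} (hf : DepOn (D : Set V) f) :
    Measurable f := by
  have : f = fun σ => ∑ T ∈ D.powerset, (cyl D (pat T)).indicator (fun _ => f (pat T)) σ :=
    funext hf.eq_sum
  rw [this]
  exact Finset.measurable_sum _ fun T _ => measurable_const.indicator (measurableSet_cyl _ _)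

theorem DepOn.exists_bound {D : Finset V} {f : (V → Bool) → ℝ} (hf : DepOn (D : Set V) f) :
    ∃ C, ∀ σ, |f σ| ≤ C := by
  classical
  refine ⟨∑ T ∈ D.powerset, |f (pat T)|, fun σ => ?_⟩
  rw [hf.eq_sum σ]
  refine (Finset.abs_sum_le_sum_abs _ _).trans (Finset.sum_le_sum fun T _ => ?_)
  by_cases h : σ ∈ cyl D (pat T)
  · rw [Set.indicator_of_mem h]
  · rw [Set.indicator_of_notMem h, abs_zero]; exact abs_nonneg _

theorem DepOn.integrable {μ : Measure (V → Bool)} [IsFiniteMeasure μ] {D : Finset V}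
    {f : (V → Bool) → ℝ} (hf : DepOn (D : Set V) f) : Integrable f μ := by
  obtain ⟨C, hC⟩ := hf.exists_bound
  exact Integrable.of_bound hf.measurable.aestronglyMeasurable C (Filter.Eventually.of_forall hC)

theorem DepOn.integral_eq {μ : Measure (V → Bool)} [IsFiniteMeasure μ] {D : Finset V}
    {f : (V → Bool) → ℝ} (hf : DepOn (D : Set V) f) :
    ∫ σ, f σ ∂μ = ∑ T ∈ D.powerset, f (pat T) * μ.real (cyl D (pat T)) := by
  have : ∫ σ, f σ ∂μ
      = ∫ σ, ∑ T ∈ D.powerset, (cyl D (pat T)).indicator (fun _ => f (pat T)) σ ∂μ :=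
    integral_congr_ae (Filter.Eventually.of_forall hf.eq_sum)
  rw [this, integral_finsetSum]
  · refine Finset.sum_congr rfl fun T _ => ?_
    rw [integral_indicator (measurableSet_cyl _ _), setIntegral_const, smul_eq_mul, mul_comm]
  · intro T _
    exact (integrable_const _).indicator (measurableSet_cyl _ _)

theorem DepOn.mono {α : Type*} {D D' : Set V} (h : D ⊆ D') {f : (V → Bool) → α}
    (hf : DepOn D f) : DepOn D' f := fun σ τ hst => hf σ τ fun v hv => hst v (h hv)

theorem DepOn.mul {D : Set V} {f g : (V → Bool) → ℝ} (hf : DepOn D f) (hg : DepOn D g) :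
    DepOn D (fun σ => f σ * g σ) := fun σ τ h => by
  show f σ * g σ = f τ * g τ
  rw [hf σ τ h, hg σ τ h]

theorem depOn_spin {D : Set V} {v : V} (hv : v ∈ D) : DepOn D (fun σ => spin (σ v)) :=
  fun σ τ h => by
  show spin (σ v) = spin (τ v)
  rw [h v hv]

/-! ### Side sets of an edge -/

/-- If `D` is connected, `t ∈ D`, `p ∉ D` and `t ~ p`, then all of `D` is on the `t`-side. -/
theorem side_of_connected (hG : G.IsTree) {D : Set V} (hD : (G.induce D).Connected) {t p : V}
    (ht : t ∈ D) (hp : p ∉ D) (hadj : G.Adj t p) {w : V} (hw : w ∈ D) :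
    G.dist w p = G.dist w t + 1 := by
  have key : ∀ (a b : D), (G.induce D).Reachable a b →
      G.dist (a : V) p = G.dist (a : V) t + 1 → G.dist (b : V) p = G.dist (b : V) t + 1 := by
    rintro a b ⟨q⟩
    induction q with
    | nil => exact id
    | @cons a c b h q ih =>
      intro ha
      apply ih
      have hac : G.Adj (a : V) (c : V) := h
      rcases hG.dist_eq_dist_add_one_of_adj (c : V) hadj with h1 | h1
      · exfalso
        obtain ⟨_, h3⟩ := cross_edge hG hadj hac ha h1
        exact hp (h3 ▸ c.2)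
      · exact h1
  have h0 : G.dist t p = G.dist t t + 1 := by
    rw [SimpleGraph.dist_self, SimpleGraph.dist_eq_one_iff_adj.2 hadj]
  exact key ⟨t, ht⟩ ⟨w, hw⟩ (hD.preconnected _ _) h0

/-- Every finite set on the `p`-side of the edge `p q` is contained in a finite connected set
on the `p`-side containing `p`. -/
theorem exists_hull [G.LocallyFinite] (hG : G.IsTree) {p q : V} (hpq : G.Adj p q) (A : Finset V)
    (hA : ∀ y ∈ A, G.dist y q = G.dist y p + 1) :
    ∃ A' : Finset V, A ⊆ A' ∧ p ∈ A' ∧ (G.induce (A' : Set V)).Connected ∧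
      ∀ y ∈ A', G.dist y q = G.dist y p + 1 := by
  classical
  have hc := hG.connected
  set n := A.sup (fun w => G.dist p w) with hn
  set A' := (finite_ball hc p n).toFinset.filter (fun y => G.dist y q = G.dist y p + 1) with hA'
  have hmem : ∀ y, y ∈ A' ↔ G.dist p y ≤ n ∧ G.dist y q = G.dist y p + 1 := by
    intro y
    rw [hA', Finset.mem_filter, Set.Finite.mem_toFinset]
    rfl
  have hpA : p ∈ A' := by
    rw [hmem]
    refine ⟨by simp, ?_⟩
    rw [SimpleGraph.dist_self, SimpleGraph.dist_eq_one_iff_adj.2 hpq]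
  refine ⟨A', fun y hy => ?_, hpA, ?_, fun y hy => ((hmem y).1 hy).2⟩
  · rw [hmem]
    exact ⟨Finset.le_sup (f := fun w => G.dist p w) hy, hA y hy⟩
  · have hreach : ∀ k : ℕ, ∀ y (hy : y ∈ (A' : Set V)), G.dist p y = k →
        (G.induce (A' : Set V)).Reachable ⟨y, hy⟩ ⟨p, hpA⟩ := by
      intro k
      induction k with
      | zero =>
        intro y hy hk
        have : p = y := (hc.dist_eq_zero_iff).1 hk
        subst this
        exact SimpleGraph.Reachable.refl _
      | succ k ih =>
        intro y hy hk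
        obtain ⟨z, hyz, hz⟩ := exists_parent hc hk
        have hy' := (hmem y).1 (Finset.mem_coe.1 hy)
        have hzA : z ∈ (A' : Set V) := by
          rw [Finset.mem_coe, hmem]
          refine ⟨by omega, ?_⟩
          have h1 : G.dist y q ≤ G.dist y z + G.dist z q := hc.dist_triangle
          have h2 : G.dist y z = 1 := SimpleGraph.dist_eq_one_iff_adj.2 hyz
          have h3 : G.dist z q ≤ G.dist z p + G.dist p q := hc.dist_triangle
          have h4 : G.dist p q = 1 := SimpleGraph.dist_eq_one_iff_adj.2 hpq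
          have h5 : G.dist y p = G.dist p y := SimpleGraph.dist_comm
          have h6 : G.dist z p = G.dist p z := SimpleGraph.dist_comm
          omega
        have hadj : (G.induce (A' : Set V)).Adj ⟨y, hy⟩ ⟨z, hzA⟩ := hyz
        exact hadj.reachable.trans (ih z hzA hz)
    have : Nonempty ((A' : Set V)) := ⟨⟨p, hpA⟩⟩
    refine SimpleGraph.Connected.mk fun a b => ?_
    exact (hreach _ a.1 a.2 rfl).trans (hreach _ b.1 b.2 rfl).symm

/-- Weight factorisation across an edge. -/
theorem wt_union (hG : G.IsTree) {p q : V} (hpq : G.Adj p q) {A B : Finset V} [DecidableEq V]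
    (hpA : p ∈ A) (hqB : q ∈ B)
    (hA : ∀ y ∈ A, G.dist y q = G.dist y p + 1) (hB : ∀ y ∈ B, G.dist y p = G.dist y q + 1)
    (θ : ℝ) (η : V → Bool) :
    wt G θ (A ∪ B) η = wt G θ A η * wt G θ B η * ((1 + θ * spin (η p) * spin (η q)) / 2) := by
  classical
  have hdisj : ∀ y, y ∈ A → y ∉ B := fun y hy hy' => by
    have h1 := hA y hy
    have h2 := hB y hy'
    omega
  have hset : ((A ∪ B).sym2.filter fun e => e ∈ G.edgeSet)
      = ((A.sym2.filter fun e => e ∈ G.edgeSet) ∪ (B.sym2.filter fun e => e ∈ G.edgeSet))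
        ∪ {s(p, q)} := by
    ext e
    induction e using Sym2.ind with
    | _ a b =>
      simp only [Finset.mem_filter, Finset.mk_mem_sym2_iff, Finset.mem_union,
        SimpleGraph.mem_edgeSet, Finset.mem_singleton]
      constructor
      · rintro ⟨⟨ha, hb⟩, hab⟩
        rcases ha with ha | ha <;> rcases hb with hb | hb
        · exact Or.inl (Or.inl ⟨⟨ha, hb⟩, hab⟩)
        · obtain ⟨h1, h2⟩ := cross_edge hG hpq hab (hA a ha) (hB b hb)
          subst h1; subst h2
          exact Or.inr rfl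
        · obtain ⟨h1, h2⟩ := cross_edge hG hpq hab.symm (hA b hb) (hB a ha)
          subst h1; subst h2
          exact Or.inr Sym2.eq_swap
        · exact Or.inl (Or.inr ⟨⟨ha, hb⟩, hab⟩)
      · rintro ((⟨⟨ha, hb⟩, hab⟩ | ⟨⟨ha, hb⟩, hab⟩) | h)
        · exact ⟨⟨Or.inl ha, Or.inl hb⟩, hab⟩
        · exact ⟨⟨Or.inr ha, Or.inr hb⟩, hab⟩
        · rcases Sym2.eq_iff.1 h with ⟨rfl, rfl⟩ | ⟨rfl, rfl⟩
          · exact ⟨⟨Or.inl hpA, Or.inr hqB⟩, hpq⟩
          · exact ⟨⟨Or.inr hqB, Or.inl hpA⟩, hpq.symm⟩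
  unfold wt
  rw [hset, Finset.prod_union, Finset.prod_union, Finset.prod_singleton, edgeFactor_mk]
  · rw [Finset.disjoint_left]
    intro e he he'
    induction e using Sym2.ind with
    | _ a b =>
      simp only [Finset.mem_filter, Finset.mk_mem_sym2_iff] at he he'
      exact hdisj a he.1.1 he'.1.1
  · rw [Finset.disjoint_left]
    intro e he he'
    rw [Finset.mem_singleton] at he'
    subst he'
    simp only [Finset.mem_union, Finset.mem_filter, Finset.mk_mem_sym2_iff] at he
    rcases he with he | he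
    · exact hdisj q he.1.2 hqB
    · exact hdisj p hpA he.1.1

theorem abs_tanh_le_one (β : ℝ) : |Real.tanh β| ≤ 1 := (Real.abs_tanh_lt_one β).le

theorem IsFreeIsing.real_cyl {β : ℝ} {μ : Measure (V → Bool)} (hμ : IsFreeIsing G β μ)
    {D : Finset V} (hD : (G.induce (D : Set V)).Connected) (η : V → Bool) :
    μ.real (cyl D η) = 1 / 2 * wt G (Real.tanh β) D η := by
  rw [measureReal_def, hμ.cyl_eq hD, ENNReal.toReal_ofReal]
  exact mul_nonneg (by norm_num) (wt_nonneg (abs_tanh_le_one β) D η)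

theorem connected_union {p q : V} (hpq : G.Adj p q) {A B : Finset V} [DecidableEq V]
    (hpA : p ∈ A) (hqB : q ∈ B) (hA : (G.induce (A : Set V)).Connected)
    (hB : (G.induce (B : Set V)).Connected) :
    (G.induce ((A ∪ B : Finset V) : Set V)).Connected := by
  have h1 : (G.induce ((A : Set V) ∪ {p, q})).Connected :=
    SimpleGraph.induce_union_connected hA.preconnected
      (SimpleGraph.induce_pair_connected_of_adj hpq).preconnected ⟨p, by simp [hpA]⟩
  have h2 : (G.induce (((A : Set V) ∪ {p, q}) ∪ (B : Set V))).Connected :=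
    SimpleGraph.induce_union_connected h1.preconnected hB.preconnected ⟨q, by simp [hqB]⟩
  have h3 : (((A : Set V) ∪ {p, q}) ∪ (B : Set V)) = ((A ∪ B : Finset V) : Set V) := by
    ext x
    simp only [Set.mem_union, Finset.mem_coe, Set.mem_insert_iff, Set.mem_singleton_iff,
      Finset.mem_union]
    constructor
    · rintro ((h | rfl | rfl) | h)
      · exact Or.inl h
      · exact Or.inl hpA
      · exact Or.inr hqB
      · exact Or.inr h
    · rintro (h | h)
      · exact Or.inl (Or.inl h)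
      · exact Or.inr h
  rw [← h3]
  exact h2

/-- Probability of two patterns on the two sides of an edge. -/
theorem IsFreeIsing.real_cyl_inter {β : ℝ} {μ : Measure (V → Bool)}
    (hG : G.IsTree) (hμ : IsFreeIsing G β μ) {p q : V} (hpq : G.Adj p q) {A B : Finset V}
    (hpA : p ∈ A) (hqB : q ∈ B)
    (hAc : (G.induce (A : Set V)).Connected) (hBc : (G.induce (B : Set V)).Connected)
    (hA : ∀ y ∈ A, G.dist y q = G.dist y p + 1) (hB : ∀ y ∈ B, G.dist y p = G.dist y q + 1)
    (η η' : V → Bool) :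
    μ.real (cyl A η ∩ cyl B η') = μ.real (cyl A η) * μ.real (cyl B η') *
      (1 + Real.tanh β * spin (η p) * spin (η' q)) := by
  classical
  have hdisj : ∀ y, y ∈ A → y ∉ B := fun y hy hy' => by
    have h1 := hA y hy
    have h2 := hB y hy'
    omega
  set η'' : V → Bool := fun v => if v ∈ A then η v else η' v with hη''
  have e1 : ∀ v ∈ A, η'' v = η v := fun v hv => by simp [hη'', hv]
  have e2 : ∀ v ∈ B, η'' v = η' v := fun v hv => by
    have : v ∉ A := fun h => hdisj v h hv
    simp [hη'', this]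
  have hset : cyl A η ∩ cyl B η' = cyl (A ∪ B) η'' := by
    ext σ
    constructor
    · rintro ⟨h1, h2⟩ v hv
      rcases Finset.mem_union.1 hv with h | h
      · rw [h1 v h, e1 v h]
      · rw [h2 v h, e2 v h]
    · intro h
      refine ⟨fun v hv => ?_, fun v hv => ?_⟩
      · rw [h v (Finset.mem_union_left _ hv), e1 v hv]
      · rw [h v (Finset.mem_union_right _ hv), e2 v hv]
  rw [hset, hμ.real_cyl (connected_union hpq hpA hqB hAc hBc), hμ.real_cyl hAc,
    hμ.real_cyl hBc, wt_union hG hpq hpA hqB hA hB, wt_congr _ A e1, wt_congr _ B e2,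
    e1 p hpA, e2 q hqB]
  ring

/-- Edge cut formula. Here `G` is a tree, `p ~ q`, `f` depends on finitely many spins on the
`p`-side and `g` on finitely many spins on the `q`-side. -/
theorem IsFreeIsing.integral_mul_edge [G.LocallyFinite] {β : ℝ} {μ : Measure (V → Bool)}
    (hG : G.IsTree) (hμ : IsFreeIsing G β μ)
    {p q : V} (hpq : G.Adj p q) {A B : Finset V}
    (hA : ∀ y ∈ A, G.dist y q = G.dist y p + 1) (hB : ∀ y ∈ B, G.dist y p = G.dist y q + 1)
    {f g : (V → Bool) → ℝ} (hf : DepOn (A : Set V) f) (hg : DepOn (B : Set V) g) :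
    ∫ σ, f σ * g σ ∂μ = (∫ σ, f σ ∂μ) * (∫ σ, g σ ∂μ) +
      Real.tanh β * (∫ σ, spin (σ p) * f σ ∂μ) * (∫ σ, spin (σ q) * g σ ∂μ) := by
  classical
  have : Nonempty V := ⟨p⟩
  have := hμ.isProbabilityMeasure
  obtain ⟨A', hAA', hpA', hA'c, hA'⟩ := exists_hull hG hpq A hA
  obtain ⟨B', hBB', hqB', hB'c, hB'⟩ := exists_hull hG hpq.symm B hB
  have hf' : DepOn (A' : Set V) f := hf.mono (by exact_mod_cast hAA')
  have hg' : DepOn (B' : Set V) g := hg.mono (by exact_mod_cast hBB')
  have hsf : DepOn (A' : Set V) (fun σ => spin (σ p) * f σ) :=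
    (depOn_spin (by exact_mod_cast hpA')).mul hf'
  have hsg : DepOn (B' : Set V) (fun σ => spin (σ q) * g σ) :=
    (depOn_spin (by exact_mod_cast hqB')).mul hg'
  have hfg : ∫ σ, f σ * g σ ∂μ = ∑ T ∈ A'.powerset, ∑ S ∈ B'.powerset,
      f (pat T) * g (pat S) * μ.real (cyl A' (pat T) ∩ cyl B' (pat S)) := by
    have h1 : ∀ σ, f σ * g σ = ∑ T ∈ A'.powerset, ∑ S ∈ B'.powerset,
        (cyl A' (pat T) ∩ cyl B' (pat S)).indicator (fun _ => f (pat T) * g (pat S)) σ := by
      intro σ
      rw [hf'.eq_sum σ, hg'.eq_sum σ, Finset.sum_mul_sum]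
      refine Finset.sum_congr rfl fun T _ => Finset.sum_congr rfl fun S _ => ?_
      by_cases h2 : σ ∈ cyl A' (pat T) <;> by_cases h3 : σ ∈ cyl B' (pat S) <;>
        simp [Set.indicator, h2, h3]
    rw [integral_congr_ae (Filter.Eventually.of_forall h1), integral_finsetSum]
    · refine Finset.sum_congr rfl fun T _ => ?_
      rw [integral_finsetSum]
      · refine Finset.sum_congr rfl fun S _ => ?_
        rw [integral_indicator ((measurableSet_cyl _ _).inter (measurableSet_cyl _ _)),
          setIntegral_const, smul_eq_mul, mul_comm]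
      · intro S _
        exact (integrable_const _).indicator
          ((measurableSet_cyl _ _).inter (measurableSet_cyl _ _))
    · intro T _
      refine integrable_finsetSum _ fun S _ => ?_
      exact (integrable_const _).indicator ((measurableSet_cyl _ _).inter (measurableSet_cyl _ _))
  rw [hfg, hf'.integral_eq, hg'.integral_eq, hsf.integral_eq, hsg.integral_eq]
  simp only [hμ.real_cyl_inter hG hpq hpA' hqB' hA'c hB'c hA' hB']
  rw [Finset.mul_sum (a := Real.tanh β), Finset.sum_mul_sum, Finset.sum_mul_sum,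
    ← Finset.sum_add_distrib]
  refine Finset.sum_congr rfl fun T _ => ?_
  rw [← Finset.sum_add_distrib]
  refine Finset.sum_congr rfl fun S _ => ?_
  ring

open Classical in
theorem depOn_prod {ι : Type*} (R : Finset ι) (π : ι → V) (w : ι → Bool → ℝ) :
    DepOn ((R.image π : Finset V) : Set V) (fun σ => ∏ x ∈ R, w x (σ (π x))) := by
  intro σ τ h
  show ∏ x ∈ R, w x (σ (π x)) = ∏ x ∈ R, w x (τ (π x))
  refine Finset.prod_congr rfl fun x hx => ?_
  rw [h (π x) (by
    rw [Finset.mem_coe]
    exact Finset.mem_image_of_mem π hx)]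

theorem abs_integral_spin_mul_le {μ : Measure (V → Bool)} {F : (V → Bool) → ℝ}
    (hF : ∀ σ, 0 ≤ F σ) (v : V) : |∫ σ, spin (σ v) * F σ ∂μ| ≤ ∫ σ, F σ ∂μ := by
  have h1 := abs_integral_le_integral_abs (μ := μ) (f := fun σ => spin (σ v) * F σ)
  have h2 : ∀ σ : V → Bool, |spin (σ v) * F σ| = F σ := fun σ => by
    rw [abs_mul, abs_spin, one_mul, abs_of_nonneg (hF σ)]
  simpa only [h2] using h1

theorem tanh_nonneg_of_nonneg {β : ℝ} (hβ : 0 ≤ β) : 0 ≤ Real.tanh β := by
  rw [Real.tanh_eq_sinh_div_cosh]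
  exact div_nonneg (Real.sinh_nonneg_iff.2 hβ) (Real.cosh_pos β).le

/-- The algebra behind one step of the covariance decay. -/
theorem cov_step_algebra {θ a0 a1 b0 b1 c0 c1 K : ℝ} (hθ0 : 0 ≤ θ) (hθ1 : θ ≤ 1)
    (ha : |a1| ≤ a0)
    (IH : |(a0 * c1 + θ * a1 * c0) * (a0 * b0 + θ * a1 * b1)
          - (a0 * b1 + θ * a1 * b0) * (a0 * c0 + θ * a1 * c1)|
        ≤ K * (a0 * b0 + θ * a1 * b1) ^ 2) :
    |(a1 * c0 + θ * a0 * c1) * (a0 * b0 + θ * a1 * b1)
          - (a1 * b0 + θ * a0 * b1) * (a0 * c0 + θ * a1 * c1)|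
        ≤ K * θ * (a0 * b0 + θ * a1 * b1) ^ 2 := by
  have ha2 : a1 ^ 2 ≤ a0 ^ 2 := sq_le_sq.2 (ha.trans (le_abs_self _))
  have L : (a1 * c0 + θ * a0 * c1) * (a0 * b0 + θ * a1 * b1)
      - (a1 * b0 + θ * a0 * b1) * (a0 * c0 + θ * a1 * c1)
      = θ * ((a0 ^ 2 - a1 ^ 2) * (c1 * b0 - c0 * b1)) := by ring
  have M : (a0 * c1 + θ * a1 * c0) * (a0 * b0 + θ * a1 * b1)
      - (a0 * b1 + θ * a1 * b0) * (a0 * c0 + θ * a1 * c1)
      = (a0 ^ 2 - θ ^ 2 * a1 ^ 2) * (c1 * b0 - c0 * b1) := by ring
  rw [M, abs_mul] at IH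
  rw [L, abs_mul, abs_mul, abs_of_nonneg hθ0,
    abs_of_nonneg (by linarith : (0 : ℝ) ≤ a0 ^ 2 - a1 ^ 2)]
  have hθ2 : θ ^ 2 * a1 ^ 2 ≤ a1 ^ 2 := by
    have h1 : θ ^ 2 ≤ 1 := by nlinarith only [hθ0, hθ1]
    calc θ ^ 2 * a1 ^ 2 ≤ 1 * a1 ^ 2 := mul_le_mul_of_nonneg_right h1 (sq_nonneg a1)
      _ = a1 ^ 2 := one_mul _
  have h7 : (a0 ^ 2 - a1 ^ 2) * |c1 * b0 - c0 * b1|
      ≤ |a0 ^ 2 - θ ^ 2 * a1 ^ 2| * |c1 * b0 - c0 * b1| := by
    refine mul_le_mul_of_nonneg_right ?_ (abs_nonneg _)
    exact (by linarith : a0 ^ 2 - a1 ^ 2 ≤ a0 ^ 2 - θ ^ 2 * a1 ^ 2).trans (le_abs_self _)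
  calc θ * ((a0 ^ 2 - a1 ^ 2) * |c1 * b0 - c0 * b1|)
      ≤ θ * (K * (a0 * b0 + θ * a1 * b1) ^ 2) :=
        mul_le_mul_of_nonneg_left (h7.trans IH) hθ0
    _ = K * θ * (a0 * b0 + θ * a1 * b1) ^ 2 := by ring

/-- One step of the covariance decay, for a weight that factorises over the edge `p q`. -/
theorem IsFreeIsing.cov_step [G.LocallyFinite] {β : ℝ} (hβ : 0 ≤ β) {μ : Measure (V → Bool)}
    (hG : G.IsTree) (hμ : IsFreeIsing G β μ) {p q v : V} (hpq : G.Adj p q)
    (hvp : G.dist v p = G.dist v q + 1) {A B : Finset V}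
    (hA : ∀ y ∈ A, G.dist y q = G.dist y p + 1) (hB : ∀ y ∈ B, G.dist y p = G.dist y q + 1)
    {FA FB : (V → Bool) → ℝ} (hFA : DepOn (A : Set V) FA) (hFB : DepOn (B : Set V) FB)
    (hpos : ∀ σ, 0 ≤ FA σ) {K : ℝ}
    (IH : |(∫ σ, spin (σ q) * spin (σ v) * (FA σ * FB σ) ∂μ) * (∫ σ, FA σ * FB σ ∂μ)
        - (∫ σ, spin (σ q) * (FA σ * FB σ) ∂μ) * (∫ σ, spin (σ v) * (FA σ * FB σ) ∂μ)|
        ≤ K * (∫ σ, FA σ * FB σ ∂μ) ^ 2) :
    |(∫ σ, spin (σ p) * spin (σ v) * (FA σ * FB σ) ∂μ) * (∫ σ, FA σ * FB σ ∂μ)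
        - (∫ σ, spin (σ p) * (FA σ * FB σ) ∂μ) * (∫ σ, spin (σ v) * (FA σ * FB σ) ∂μ)|
        ≤ K * Real.tanh β * (∫ σ, FA σ * FB σ ∂μ) ^ 2 := by
  classical
  have hAside : ∀ y ∈ insert p A, G.dist y q = G.dist y p + 1 := by
    intro y hy
    rcases Finset.mem_insert.1 hy with rfl | hy
    · rw [SimpleGraph.dist_self, SimpleGraph.dist_eq_one_iff_adj.2 hpq]
    · exact hA y hy
  have hBside : ∀ y ∈ insert v (insert q B), G.dist y p = G.dist y q + 1 := by
    intro y hy
    rcases Finset.mem_insert.1 hy with rfl | hy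
    · exact hvp
    rcases Finset.mem_insert.1 hy with rfl | hy
    · rw [SimpleGraph.dist_self, SimpleGraph.dist_eq_one_iff_adj.2 hpq.symm]
    · exact hB y hy
  have dFA : DepOn ((insert p A : Finset V) : Set V) FA :=
    hFA.mono (by rw [Finset.coe_insert]; exact Set.subset_insert _ _)
  have dFB : DepOn ((insert v (insert q B) : Finset V) : Set V) FB :=
    hFB.mono (by
      rw [Finset.coe_insert, Finset.coe_insert]
      exact (Set.subset_insert _ _).trans (Set.subset_insert _ _))
  have dpA : DepOn ((insert p A : Finset V) : Set V) (fun σ => spin (σ p) * FA σ) :=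
    (depOn_spin (by simp)).mul dFA
  have dvB : DepOn ((insert v (insert q B) : Finset V) : Set V)
      (fun σ => spin (σ v) * FB σ) := (depOn_spin (by simp)).mul dFB
  have dqB : DepOn ((insert v (insert q B) : Finset V) : Set V)
      (fun σ => spin (σ q) * FB σ) := (depOn_spin (by simp)).mul dFB
  have dqvB : DepOn ((insert v (insert q B) : Finset V) : Set V)
      (fun σ => spin (σ q) * (spin (σ v) * FB σ)) := (depOn_spin (by simp)).mul dvB
  have E1 := hμ.integral_mul_edge hG hpq hAside hBside dFA dFB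
  have E2 := hμ.integral_mul_edge hG hpq hAside hBside dpA dFB
  have E3 := hμ.integral_mul_edge hG hpq hAside hBside dFA dvB
  have E4 := hμ.integral_mul_edge hG hpq hAside hBside dpA dvB
  have E5 := hμ.integral_mul_edge hG hpq hAside hBside dFA dqB
  have E6 := hμ.integral_mul_edge hG hpq hAside hBside dFA dqvB
  have sq1 : ∀ (x : V) (y : ℝ) (σ : V → Bool), spin (σ x) * (spin (σ x) * y) = y :=
    fun x y σ => by rw [← mul_assoc, spin_mul_self, one_mul]
  simp only [sq1] at E2 E4 E5 E6
  have I2 : ∫ σ, spin (σ p) * (FA σ * FB σ) ∂μ = ∫ σ, (spin (σ p) * FA σ) * FB σ ∂μ :=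
    integral_congr_ae (Filter.Eventually.of_forall fun σ => by ring)
  have I3 : ∫ σ, spin (σ v) * (FA σ * FB σ) ∂μ = ∫ σ, FA σ * (spin (σ v) * FB σ) ∂μ :=
    integral_congr_ae (Filter.Eventually.of_forall fun σ => by ring)
  have I4 : ∫ σ, spin (σ p) * spin (σ v) * (FA σ * FB σ) ∂μ
      = ∫ σ, (spin (σ p) * FA σ) * (spin (σ v) * FB σ) ∂μ :=
    integral_congr_ae (Filter.Eventually.of_forall fun σ => by ring)
  have I5 : ∫ σ, spin (σ q) * (FA σ * FB σ) ∂μ = ∫ σ, FA σ * (spin (σ q) * FB σ) ∂μ :=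
    integral_congr_ae (Filter.Eventually.of_forall fun σ => by ring)
  have I6 : ∫ σ, spin (σ q) * spin (σ v) * (FA σ * FB σ) ∂μ
      = ∫ σ, FA σ * (spin (σ q) * (spin (σ v) * FB σ)) ∂μ :=
    integral_congr_ae (Filter.Eventually.of_forall fun σ => by ring)
  rw [I6, I5, I3, E6, E5, E3, E1] at IH
  rw [I4, I2, I3, E4, E2, E3, E1]
  exact cov_step_algebra (tanh_nonneg_of_nonneg hβ) (Real.tanh_lt_one β).le
    (abs_integral_spin_mul_le (μ := μ) hpos p) IH

/-- Covariance decay under arbitrary positive site weights. -/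
theorem IsFreeIsing.cov_decay [G.LocallyFinite] {β : ℝ} (hβ : 0 ≤ β) {μ : Measure (V → Bool)}
    (hG : G.IsTree) (hμ : IsFreeIsing G β μ)
    {ι : Type*} (R : Finset ι) (π : ι → V) (w : ι → Bool → ℝ) (hw : ∀ x b, 0 < w x b) (u v : V) :
    |(∫ σ, spin (σ u) * spin (σ v) * ∏ x ∈ R, w x (σ (π x)) ∂μ) * (∫ σ, ∏ x ∈ R, w x (σ (π x)) ∂μ)
      - (∫ σ, spin (σ u) * ∏ x ∈ R, w x (σ (π x)) ∂μ) *
        (∫ σ, spin (σ v) * ∏ x ∈ R, w x (σ (π x)) ∂μ)|
      ≤ Real.tanh β ^ G.dist u v * (∫ σ, ∏ x ∈ R, w x (σ (π x)) ∂μ) ^ 2 := by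
  classical
  have hc := hG.connected
  have key : ∀ n : ℕ, ∀ u : V, G.dist v u = n →
      |(∫ σ, spin (σ u) * spin (σ v) * ∏ x ∈ R, w x (σ (π x)) ∂μ)
          * (∫ σ, ∏ x ∈ R, w x (σ (π x)) ∂μ)
        - (∫ σ, spin (σ u) * ∏ x ∈ R, w x (σ (π x)) ∂μ) *
          (∫ σ, spin (σ v) * ∏ x ∈ R, w x (σ (π x)) ∂μ)|
        ≤ Real.tanh β ^ n * (∫ σ, ∏ x ∈ R, w x (σ (π x)) ∂μ) ^ 2 := by
    intro n
    induction n with
    | zero =>
      intro u hu
      have huv : v = u := (hc.dist_eq_zero_iff).1 hu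
      subst huv
      have hW : ∀ σ : V → Bool, 0 ≤ ∏ x ∈ R, w x (σ (π x)) := fun σ =>
        Finset.prod_nonneg fun x _ => (hw x _).le
      have h1 := abs_integral_spin_mul_le (μ := μ) hW v
      have h2 : ∀ σ : V → Bool, spin (σ v) * spin (σ v) * ∏ x ∈ R, w x (σ (π x))
          = ∏ x ∈ R, w x (σ (π x)) := fun σ => by rw [spin_mul_self, one_mul]
      simp only [h2, pow_zero, one_mul]
      set Z := ∫ σ, ∏ x ∈ R, w x (σ (π x)) ∂μ
      set M := ∫ σ, spin (σ v) * ∏ x ∈ R, w x (σ (π x)) ∂μ
      have h3 : M ^ 2 ≤ Z ^ 2 := sq_le_sq.2 (h1.trans (le_abs_self _))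
      rw [abs_le]
      constructor <;> linarith only [sq_nonneg M, h3]
    | succ n ih =>
      intro p hp
      obtain ⟨q, hpq, hq⟩ := exists_parent hc hp
      have IH := ih q hq
      have hvp : G.dist v p = G.dist v q + 1 := by omega
      -- split the weights
      have hprod : ∀ σ : V → Bool, ∏ x ∈ R, w x (σ (π x))
          = (∏ x ∈ R.filter (fun x => G.dist (π x) q = G.dist (π x) p + 1), w x (σ (π x)))
            * ∏ x ∈ R.filter (fun x => ¬ (G.dist (π x) q = G.dist (π x) p + 1)),
              w x (σ (π x)) := fun σ =>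
        (Finset.prod_filter_mul_prod_filter_not R _ _).symm
      simp only [hprod] at IH ⊢
      rw [pow_succ]
      refine hμ.cov_step hβ hG hpq hvp ?_ ?_ (depOn_prod _ π w) (depOn_prod _ π w)
        (fun σ => Finset.prod_nonneg fun x _ => (hw x _).le) IH
      · intro y hy
        obtain ⟨x, hx, rfl⟩ := Finset.mem_image.1 hy
        exact (Finset.mem_filter.1 hx).2
      · intro y hy
        obtain ⟨x, hx, rfl⟩ := Finset.mem_image.1 hy
        have h1 := (Finset.mem_filter.1 hx).2
        rcases hG.dist_eq_dist_add_one_of_adj (π x) hpq with h2 | h2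
        · exact h2
        · exact absurd h2 h1
  have h := key (G.dist v u) u rfl
  rwa [SimpleGraph.dist_comm] at h

/-- Every finite set is contained in a finite connected set. -/
theorem exists_connected_superset [G.LocallyFinite] (hG : G.Connected) (A : Finset V) :
    ∃ D : Finset V, A ⊆ D ∧ (G.induce (D : Set V)).Connected := by
  classical
  obtain ⟨p⟩ := hG.nonempty
  set n := A.sup (fun w => G.dist p w) with hn
  set D := (finite_ball hG p n).toFinset with hD
  have hmem : ∀ y, y ∈ D ↔ G.dist p y ≤ n := by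
    intro y
    rw [hD, Set.Finite.mem_toFinset]
    rfl
  have hpA : p ∈ D := by rw [hmem]; simp
  refine ⟨D, fun y hy => ?_, ?_⟩
  · rw [hmem]
    exact Finset.le_sup (f := fun w => G.dist p w) hy
  · have hreach : ∀ k : ℕ, ∀ y (hy : y ∈ (D : Set V)), G.dist p y = k →
        (G.induce (D : Set V)).Reachable ⟨y, hy⟩ ⟨p, hpA⟩ := by
      intro k
      induction k with
      | zero =>
        intro y hy hk
        have : p = y := (hG.dist_eq_zero_iff).1 hk
        subst this
        exact SimpleGraph.Reachable.refl _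
      | succ k ih =>
        intro y hy hk
        obtain ⟨z, hyz, hz⟩ := exists_parent hG hk
        have hy' := (hmem y).1 (Finset.mem_coe.1 hy)
        have hzA : z ∈ (D : Set V) := by
          rw [Finset.mem_coe, hmem]
          omega
        have hadj : (G.induce (D : Set V)).Adj ⟨y, hy⟩ ⟨z, hzA⟩ := hyz
        exact hadj.reachable.trans (ih z hzA hz)
    have : Nonempty ((D : Set V)) := ⟨⟨p, hpA⟩⟩
    refine SimpleGraph.Connected.mk fun a b => ?_
    exact (hreach _ a.1 a.2 rfl).trans (hreach _ b.1 b.2 rfl).symm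

/-- Uniqueness of the free Ising measure. -/
theorem IsFreeIsing.unique [G.LocallyFinite] {β : ℝ} {μ ν : Measure (V → Bool)} (hG : G.IsTree)
    (hμ : IsFreeIsing G β μ) (hν : IsFreeIsing G β ν) : μ = ν := by
  classical
  have hne := hG.connected.nonempty
  have := hμ.isProbabilityMeasure
  have := hν.isProbabilityMeasure
  have hcyl : ∀ (I : Finset V) (η : V → Bool), μ (cyl I η) = ν (cyl I η) := by
    intro I η
    obtain ⟨D, hID, hD⟩ := exists_connected_superset hG.connected I
    have hf : DepOn (D : Set V) ((cyl I η).indicator (fun _ => (1 : ℝ))) := by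
      intro σ τ hst
      have : σ ∈ cyl I η ↔ τ ∈ cyl I η := by
        constructor
        · intro h v hv; rw [← hst v (hID hv)]; exact h v hv
        · intro h v hv; rw [hst v (hID hv)]; exact h v hv
      by_cases h : σ ∈ cyl I η
      · rw [Set.indicator_of_mem h, Set.indicator_of_mem (this.1 h)]
      · rw [Set.indicator_of_notMem h, Set.indicator_of_notMem (fun h' => h (this.2 h'))]
    have h1 : ∀ ρ : Measure (V → Bool), IsProbabilityMeasure ρ →
        ∫ σ, (cyl I η).indicator (fun _ => (1 : ℝ)) σ ∂ρ = ρ.real (cyl I η) := by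
      intro ρ _
      rw [integral_indicator (measurableSet_cyl _ _), setIntegral_const, smul_eq_mul, mul_one]
    have h2 : μ.real (cyl I η) = ν.real (cyl I η) := by
      rw [← h1 μ inferInstance, ← h1 ν inferInstance, hf.integral_eq, hf.integral_eq]
      refine Finset.sum_congr rfl fun T _ => ?_
      rw [hμ.real_cyl hD, hν.real_cyl hD]
    exact (measureReal_eq_measureReal_iff).1 h2
  have hproj : ∀ ρ : Measure (V → Bool), IsProbabilityMeasure ρ →
      (∀ (I : Finset V) (η : V → Bool), ρ (cyl I η) = μ (cyl I η)) →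
      IsProjectiveLimit ρ (fun I : Finset V => μ.map (Finset.restrict I)) := by
    intro ρ _ hρ I
    refine Measure.ext_of_singleton fun x => ?_
    rw [Measure.map_apply (Finset.measurable_restrict I) (measurableSet_singleton _),
      Measure.map_apply (Finset.measurable_restrict I) (measurableSet_singleton _)]
    set η : V → Bool := fun v => if h : v ∈ I then x ⟨v, h⟩ else true with hη
    have hpre : (Finset.restrict I : (V → Bool) → (I → Bool)) ⁻¹' {x} = cyl I η := by
      ext σ
      simp only [Set.mem_preimage, Set.mem_singleton_iff, cyl, Set.mem_ofPred_eq]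
      constructor
      · intro h v hv
        rw [hη]
        simp only [hv, dif_pos]
        rw [← h]
        rfl
      · intro h
        funext ⟨v, hv⟩
        have := h v hv
        rw [hη] at this
        simp only [hv, dif_pos] at this
        exact this
    rw [hpre]
    exact hρ I η
  exact (hproj μ inferInstance fun _ _ => rfl).unique
    (hproj ν inferInstance fun I η => (hcyl I η).symm)

/-- Automorphism invariance. -/
theorem IsFreeIsing.map_iso [G.LocallyFinite] {β : ℝ} {μ : Measure (V → Bool)} (hG : G.IsTree)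
    (hμ : IsFreeIsing G β μ) (g : G ≃g G) :
    μ.map (fun σ v => σ (g.symm v)) = μ := by
  classical
  have hact : Measurable (fun (σ : V → Bool) v => σ (g.symm v)) :=
    measurable_pi_iff.2 fun v => measurable_pi_apply _
  refine IsFreeIsing.unique hG (fun D hD η => ?_) hμ
  set D' : Finset V := D.map g.symm.toEquiv.toEmbedding with hD'
  have hmem : ∀ w, w ∈ D' ↔ g w ∈ D := by
    intro w
    rw [hD', Finset.mem_map]
    constructor
    · rintro ⟨v, hv, rfl⟩
      simpa using hv
    · intro h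
      exact ⟨g w, h, by simp⟩
  have hbij : Set.BijOn g (D' : Set V) (D : Set V) := by
    refine ⟨fun w hw => ?_, g.injective.injOn, fun v hv => ?_⟩
    · exact Finset.mem_coe.2 ((hmem w).1 (Finset.mem_coe.1 hw))
    · refine ⟨g.symm v, ?_, by simp⟩
      rw [Finset.mem_coe, hmem]
      simpa using hv
  have hcon : (G.induce (D' : Set V)).Connected :=
    (SimpleGraph.Iso.connected_iff (g.induce hbij)).2 hD
  have hpre : (fun (σ : V → Bool) v => σ (g.symm v)) ⁻¹' {σ | ∀ v ∈ D, σ v = η v}
      = {σ | ∀ w ∈ D', σ w = η (g w)} := by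
    ext σ
    simp only [Set.mem_preimage, Set.mem_ofPred_eq]
    constructor
    · intro h w hw
      have := h (g w) ((hmem w).1 hw)
      simpa using this
    · intro h v hv
      have := h (g.symm v) (by rw [hmem]; simpa using hv)
      simpa using this
  have hms : MeasurableSet {σ : V → Bool | ∀ v ∈ D, σ v = η v} := measurableSet_cyl D η
  rw [Measure.map_apply hact hms, hpre, hμ D' hcon (fun w => η (g w))]
  congr 2
  refine Finset.prod_nbij' (Sym2.map g) (Sym2.map g.symm) ?_ ?_ ?_ ?_ ?_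
  · intro e he
    induction e using Sym2.ind with
    | _ a b =>
      simp only [Finset.mem_filter, Finset.mk_mem_sym2_iff, SimpleGraph.mem_edgeSet,
        Sym2.map_mk] at he ⊢
      exact ⟨⟨(hmem a).1 he.1.1, (hmem b).1 he.1.2⟩, g.map_rel_iff.2 he.2⟩
  · intro e he
    induction e using Sym2.ind with
    | _ a b =>
      simp only [Finset.mem_filter, Finset.mk_mem_sym2_iff, SimpleGraph.mem_edgeSet,
        Sym2.map_mk] at he ⊢
      refine ⟨⟨?_, ?_⟩, g.symm.map_rel_iff.2 he.2⟩
      · rw [hmem]; simpa using he.1.1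
      · rw [hmem]; simpa using he.1.2
  · intro e _
    induction e using Sym2.ind with
    | _ a b => simp
  · intro e _
    induction e using Sym2.ind with
    | _ a b => simp
  · intro e _
    induction e using Sym2.ind with
    | _ a b => rfl

end Vale.Agent.P161
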