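import Vale.Agent.Lib.P161.Core9
import Vale.Agent.Lib.P161.Tree
import Vale.Agent.Lib.P161.Ising
import Vale.Agent.Lib.P161.Decode

/-!
P161, core part 10: the factor map.
-/

open MeasureTheory Filter

namespace Vale.Agent.P161

variable {V : Type*}

/-- Balls of a locally finite connected graph, as finsets. -/
noncomputable def BN (G : SimpleGraph V) [G.LocallyFinite] (hG : G.Connected) (n : ℕ) (v : V) :
    Finset V := (finite_ball hG v n).toFinset

theorem mem_BN {G : SimpleGraph V} [G.LocallyFinite] {hG : G.Connected} {n : ℕ} {v w : V} :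
    w ∈ BN G hG n v ↔ G.dist v w ≤ n := by
  simp [BN]

theorem dist_iso {G : SimpleGraph V} (g : G ≃g G) (v w : V) : G.dist (g v) (g w) = G.dist v w := by
  have h : ∀ (f : G ≃g G) (v w : V), G.dist (f v) (f w) ≤ G.dist v w ∨ ¬ G.Reachable v w := by
    intro f v w
    by_cases hr : G.Reachable v w
    · left
      obtain ⟨p, hp⟩ := hr.exists_walk_length_eq_dist
      rw [← hp, ← SimpleGraph.Walk.length_map f.toHom p]
      exact SimpleGraph.dist_le _
    · exact Or.inr hr
  by_cases hr : G.Reachable v w
  · have hr' : G.Reachable (g v) (g w) := (SimpleGraph.Iso.reachable_iff (φ := g)).2 hr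
    refine le_antisymm ((h g v w).resolve_right (not_not.2 hr)) ?_
    have := (h g.symm (g v) (g w)).resolve_right (not_not.2 hr')
    simpa using this
  · have hr' : ¬ G.Reachable (g v) (g w) := fun h =>
      hr ((SimpleGraph.Iso.reachable_iff (φ := g)).1 h)
    rw [SimpleGraph.dist_eq_zero_of_not_reachable hr, SimpleGraph.dist_eq_zero_of_not_reachable hr']

theorem SB_BN_act {G : SimpleGraph V} [G.LocallyFinite] {hG : G.Connected} (g : G ≃g G) (n : ℕ)
    (v : V) : SB (BN G hG) n v = actS g.toEquiv (SB (BN G hG) n (g.symm v)) := by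
  ext x
  rw [mem_actS]
  simp only [SB, Finset.mem_product, Finset.mem_range, mem_BN]
  have h : G.dist (g.symm v) (g.symm x.1) = G.dist v x.1 := dist_iso g.symm v x.1
  have h' : G.dist (g.symm v) (g.toEquiv.symm x.1) = G.dist v x.1 := h
  rw [h']

theorem YY_actI (g : V ≃ V) (a : ℝ) (K : ℕ) (v : V) (t : V × ℕ → unitInterval) :
    YY a K v (actI g t) = YY a K (g.symm v) t := by
  unfold YY actI; rfl

theorem PHI_act {G : SimpleGraph V} [G.LocallyFinite] {hG : G.Connected} (g : G ≃g G)
    {μ : Measure (V → Bool)} (hμ : μ.map (actV g.toEquiv) = μ) (a : ℝ) (nn : ℕ → ℕ)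
    (u : V → unitInterval) (ξ : V × ℕ → unitInterval) (v : V) :
    PHI μ a (BN G hG) nn (actV g.toEquiv u, actI g.toEquiv ξ) v =
      PHI μ a (BN G hG) nn (u, ξ) (g.symm v) := by
  have h : ∀ j, XX μ a (BN G hG) nn j v (actV g.toEquiv u, actI g.toEquiv ξ) =
      XX μ a (BN G hG) nn j (g.symm v) (u, ξ) := by
    intro j
    unfold XX
    rw [SB_BN_act g, TT_act g.toEquiv hμ, YY_actI]
    rfl
  unfold PHI XL
  simp_rw [h]

/-- A measure with the joint `L²` Cauchy property that is invariant under the automorphisms of a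
locally finite connected graph is a factor of IID. -/
theorem isFactorOfIID_of_L2Cauchy (G : SimpleGraph V) [G.LocallyFinite] (hG : G.Connected)
    {μ : Measure (V → Bool)} [IsProbabilityMeasure μ] {a : ℝ} (ha : 0 < a) (ha1 : a < 1)
    (hL : L2Cauchy μ a) (hinv : ∀ g : G ≃g G, μ.map (actV g.toEquiv) = μ) :
    IsFactorOfIID G μ := by
  have hcount : Countable V := countable_of_locallyFinite hG
  obtain ⟨nn, hnn, h4, hg⟩ := exists_nn hL (N := BN G hG) (fun v w => by
    filter_upwards [eventually_ge_atTop (G.dist v w)] with n hn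
    exact mem_BN.2 hn)
  obtain ⟨dec, hdec, hlaw⟩ := exists_decode V
  set DV : (V → unitInterval) → (V → unitInterval) × (V × ℕ → unitInterval) := fun U =>
    ((fun v => (dec (U v)).1), (fun x => (dec (U x.1)).2 x.2)) with hDV
  have hDVm : Measurable DV := by
    refine Measurable.prodMk ?_ ?_
    · exact measurable_pi_lambda _ fun v =>
        measurable_fst.comp (hdec.comp (measurable_pi_apply v))
    · exact measurable_pi_lambda _ fun x =>
        (measurable_pi_apply x.2).comp (measurable_snd.comp (hdec.comp (measurable_pi_apply x.1)))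
  refine ⟨fun U => PHI μ a (BN G hG) nn (DV U), (measurable_PHI μ a _ nn).comp hDVm, ?_, ?_⟩
  · intro g
    refine Eventually.of_forall fun U => ?_
    funext v
    exact PHI_act g (hinv g) a nn (DV U).1 (DV U).2 v
  · have h1 : (PP V).map (fun U => PHI μ a (BN G hG) nn (DV U)) =
        ((PP V).map DV).map (PHI μ a (BN G hG) nn) :=
      (Measure.map_map (measurable_PHI μ a _ nn) hDVm).symm
    rw [h1, hlaw]
    exact map_PHI ha ha1 (fun n v => mem_BN.2 (by simp)) (fun v m n hmn w hw =>
      mem_BN.2 ((mem_BN.1 hw).trans hmn)) hnn h4 hg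

end Vale.Agent.P161
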