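import Vale.Agent.Lib.P161.Core1

/-!
P161, core part 2: the sequential sampling map `TT`, its fixed point equation, measurability,
influence bound and equivariance.
-/

open MeasureTheory

namespace Vale.Agent.P161

variable {V : Type*}

/-- `x` comes before `e`: earlier round, or same round and smaller label. -/
def before (u : V → unitInterval) (x e : V × ℕ) : Prop :=
  x.2 < e.2 ∨ (x.2 = e.2 ∧ u x.1 < u e.1)

theorem before_irrefl (u : V → unitInterval) (x : V × ℕ) : ¬ before u x x := by
  simp [before]

theorem before_trans {u : V → unitInterval} {x y z : V × ℕ} (h1 : before u x y)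
    (h2 : before u y z) : before u x z := by
  unfold before at *
  rcases h1 with h1 | ⟨h1, h1'⟩ <;> rcases h2 with h2 | ⟨h2, h2'⟩
  · left; omega
  · left; omega
  · left; omega
  · right; exact ⟨h1.trans h2, h1'.trans h2'⟩

theorem before_snd_le {u : V → unitInterval} {x e : V × ℕ} (h : before u x e) : x.2 ≤ e.2 := by
  rcases h with h | ⟨h, _⟩ <;> omega

open Classical in
/-- The events of `S` before `e`. -/
noncomputable def pred (S : Finset (V × ℕ)) (u : V → unitInterval) (e : V × ℕ) :
    Finset (V × ℕ) :=
  S.filter fun x => before u x e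

theorem mem_pred {S : Finset (V × ℕ)} {u : V → unitInterval} {e x : V × ℕ} :
    x ∈ pred S u e ↔ x ∈ S ∧ before u x e := by
  classical
  simp [pred]

theorem pred_card_lt {S : Finset (V × ℕ)} {u : V → unitInterval} {e x : V × ℕ}
    (hx : x ∈ pred S u e) : (pred S u x).card < (pred S u e).card := by
  refine Finset.card_lt_card ⟨fun y hy => ?_, fun h => ?_⟩
  · rw [mem_pred] at *
    exact ⟨hy.1, before_trans hy.2 hx.2⟩
  · have := h hx
    rw [mem_pred] at this
    exact before_irrefl u x this.2

theorem pred_card_le (S : Finset (V × ℕ)) (u : V → unitInterval) (e : V × ℕ) :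
    (pred S u e).card ≤ S.card :=
  Finset.card_le_card fun _ hx => (mem_pred.1 hx).1

open Classical in
/-- One step of the recursion. -/
noncomputable def stepT (μ : Measure (V → Bool)) (a : ℝ) (S : Finset (V × ℕ))
    (u : V → unitInterval) (ξ t : V × ℕ → unitInterval) : V × ℕ → unitInterval :=
  fun e => if e ∈ S then qK (a * mm μ a e.1 (pred S u e) t) (ξ e) else ξ e

/-- The sequential sampling map: signal `e ∈ S` is sampled from its conditional law given the
earlier signals, using the noise `ξ e`. -/
noncomputable def TT (μ : Measure (V → Bool)) (a : ℝ) (S : Finset (V × ℕ))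
    (u : V → unitInterval) (ξ : V × ℕ → unitInterval) : V × ℕ → unitInterval :=
  (stepT μ a S u ξ)^[S.card + 1] ξ

theorem stepT_congr {μ : Measure (V → Bool)} {a : ℝ} {S : Finset (V × ℕ)}
    {u : V → unitInterval} {ξ t t' : V × ℕ → unitInterval} {e : V × ℕ}
    (h : ∀ x ∈ pred S u e, t x = t' x) :
    stepT μ a S u ξ t e = stepT μ a S u ξ t' e := by
  unfold stepT
  split_ifs with he
  · rw [mm_congr h]
  · rfl

theorem iterate_stable (μ : Measure (V → Bool)) (a : ℝ) (S : Finset (V × ℕ))
    (u : V → unitInterval) (ξ t₀ : V × ℕ → unitInterval) (n : ℕ) :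
    ∀ e, (pred S u e).card < n →
      (stepT μ a S u ξ)^[n] t₀ e = (stepT μ a S u ξ)^[n + 1] t₀ e := by
  induction n with
  | zero => intro e he; exact absurd he (Nat.not_lt_zero _)
  | succ n ih =>
    intro e he
    rw [Function.iterate_succ_apply', Function.iterate_succ_apply']
    refine stepT_congr fun x hx => ?_
    exact ih x (by have := pred_card_lt hx; omega)

/-- Fixed point equation. -/
theorem TT_fix (μ : Measure (V → Bool)) (a : ℝ) (S : Finset (V × ℕ))
    (u : V → unitInterval) (ξ : V × ℕ → unitInterval) :
    stepT μ a S u ξ (TT μ a S u ξ) = TT μ a S u ξ := by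
  funext e
  have h := iterate_stable μ a S u ξ ξ (S.card + 1) e (by have := pred_card_le S u e; omega)
  have h2 : (stepT μ a S u ξ)^[S.card + 1 + 1] ξ e = stepT μ a S u ξ (TT μ a S u ξ) e := by
    rw [Function.iterate_succ_apply']; rfl
  rw [← h2, ← h]; rfl

/-- Uniqueness of the fixed point. -/
theorem eq_TT_of_fix {μ : Measure (V → Bool)} {a : ℝ} {S : Finset (V × ℕ)}
    {u : V → unitInterval} {ξ t : V × ℕ → unitInterval} (h : stepT μ a S u ξ t = t) :
    t = TT μ a S u ξ := by
  have key : ∀ n, ∀ e, (pred S u e).card = n → t e = TT μ a S u ξ e := by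
    intro n
    induction n using Nat.strong_induction_on with
    | _ n ih =>
      intro e he
      rw [← h, ← TT_fix]
      exact stepT_congr fun x hx => ih _ (he ▸ pred_card_lt hx) x rfl
  funext e
  exact key _ e rfl

theorem TT_apply_mem {μ : Measure (V → Bool)} {a : ℝ} {S : Finset (V × ℕ)}
    {u : V → unitInterval} {ξ : V × ℕ → unitInterval} {e : V × ℕ} (he : e ∈ S) :
    TT μ a S u ξ e = qK (a * mm μ a e.1 (pred S u e) (TT μ a S u ξ)) (ξ e) := by
  conv_lhs => rw [← TT_fix]
  unfold stepT
  rw [if_pos he]

theorem TT_apply_notMem {μ : Measure (V → Bool)} {a : ℝ} {S : Finset (V × ℕ)}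
    {u : V → unitInterval} {ξ : V × ℕ → unitInterval} {e : V × ℕ} (he : e ∉ S) :
    TT μ a S u ξ e = ξ e := by
  conv_lhs => rw [← TT_fix]
  unfold stepT
  rw [if_neg he]

/-- The inverse map (innovations). -/
noncomputable def ET (μ : Measure (V → Bool)) (a : ℝ) (S : Finset (V × ℕ))
    (u : V → unitInterval) (t : V × ℕ → unitInterval) : V × ℕ → unitInterval := by
  classical
  exact fun e => if e ∈ S then cdfK (a * mm μ a e.1 (pred S u e) t) (t e) else t e

theorem ET_apply_mem {μ : Measure (V → Bool)} {a : ℝ} {S : Finset (V × ℕ)}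
    {u : V → unitInterval} {t : V × ℕ → unitInterval} {e : V × ℕ} (he : e ∈ S) :
    ET μ a S u t e = cdfK (a * mm μ a e.1 (pred S u e) t) (t e) := by
  unfold ET; simp [he]

theorem ET_apply_notMem {μ : Measure (V → Bool)} {a : ℝ} {S : Finset (V × ℕ)}
    {u : V → unitInterval} {t : V × ℕ → unitInterval} {e : V × ℕ} (he : e ∉ S) :
    ET μ a S u t e = t e := by
  unfold ET; simp [he]

section prob

variable {μ : Measure (V → Bool)} [IsProbabilityMeasure μ]

theorem abs_a_mul_mm_lt {a : ℝ} (ha : 0 ≤ a) (ha1 : a < 1) (v : V) (R : Finset (V × ℕ))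
    (t : V × ℕ → unitInterval) : |a * mm μ a v R t| < 1 := by
  rw [abs_mul, abs_of_nonneg ha]
  calc a * |mm μ a v R t| ≤ a * 1 := mul_le_mul_of_nonneg_left (abs_mm_le ha ha1 v R t) ha
    _ < 1 := by linarith

theorem abs_a_mul_mm_le {a : ℝ} (ha : 0 ≤ a) (ha1 : a < 1) (v : V) (R : Finset (V × ℕ))
    (t : V × ℕ → unitInterval) : |a * mm μ a v R t| ≤ a := by
  rw [abs_mul, abs_of_nonneg ha]
  calc a * |mm μ a v R t| ≤ a * 1 := mul_le_mul_of_nonneg_left (abs_mm_le ha ha1 v R t) ha
    _ = a := mul_one a

theorem ET_TT {a : ℝ} (ha : 0 ≤ a) (ha1 : a < 1) (S : Finset (V × ℕ))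
    (u : V → unitInterval) (ξ : V × ℕ → unitInterval) :
    ET μ a S u (TT μ a S u ξ) = ξ := by
  funext e
  by_cases he : e ∈ S
  · rw [ET_apply_mem he]
    conv_lhs => rw [TT_apply_mem he]
    exact cdfK_qK (abs_a_mul_mm_lt ha ha1 _ _ _) _
  · rw [ET_apply_notMem he, TT_apply_notMem he]

theorem TT_ET {a : ℝ} (ha : 0 ≤ a) (ha1 : a < 1) (S : Finset (V × ℕ))
    (u : V → unitInterval) (t : V × ℕ → unitInterval) :
    TT μ a S u (ET μ a S u t) = t := by
  symm
  refine eq_TT_of_fix ?_
  funext e
  unfold stepT
  by_cases he : e ∈ S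
  · rw [if_pos he, ET_apply_mem he]
    exact qK_cdfK (abs_a_mul_mm_lt ha ha1 _ _ _) _
  · rw [if_neg he, ET_apply_notMem he]

end prob

/-! ### Measurability -/

open Classical in
theorem lik_pred_eq (a : ℝ) (S : Finset (V × ℕ)) (u : V → unitInterval) (e : V × ℕ)
    (t : V × ℕ → unitInterval) (σ : V → Bool) :
    lik a (pred S u e) t σ =
      ∏ x ∈ S, if before u x e then (1 + a * spin (σ x.1) * (2 * (t x : ℝ) - 1)) else 1 := by
  unfold lik pred
  rw [Finset.prod_filter]

theorem measurable_qK' {α : Type*} [MeasurableSpace α] {f : α → ℝ} {g : α → unitInterval}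
    (hf : Measurable f) (hg : Measurable g) : Measurable fun x => qK (f x) (g x) :=
  measurable_qK.comp (hf.prodMk hg)

theorem measurable_cdfK' {α : Type*} [MeasurableSpace α] {f : α → ℝ} {g : α → unitInterval}
    (hf : Measurable f) (hg : Measurable g) : Measurable fun x => cdfK (f x) (g x) :=
  measurable_cdfK.comp (hf.prodMk hg)

theorem measurableSet_before (x e : V × ℕ) :
    MeasurableSet {u : V → unitInterval | before u x e} := by
  unfold before
  by_cases h1 : x.2 < e.2
  · simp [h1]
  · by_cases h2 : x.2 = e.2
    · simp only [h2, true_and]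
      simp only [lt_self_iff_false, false_or]
      exact measurableSet_lt (measurable_pi_apply x.1) (measurable_pi_apply e.1)
    · simp [h1, h2]

theorem measurable_lik_pred (a : ℝ) (S : Finset (V × ℕ)) (e : V × ℕ) :
    Measurable fun p : ((V → unitInterval) × (V × ℕ → unitInterval)) × (V → Bool) =>
      lik a (pred S p.1.1 e) p.1.2 p.2 := by
  classical
  simp_rw [lik_pred_eq]
  refine Finset.measurable_prod _ fun x _ => ?_
  refine Measurable.ite ?_ ?_ measurable_const
  · exact (measurable_fst.comp measurable_fst) (measurableSet_before x e)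
  · refine Measurable.add measurable_const (Measurable.mul (Measurable.mul measurable_const ?_) ?_)
    · exact measurable_spin.comp ((measurable_pi_apply x.1).comp measurable_snd)
    · refine Measurable.sub (Measurable.mul measurable_const ?_) measurable_const
      exact measurable_subtype_coe.comp
        ((measurable_pi_apply x).comp (measurable_snd.comp measurable_fst))

theorem measurable_mm_pred (μ : Measure (V → Bool)) [IsProbabilityMeasure μ] (a : ℝ)
    (S : Finset (V × ℕ)) (e : V × ℕ) :
    Measurable fun p : (V → unitInterval) × (V × ℕ → unitInterval) =>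
      mm μ a e.1 (pred S p.1 e) p.2 := by
  unfold mm NN WW
  refine Measurable.div ?_ ?_
  · refine StronglyMeasurable.measurable ?_
    refine StronglyMeasurable.integral_prod_right'
      (f := fun q : ((V → unitInterval) × (V × ℕ → unitInterval)) × (V → Bool) =>
        spin (q.2 e.1) * lik a (pred S q.1.1 e) q.1.2 q.2) ?_
    exact ((measurable_spin.comp ((measurable_pi_apply e.1).comp measurable_snd)).mul
      (measurable_lik_pred a S e)).stronglyMeasurable
  · refine StronglyMeasurable.measurable ?_
    exact StronglyMeasurable.integral_prod_right'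
      (f := fun q : ((V → unitInterval) × (V × ℕ → unitInterval)) × (V → Bool) =>
        lik a (pred S q.1.1 e) q.1.2 q.2) (measurable_lik_pred a S e).stronglyMeasurable

theorem measurable_mm (μ : Measure (V → Bool)) [IsProbabilityMeasure μ] (a : ℝ) (v : V)
    (R : Finset (V × ℕ)) : Measurable fun t : V × ℕ → unitInterval => mm μ a v R t := by
  unfold mm NN WW
  refine Measurable.div ?_ ?_
  · refine StronglyMeasurable.measurable ?_
    refine StronglyMeasurable.integral_prod_right'
      (f := fun q : (V × ℕ → unitInterval) × (V → Bool) =>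
        spin (q.2 v) * lik a R q.1 q.2) ?_
    exact ((measurable_spin.comp ((measurable_pi_apply v).comp measurable_snd)).mul
      (measurable_lik a R)).stronglyMeasurable
  · refine StronglyMeasurable.measurable ?_
    exact StronglyMeasurable.integral_prod_right'
      (f := fun q : (V × ℕ → unitInterval) × (V → Bool) =>
        lik a R q.1 q.2) (measurable_lik a R).stronglyMeasurable

theorem measurable_stepT (μ : Measure (V → Bool)) [IsProbabilityMeasure μ] (a : ℝ)
    (S : Finset (V × ℕ)) :
    Measurable fun p : ((V → unitInterval) × (V × ℕ → unitInterval)) × (V × ℕ → unitInterval) =>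
      stepT μ a S p.1.1 p.1.2 p.2 := by
  classical
  refine measurable_pi_lambda _ fun e => ?_
  unfold stepT
  have hproj : Measurable fun p : ((V → unitInterval) × (V × ℕ → unitInterval)) ×
      (V × ℕ → unitInterval) => p.1.2 e :=
    (measurable_pi_apply e).comp (measurable_snd.comp measurable_fst)
  by_cases he : e ∈ S
  · simp only [he, if_true]
    have h1 : Measurable fun p : ((V → unitInterval) × (V × ℕ → unitInterval)) ×
        (V × ℕ → unitInterval) => mm μ a e.1 (pred S p.1.1 e) p.2 := by
      have h2 : Measurable fun p : ((V → unitInterval) × (V × ℕ → unitInterval)) ×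
        (V × ℕ → unitInterval) => (p.1.1, p.2) :=
        (measurable_fst.comp measurable_fst).prodMk measurable_snd
      have h3 := (measurable_mm_pred μ a S e).comp h2
      simpa only [Function.comp_def] using h3
    exact measurable_qK' (measurable_const.mul h1) hproj
  · simp only [he, if_false]
    exact hproj

theorem measurable_TT (μ : Measure (V → Bool)) [IsProbabilityMeasure μ] (a : ℝ)
    (S : Finset (V × ℕ)) :
    Measurable fun p : (V → unitInterval) × (V × ℕ → unitInterval) => TT μ a S p.1 p.2 := by
  unfold TT
  have key : ∀ n, Measurable fun p : (V → unitInterval) × (V × ℕ → unitInterval) =>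
      (stepT μ a S p.1 p.2)^[n] p.2 := by
    intro n
    induction n with
    | zero => simpa using measurable_snd
    | succ n ih =>
      simp_rw [Function.iterate_succ_apply']
      have h := (measurable_stepT μ a S).comp (measurable_id.prodMk ih)
      simpa only [Function.comp_def, id] using h
  exact key _

theorem measurable_TT_right (μ : Measure (V → Bool)) [IsProbabilityMeasure μ] (a : ℝ)
    (S : Finset (V × ℕ)) (u : V → unitInterval) : Measurable (TT μ a S u) := by
  have h : Measurable fun ξ : V × ℕ → unitInterval => (u, ξ) :=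
    measurable_const.prodMk measurable_id
  have h2 := (measurable_TT μ a S).comp h
  simpa only [Function.comp_def] using h2

theorem measurable_ET (μ : Measure (V → Bool)) [IsProbabilityMeasure μ] (a : ℝ)
    (S : Finset (V × ℕ)) (u : V → unitInterval) : Measurable (ET μ a S u) := by
  classical
  refine measurable_pi_lambda _ fun e => ?_
  by_cases he : e ∈ S
  · have : (fun t => ET μ a S u t e) =
        fun t => cdfK (a * mm μ a e.1 (pred S u e) t) (t e) := by
      funext t; exact ET_apply_mem he
    rw [this]
    exact measurable_cdfK' (measurable_const.mul (measurable_mm μ a e.1 _))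
      (measurable_pi_apply e)
  · have : (fun t => ET μ a S u t e) = fun t => t e := by
      funext t; exact ET_apply_notMem he
    rw [this]
    exact measurable_pi_apply e

end Vale.Agent.P161
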