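import Vale.Agent.Lib.P161.Core2

/-!
P161, core part 3: influence bound, equivariance and law of the sequential sampling map.
-/

open MeasureTheory

namespace Vale.Agent.P161

variable {V : Type*}

/-- The growth constants of the influence bound. -/
noncomputable def gk (a r : ℝ) (k : ℕ) : ℝ := 1 / (1 - a) * r ^ (k + 1)

theorem gk_nonneg {a r : ℝ} (ha1 : a < 1) (hr : 1 ≤ r) (k : ℕ) : 0 ≤ gk a r k := by
  unfold gk
  have : 0 < 1 - a := by linarith
  positivity

theorem gk_sum {a r : ℝ} (hr : 1 ≤ r) (k : ℕ) :
    1 / (1 - a) + (1 - 1 / r) * ∑ j ∈ Finset.range (k + 1), gk a r j = gk a r k := by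
  have hr0 : r ≠ 0 := by positivity
  induction k with
  | zero => simp [gk]; field_simp; ring
  | succ k ih =>
    rw [Finset.sum_range_succ, mul_add, ← add_assoc, ih]
    unfold gk
    field_simp
    ring

/-- The structural hypotheses on the influence kernel. -/
structure KernelBound (D K : V → V → ℝ) (C : ℝ) : Prop where
  nonneg : ∀ v w, 0 ≤ K v w
  diag : ∀ v, 1 ≤ K v v
  conv : ∀ (v x : V) (A : Finset V), ∑ w ∈ A, D v w * K w x ≤ C * K v x

theorem CovBound.nonneg {μ : Measure (V → Bool)} [IsProbabilityMeasure μ] {a : ℝ}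
    {D : V → V → ℝ} (hD : CovBound μ a D) (u v : V) : 0 ≤ D u v := by
  have h := hD ∅ (fun _ => 0) u v
  rw [WW_empty] at h
  have := (abs_nonneg _).trans h
  simpa using this

/-- The influence weights. -/
noncomputable def infl (K : V → V → ℝ) (a r : ℝ) (e x : V × ℕ) : ℝ :=
  if x.2 ≤ e.2 then gk a r e.2 * K e.1 x.1 else 0

theorem infl_nonneg {K : V → V → ℝ} (hK : ∀ v w, 0 ≤ K v w) {a r : ℝ} (ha1 : a < 1)
    (hr : 1 ≤ r) (e x : V × ℕ) : 0 ≤ infl K a r e x := by
  unfold infl
  split_ifs
  · exact mul_nonneg (gk_nonneg ha1 hr _) (hK _ _)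
  · exact le_rfl

open Classical in
theorem influence_iterate {μ : Measure (V → Bool)} [IsProbabilityMeasure μ] {a r C : ℝ}
    {D K : V → V → ℝ} (ha : 0 ≤ a) (ha1 : a < 1) (hr : 1 ≤ r) (hD : CovBound μ a D)
    (hK : KernelBound D K C)
    (hC : 1 / (4 * (1 - a)) * (a * (2 * a / (1 - a) ^ 2)) * C ≤ 1 - 1 / r)
    (S : Finset (V × ℕ)) (u : V → unitInterval) (x : V × ℕ) (ξ : V × ℕ → unitInterval)
    (y : unitInterval) (n : ℕ) : ∀ e,
      |(((stepT μ a S u (Function.update ξ x y))^[n] (Function.update ξ x y) e : unitInterval) : ℝ)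
        - ((stepT μ a S u ξ)^[n] ξ e : unitInterval)|
        ≤ infl K a r e x * |(y : ℝ) - ξ x| := by
  set δ := |(y : ℝ) - ξ x| with hδ
  have hδ0 : 0 ≤ δ := abs_nonneg _
  have h1a : 0 < 1 - a := by linarith
  -- base bound
  have hbase : ∀ e : V × ℕ, x.2 ≤ e.2 →
      |((Function.update ξ x y e : unitInterval) : ℝ) - ξ e| ≤ K e.1 x.1 * δ := by
    intro e _
    by_cases hex : e = x
    · subst hex
      rw [Function.update_self]
      calc |(y : ℝ) - ξ e| = 1 * δ := by rw [one_mul]
        _ ≤ _ := mul_le_mul_of_nonneg_right (hK.diag _) hδ0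
    · rw [Function.update_of_ne hex]
      simp only [sub_self, abs_zero]
      exact mul_nonneg (hK.nonneg _ _) hδ0
  have hbase0 : ∀ e : V × ℕ, ¬ x.2 ≤ e.2 → Function.update ξ x y e = ξ e := by
    intro e he
    have : e ≠ x := by rintro rfl; exact he le_rfl
    rw [Function.update_of_ne this]
  have hgk1 : ∀ k, 1 ≤ gk a r k := by
    intro k
    unfold gk
    have h1 : 1 ≤ 1 / (1 - a) := by rw [le_div_iff₀ h1a]; linarith
    have h2 : 1 ≤ r ^ (k + 1) := one_le_pow₀ hr
    nlinarith
  induction n with
  | zero =>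
    intro e
    simp only [Function.iterate_zero, id]
    unfold infl
    by_cases he : x.2 ≤ e.2
    · rw [if_pos he]
      refine (hbase e he).trans ?_
      have h1 := hgk1 e.2
      have h2 : 0 ≤ K e.1 x.1 * δ := mul_nonneg (hK.nonneg _ _) hδ0
      nlinarith
    · rw [if_neg he, hbase0 e he]; simp
  | succ n ih =>
    intro e
    rw [Function.iterate_succ_apply', Function.iterate_succ_apply']
    set t' := (stepT μ a S u (Function.update ξ x y))^[n] (Function.update ξ x y)
    set t := (stepT μ a S u ξ)^[n] ξ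
    unfold stepT
    by_cases heS : e ∈ S
    · rw [if_pos heS, if_pos heS]
      have hq := qK_lipschitz ha ha1 (abs_a_mul_mm_le (μ := μ) ha ha1 e.1 (pred S u e) t')
        (abs_a_mul_mm_le (μ := μ) ha ha1 e.1 (pred S u e) t) (Function.update ξ x y e) (ξ e)
      refine hq.trans ?_
      have hmm := mm_lipschitz ha ha1 hD e.1 (pred S u e) t' t
      have hm1 : |a * mm μ a e.1 (pred S u e) t' - a * mm μ a e.1 (pred S u e) t| ≤
          a * ∑ z ∈ pred S u e, (2 * a / (1 - a) ^ 2 * D e.1 z.1) *
            (infl K a r z x * δ) := by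
        rw [← mul_sub, abs_mul, abs_of_nonneg ha]
        refine mul_le_mul_of_nonneg_left (hmm.trans (Finset.sum_le_sum fun z _ => ?_)) ha
        refine mul_le_mul_of_nonneg_left (ih z) ?_
        have := hD.nonneg e.1 z.1
        positivity
      by_cases he : x.2 ≤ e.2
      · -- main case
        have hsum : ∑ z ∈ pred S u e, (2 * a / (1 - a) ^ 2 * D e.1 z.1) *
            (infl K a r z x * δ) ≤
            2 * a / (1 - a) ^ 2 * δ * (C * K e.1 x.1 *
              ∑ j ∈ Finset.range (e.2 + 1), gk a r j) := by
          have h1 : ∀ z ∈ pred S u e, (2 * a / (1 - a) ^ 2 * D e.1 z.1) *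
              (infl K a r z x * δ) ≤
              2 * a / (1 - a) ^ 2 * δ * (gk a r z.2 * (D e.1 z.1 * K z.1 x.1)) := by
            intro z _
            have h2 : infl K a r z x ≤ gk a r z.2 * K z.1 x.1 := by
              unfold infl
              split_ifs
              · exact le_rfl
              · exact mul_nonneg (gk_nonneg ha1 hr _) (hK.nonneg _ _)
            have h3 := hD.nonneg e.1 z.1
            calc (2 * a / (1 - a) ^ 2 * D e.1 z.1) * (infl K a r z x * δ)
                ≤ (2 * a / (1 - a) ^ 2 * D e.1 z.1) * (gk a r z.2 * K z.1 x.1 * δ) := by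
                  apply mul_le_mul_of_nonneg_left _ (by positivity)
                  exact mul_le_mul_of_nonneg_right h2 hδ0
              _ = _ := by ring
          refine (Finset.sum_le_sum h1).trans ?_
          rw [← Finset.mul_sum]
          refine mul_le_mul_of_nonneg_left ?_ (by positivity)
          -- enlarge to a product set
          have hsub : pred S u e ⊆
              ((pred S u e).image Prod.fst) ×ˢ Finset.range (e.2 + 1) := by
            intro z hz
            rw [Finset.mem_product]
            refine ⟨Finset.mem_image_of_mem _ hz, ?_⟩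
            have := before_snd_le (mem_pred.1 hz).2
            simp only [Finset.mem_range]; omega
          refine (Finset.sum_le_sum_of_subset_of_nonneg hsub fun z _ _ =>
            mul_nonneg (gk_nonneg ha1 hr _)
              (mul_nonneg (hD.nonneg _ _) (hK.nonneg _ _))).trans ?_
          rw [Finset.sum_product_right, Finset.mul_sum]
          refine Finset.sum_le_sum fun j _ => ?_
          simp only
          rw [← Finset.mul_sum, mul_comm (C * K e.1 x.1)]
          exact mul_le_mul_of_nonneg_left (hK.conv e.1 x.1 _) (gk_nonneg ha1 hr _)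
        have hinfl : infl K a r e x = gk a r e.2 * K e.1 x.1 := by
          unfold infl; rw [if_pos he]
        rw [hinfl, ← gk_sum hr e.2]
        set G := ∑ j ∈ Finset.range (e.2 + 1), gk a r j
        have hG : 0 ≤ G := Finset.sum_nonneg fun j _ => gk_nonneg ha1 hr j
        have hKn := hK.nonneg e.1 x.1
        have hA : 1 / (1 - a) * |((Function.update ξ x y e : unitInterval) : ℝ) - ξ e| ≤
            1 / (1 - a) * (K e.1 x.1 * δ) :=
          mul_le_mul_of_nonneg_left (hbase e he) (by positivity)
        have hB : 1 / (4 * (1 - a)) *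
            |a * mm μ a e.1 (pred S u e) t' - a * mm μ a e.1 (pred S u e) t| ≤
            (1 - 1 / r) * G * (K e.1 x.1 * δ) := by
          calc 1 / (4 * (1 - a)) *
              |a * mm μ a e.1 (pred S u e) t' - a * mm μ a e.1 (pred S u e) t|
              ≤ 1 / (4 * (1 - a)) * (a * (2 * a / (1 - a) ^ 2 * δ * (C * K e.1 x.1 * G))) := by
                apply mul_le_mul_of_nonneg_left _ (by positivity)
                exact hm1.trans (mul_le_mul_of_nonneg_left hsum ha)
            _ = 1 / (4 * (1 - a)) * (a * (2 * a / (1 - a) ^ 2)) * C * (G * (K e.1 x.1 * δ)) := by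
                ring
            _ ≤ (1 - 1 / r) * (G * (K e.1 x.1 * δ)) :=
                mul_le_mul_of_nonneg_right hC (by positivity)
            _ = _ := by ring
        calc _ ≤ 1 / (1 - a) * (K e.1 x.1 * δ) + (1 - 1 / r) * G * (K e.1 x.1 * δ) :=
              add_le_add hA hB
          _ = _ := by ring
      · -- x is in a later round
        have hinfl : infl K a r e x = 0 := by unfold infl; rw [if_neg he]
        have hz : ∑ z ∈ pred S u e, (2 * a / (1 - a) ^ 2 * D e.1 z.1) *
            (infl K a r z x * δ) = 0 := by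
          refine Finset.sum_eq_zero fun z hz => ?_
          have h1 := before_snd_le (mem_pred.1 hz).2
          have h2 : infl K a r z x = 0 := by
            unfold infl; rw [if_neg (by omega)]
          rw [h2]; ring
        rw [hz, mul_zero] at hm1
        have hm2 := le_antisymm hm1 (abs_nonneg _)
        rw [hm2, hbase0 e he, hinfl]
        simp
    · rw [if_neg heS, if_neg heS]
      unfold infl
      by_cases he : x.2 ≤ e.2
      · rw [if_pos he]
        refine (hbase e he).trans ?_
        have h1 := hgk1 e.2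
        have h2 : 0 ≤ K e.1 x.1 * δ := mul_nonneg (hK.nonneg _ _) hδ0
        nlinarith
      · rw [if_neg he, hbase0 e he]; simp

open Classical in
/-- Influence bound for the sampling map. -/
theorem TT_influence {μ : Measure (V → Bool)} [IsProbabilityMeasure μ] {a r C : ℝ}
    {D K : V → V → ℝ} (ha : 0 ≤ a) (ha1 : a < 1) (hr : 1 ≤ r) (hD : CovBound μ a D)
    (hK : KernelBound D K C)
    (hC : 1 / (4 * (1 - a)) * (a * (2 * a / (1 - a) ^ 2)) * C ≤ 1 - 1 / r)
    (S : Finset (V × ℕ)) (u : V → unitInterval) (x : V × ℕ) (ξ : V × ℕ → unitInterval)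
    (y : unitInterval) (e : V × ℕ) :
      |((TT μ a S u (Function.update ξ x y) e : unitInterval) : ℝ) - TT μ a S u ξ e|
        ≤ infl K a r e x * |(y : ℝ) - ξ x| :=
  influence_iterate ha ha1 hr hD hK hC S u x ξ y (S.card + 1) e

/-- `TT e` depends only on the coordinates in `S` (for `e ∈ S`). -/
theorem TT_congr {μ : Measure (V → Bool)} {a : ℝ} {S : Finset (V × ℕ)}
    {u : V → unitInterval} {ξ ξ' : V × ℕ → unitInterval} (h : ∀ x ∈ S, ξ x = ξ' x) :
    ∀ e ∈ S, TT μ a S u ξ e = TT μ a S u ξ' e := by
  have key : ∀ n, ∀ e ∈ S, (pred S u e).card = n → TT μ a S u ξ e = TT μ a S u ξ' e := by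
    intro n
    induction n using Nat.strong_induction_on with
    | _ n ih =>
      intro e heS he
      rw [TT_apply_mem heS, TT_apply_mem heS, h e heS]
      congr 2
      exact mm_congr fun x hx => ih _ (he ▸ pred_card_lt hx) x (mem_pred.1 hx).1 rfl
  intro e he
  exact key _ e he rfl

theorem ET_congr {μ : Measure (V → Bool)} {a : ℝ} {S : Finset (V × ℕ)}
    {u : V → unitInterval} {t t' : V × ℕ → unitInterval} (h : ∀ x ∈ S, t x = t' x) :
    ∀ e ∈ S, ET μ a S u t e = ET μ a S u t' e := by
  intro e he
  rw [ET_apply_mem he, ET_apply_mem he, h e he]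
  congr 2
  exact mm_congr fun x hx => h x (mem_pred.1 hx).1

/-! ### Equivariance -/

section equiv

variable (g : V ≃ V)

/-- Action on configurations indexed by `V`. -/
def actV {α : Type*} (f : V → α) : V → α := fun v => f (g.symm v)

/-- Action on configurations indexed by `V × ℕ`. -/
def actI {α : Type*} (f : V × ℕ → α) : V × ℕ → α := fun x => f (g.symm x.1, x.2)

/-- Action on finite sets of events. -/
def actS (S : Finset (V × ℕ)) : Finset (V × ℕ) :=
  S.map (Equiv.prodCongr g (Equiv.refl ℕ)).toEmbedding

theorem mem_actS {S : Finset (V × ℕ)} {x : V × ℕ} :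
    x ∈ actS g S ↔ (g.symm x.1, x.2) ∈ S := by
  unfold actS
  rw [Finset.mem_map_equiv]
  rfl

theorem measurable_actV {α : Type*} [MeasurableSpace α] : Measurable (actV g : (V → α) → V → α) :=
  measurable_pi_lambda _ fun v => measurable_pi_apply (g.symm v)

theorem lik_act (a : ℝ) (R : Finset (V × ℕ)) (t : V × ℕ → unitInterval) (σ : V → Bool) :
    lik a (actS g R) (actI g t) (actV g σ) = lik a R t σ := by
  unfold lik actS
  rw [Finset.prod_map]
  refine Finset.prod_congr rfl fun x _ => ?_
  simp [actV, actI]

theorem integral_act {μ : Measure (V → Bool)} (hμ : μ.map (actV g) = μ) (f : (V → Bool) → ℝ) :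
    ∫ σ, f (actV g σ) ∂μ = ∫ σ, f σ ∂μ := by
  conv_rhs => rw [← hμ]
  have he : MeasurableEmbedding (actV g : (V → Bool) → V → Bool) := by
    refine (MeasurableEquiv.measurableEmbedding
      { toFun := actV g, invFun := actV g.symm, left_inv := ?_, right_inv := ?_,
        measurable_toFun := measurable_actV g, measurable_invFun := measurable_actV g.symm })
    · intro σ; funext v; simp [actV]
    · intro σ; funext v; simp [actV]
  rw [he.integral_map]

theorem mm_act {μ : Measure (V → Bool)} (hμ : μ.map (actV g) = μ) (a : ℝ) (v : V)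
    (R : Finset (V × ℕ)) (t : V × ℕ → unitInterval) :
    mm μ a (g v) (actS g R) (actI g t) = mm μ a v R t := by
  unfold mm NN WW
  rw [← integral_act g hμ, ← integral_act g hμ fun σ => lik a (actS g R) (actI g t) σ]
  simp only [lik_act]
  congr 2
  funext σ
  simp [actV]

theorem before_act (u : V → unitInterval) (x e : V × ℕ) :
    before (actV g u) (g x.1, x.2) (g e.1, e.2) ↔ before u x e := by
  simp [before, actV]

theorem pred_act (S : Finset (V × ℕ)) (u : V → unitInterval) (e : V × ℕ) :
    pred (actS g S) (actV g u) (g e.1, e.2) = actS g (pred S u e) := by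
  ext x
  rw [mem_pred, mem_actS, mem_actS, mem_pred]
  have h := before_act g u (g.symm x.1, x.2) e
  simp only [Equiv.apply_symm_apply] at h
  rw [h]

theorem TT_act {μ : Measure (V → Bool)} (hμ : μ.map (actV g) = μ) (a : ℝ)
    (S : Finset (V × ℕ)) (u : V → unitInterval) (ξ : V × ℕ → unitInterval) :
    TT μ a (actS g S) (actV g u) (actI g ξ) = actI g (TT μ a S u ξ) := by
  symm
  refine eq_TT_of_fix ?_
  funext e
  obtain ⟨e', rfl⟩ : ∃ e' : V × ℕ, e = (g e'.1, e'.2) := ⟨(g.symm e.1, e.2), by simp⟩
  have hR : actI g (TT μ a S u ξ) (g e'.1, e'.2) = TT μ a S u ξ e' := by simp [actI]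
  rw [hR]
  unfold stepT
  by_cases he : e' ∈ S
  · have he' : ((g e'.1, e'.2) : V × ℕ) ∈ actS g S := by rw [mem_actS]; simpa using he
    rw [if_pos he', TT_apply_mem he]
    simp only
    rw [pred_act, mm_act g hμ]
    simp [actI]
  · have he' : ((g e'.1, e'.2) : V × ℕ) ∉ actS g S := by rw [mem_actS]; simpa using he
    rw [if_neg he', TT_apply_notMem he]
    simp [actI]

end equiv

end Vale.Agent.P161
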