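import Vale.Agent.Lib.P161.Core3

/-!
P161, core part 4: law of the sequential sampling map, consistency and Pythagoras identities.
-/

open MeasureTheory

namespace Vale.Agent.P161

variable {V : Type*}

theorem exists_max_event {u : V → unitInterval} (hu : Function.Injective u)
    {S : Finset (V × ℕ)} (hS : S.Nonempty) :
    ∃ b ∈ S, ∀ x ∈ S, x ≠ b → before u x b := by
  obtain ⟨b, hb, hmax⟩ := Finset.exists_max_image S (fun x => toLex (x.2, u x.1)) hS
  refine ⟨b, hb, fun x hx hxb => ?_⟩
  have h := hmax x hx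
  simp only [Prod.Lex.toLex_le_toLex] at h
  rcases h with h | ⟨h1, h2⟩
  · exact Or.inl h
  · refine Or.inr ⟨h1, lt_of_le_of_ne h2 fun h3 => hxb ?_⟩
    exact Prod.ext (hu h3) h1

theorem before_asymm {u : V → unitInterval} {x y : V × ℕ} (h : before u x y) :
    ¬ before u y x := fun h2 => before_irrefl u x (before_trans h h2)

theorem pred_erase_of_max [DecidableEq V] {u : V → unitInterval} {S : Finset (V × ℕ)}
    {b : V × ℕ} (hmax : ∀ x ∈ S, x ≠ b → before u x b) {e : V × ℕ} (he : e ∈ S) :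
    pred (S.erase b) u e = pred S u e := by
  ext x
  rw [mem_pred, mem_pred, Finset.mem_erase]
  constructor
  · rintro ⟨⟨_, h2⟩, h3⟩; exact ⟨h2, h3⟩
  · rintro ⟨h2, h3⟩
    refine ⟨⟨?_, h2⟩, h3⟩
    rintro rfl
    by_cases heb : e = x
    · subst heb; exact before_irrefl u e h3
    · exact before_asymm h3 (hmax e he heb)

theorem pred_max [DecidableEq V] {u : V → unitInterval} {S : Finset (V × ℕ)}
    {b : V × ℕ} (hmax : ∀ x ∈ S, x ≠ b → before u x b) :
    pred S u b = S.erase b := by
  ext x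
  rw [mem_pred, Finset.mem_erase]
  constructor
  · rintro ⟨h1, h2⟩
    refine ⟨?_, h1⟩
    rintro rfl
    exact before_irrefl u x h2
  · rintro ⟨h1, h2⟩; exact ⟨h2, hmax x h2 h1⟩

/-- The sampling map factors through the removal of the last event. -/
theorem TT_erase_max [DecidableEq V] {μ : Measure (V → Bool)} {a : ℝ}
    {u : V → unitInterval} {S : Finset (V × ℕ)} {b : V × ℕ} (hb : b ∈ S)
    (hmax : ∀ x ∈ S, x ≠ b → before u x b) (ξ : V × ℕ → unitInterval) :
    TT μ a S u ξ = Function.update (TT μ a (S.erase b) u ξ) b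
      (qK (a * mm μ a b.1 (S.erase b) (TT μ a (S.erase b) u ξ)) (TT μ a (S.erase b) u ξ b)) := by
  symm
  refine eq_TT_of_fix ?_
  set t := TT μ a (S.erase b) u ξ with ht
  set q := qK (a * mm μ a b.1 (S.erase b) t) (t b) with hq
  have htb : t b = ξ b := TT_apply_notMem (Finset.notMem_erase b S)
  funext e
  unfold stepT
  by_cases he : e ∈ S
  · rw [if_pos he]
    by_cases heb : e = b
    · subst heb
      rw [Function.update_self, pred_max hmax, hq, htb]
      congr 2
      refine mm_congr fun x hx => ?_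
      rw [Function.update_of_ne (Finset.ne_of_mem_erase hx)]
    · rw [Function.update_of_ne heb]
      have heE : e ∈ S.erase b := Finset.mem_erase.2 ⟨heb, he⟩
      rw [ht, TT_apply_mem heE, pred_erase_of_max hmax he, ← ht]
      congr 2
      refine mm_congr fun x hx => ?_
      have hxb : x ≠ b := by
        rintro rfl
        exact before_asymm (mem_pred.1 hx).2 (hmax e he heb)
      rw [Function.update_of_ne hxb]
  · rw [if_neg he]
    have heb : e ≠ b := by rintro rfl; exact he hb
    rw [Function.update_of_ne heb, ht, TT_apply_notMem (fun h => he (Finset.mem_of_mem_erase h))]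

theorem measurable_WW (μ : Measure (V → Bool)) [IsProbabilityMeasure μ] (a : ℝ)
    (R : Finset (V × ℕ)) : Measurable fun t : V × ℕ → unitInterval => WW μ a R t := by
  unfold WW
  refine StronglyMeasurable.measurable ?_
  exact StronglyMeasurable.integral_prod_right'
    (f := fun q : (V × ℕ → unitInterval) × (V → Bool) =>
      lik a R q.1 q.2) (measurable_lik a R).stronglyMeasurable

theorem measurable_NN (μ : Measure (V → Bool)) [IsProbabilityMeasure μ] (a : ℝ) (v : V)
    (R : Finset (V × ℕ)) : Measurable fun t : V × ℕ → unitInterval => NN μ a v R t := by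
  unfold NN
  refine StronglyMeasurable.measurable ?_
  refine StronglyMeasurable.integral_prod_right'
    (f := fun q : (V × ℕ → unitInterval) × (V → Bool) =>
      spin (q.2 v) * lik a R q.1 q.2) ?_
  exact ((measurable_spin.comp ((measurable_pi_apply v).comp measurable_snd)).mul
    (measurable_lik a R)).stronglyMeasurable

/-- Law of the sampling map. -/
theorem lintegral_TT {μ : Measure (V → Bool)} [IsProbabilityMeasure μ] {a : ℝ} (ha : 0 ≤ a)
    (ha1 : a < 1) {u : V → unitInterval} (hu : Function.Injective u) (S : Finset (V × ℕ)) :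
    ∀ f : (V × ℕ → unitInterval) → ENNReal, Measurable f →
      ∫⁻ ξ, f (TT μ a S u ξ) ∂(PP (V × ℕ)) =
        ∫⁻ t, f t * ENNReal.ofReal (WW μ a S t) ∂(PP (V × ℕ)) := by
  classical
  induction hn : S.card generalizing S with
  | zero =>
    intro f hf
    have hS : S = ∅ := Finset.card_eq_zero.1 hn
    subst hS
    refine lintegral_congr fun ξ => ?_
    have : TT μ a ∅ u ξ = ξ := by
      funext e; exact TT_apply_notMem (Finset.notMem_empty e)
    rw [this, WW_empty]; simp
  | succ n ih =>
    intro f hf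
    have hne : S.Nonempty := by
      rw [← Finset.card_pos, hn]; omega
    obtain ⟨b, hb, hmax⟩ := exists_max_event hu hne
    set S' := S.erase b with hS'
    have hcard : S'.card = n := by rw [hS', Finset.card_erase_of_mem hb, hn]; rfl
    have hbS' : b ∉ S' := Finset.notMem_erase b S
    have hins : insert b S' = S := Finset.insert_erase hb
    set Q : (V × ℕ → unitInterval) → (V × ℕ → unitInterval) := fun t =>
      Function.update t b (qK (a * mm μ a b.1 S' t) (t b)) with hQ
    have hQm : Measurable Q := by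
      have h1 : Measurable fun t : V × ℕ → unitInterval =>
          (t, qK (a * mm μ a b.1 S' t) (t b)) :=
        measurable_id.prodMk (measurable_qK' (measurable_const.mul (measurable_mm μ a b.1 S'))
          (measurable_pi_apply b))
      have h2 := (measurable_update_uncurry b).comp h1
      simpa only [Function.comp_def, hQ] using h2
    have h1 : ∀ ξ, TT μ a S u ξ = Q (TT μ a S' u ξ) := fun ξ => TT_erase_max hb hmax ξ
    simp_rw [h1]
    have h2 := ih S' hcard (fun t => f (Q t)) (hf.comp hQm)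
    rw [h2]
    have hWm : Measurable fun t => ENNReal.ofReal (WW μ a S' t) :=
      (measurable_WW μ a S').ennreal_ofReal
    rw [← lintegral_update b (f := fun t => f (Q t) * ENNReal.ofReal (WW μ a S' t))
        ((hf.comp hQm).mul hWm),
      ← lintegral_update b (f := fun t => f t * ENNReal.ofReal (WW μ a S t))
        (hf.mul (measurable_WW μ a S).ennreal_ofReal)]
    refine lintegral_congr fun t => ?_
    have hcg : ∀ x : unitInterval, ∀ z ∈ S', Function.update t b x z = t z := by
      intro x z hz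
      have : z ≠ b := fun h => hbS' (h ▸ hz)
      rw [Function.update_of_ne this]
    set κ := a * mm μ a b.1 S' t with hκ
    have hκ1 : |κ| < 1 := abs_a_mul_mm_lt ha ha1 _ _ _
    have hW : ∀ x, WW μ a S' (Function.update t b x) = WW μ a S' t := fun x => WW_congr (hcg x)
    have hm : ∀ x, mm μ a b.1 S' (Function.update t b x) = mm μ a b.1 S' t :=
      fun x => mm_congr (hcg x)
    have hQu : ∀ x, Q (Function.update t b x) = Function.update t b (qK κ x) := by
      intro x
      simp only [hQ, hm, Function.update_self, Function.update_idem, hκ]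
    have hL : ∀ x : unitInterval, f (Q (Function.update t b x)) *
        ENNReal.ofReal (WW μ a S' (Function.update t b x)) =
        f (Function.update t b (qK κ x)) * ENNReal.ofReal (WW μ a S' t) := by
      intro x; rw [hQu, hW]
    simp_rw [hL]
    have hfu : Measurable fun y : unitInterval => f (Function.update t b y) :=
      hf.comp (measurable_update t)
    have hfq : Measurable fun x : unitInterval => f (Function.update t b (qK κ x)) :=
      hfu.comp (measurable_qK' measurable_const measurable_id)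
    rw [lintegral_mul_const _ hfq, lintegral_qK hκ1 hfu, ← lintegral_mul_const]
    · refine lintegral_congr fun y => ?_
      have hWS : WW μ a S (Function.update t b y) =
          WW μ a S' t * (1 + κ * (2 * (y : ℝ) - 1)) := by
        rw [← hins, WW_insert' ha ha1 hbS', hW, hm, Function.update_self]
      rw [hWS, ENNReal.ofReal_mul (WW_pos ha ha1 _ _).le]
      ring
    · refine hfu.mul (Measurable.ennreal_ofReal ?_)
      exact measurable_const.add (measurable_const.mul
        ((measurable_const.mul measurable_subtype_coe).sub measurable_const))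

theorem WW_le {μ : Measure (V → Bool)} [IsProbabilityMeasure μ] {a : ℝ} (ha : 0 ≤ a)
    (ha1 : a < 1) (R : Finset (V × ℕ)) (t : V × ℕ → unitInterval) :
    WW μ a R t ≤ (1 + a) ^ R.card := by
  have : (1 + a) ^ R.card = ∫ _σ, (1 + a) ^ R.card ∂μ := by simp
  rw [this]
  exact integral_mono (integrable_lik ha ha1 R t) (integrable_const _) (lik_le ha ha1 R t)

theorem abs_WW_le {μ : Measure (V → Bool)} [IsProbabilityMeasure μ] {a : ℝ} (ha : 0 ≤ a)
    (ha1 : a < 1) (R : Finset (V × ℕ)) (t : V × ℕ → unitInterval) :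
    |WW μ a R t| ≤ (1 + a) ^ R.card := by
  rw [abs_of_pos (WW_pos ha ha1 R t)]; exact WW_le ha ha1 R t

/-- Law of the sampling map, real-valued version for bounded test functions. -/
theorem integral_TT {μ : Measure (V → Bool)} [IsProbabilityMeasure μ] {a : ℝ} (ha : 0 ≤ a)
    (ha1 : a < 1) {u : V → unitInterval} (hu : Function.Injective u) (S : Finset (V × ℕ))
    {f : (V × ℕ → unitInterval) → ℝ} (hf : Measurable f) :
      ∫ ξ, f (TT μ a S u ξ) ∂(PP (V × ℕ)) =
        ∫ t, f t * WW μ a S t ∂(PP (V × ℕ)) := by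
  have hmap : (PP (V × ℕ)).map (TT μ a S u) =
      (PP (V × ℕ)).withDensity fun t => ENNReal.ofReal (WW μ a S t) := by
    refine Measure.ext_of_lintegral _ fun f hf => ?_
    rw [lintegral_map hf (measurable_TT_right μ a S u),
      lintegral_TT ha ha1 hu S f hf,
      lintegral_withDensity_eq_lintegral_mul _ (measurable_WW μ a S).ennreal_ofReal hf]
    refine lintegral_congr fun t => ?_
    simp only [Pi.mul_apply]
    rw [mul_comm]
  rw [← integral_map (measurable_TT_right μ a S u).aemeasurable hf.aestronglyMeasurable, hmap]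
  have h2 := integral_withDensity_eq_integral_smul (μ := PP (V × ℕ))
    (f := fun t => Real.toNNReal (WW μ a S t)) (measurable_WW μ a S).real_toNNReal f
  have h3 : (fun t => ENNReal.ofReal (WW μ a S t)) =
      fun t => ((Real.toNNReal (WW μ a S t) : NNReal) : ENNReal) := rfl
  rw [h3, h2]
  refine integral_congr_ae (Filter.Eventually.of_forall fun t => ?_)
  simp only [NNReal.smul_def, smul_eq_mul, Real.coe_toNNReal _ (WW_pos ha ha1 S t).le]
  ring

/-! ### Consistency -/

theorem integral_centered_zero {ι : Type*} [DecidableEq ι] (x : ι)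
    {ψ : (ι → unitInterval) → ℝ} (hψ : Measurable ψ) (C : ℝ) (hC : ∀ t, |ψ t| ≤ C)
    (hdep : ∀ t y, ψ (Function.update t x y) = ψ t) :
    ∫ t, ψ t * (2 * (t x : ℝ) - 1) ∂(PP ι) = 0 := by
  have hm : Measurable fun t : ι → unitInterval => ψ t * (2 * (t x : ℝ) - 1) :=
    hψ.mul ((measurable_const.mul (measurable_subtype_coe.comp (measurable_pi_apply x))).sub
      measurable_const)
  have hb : ∀ t : ι → unitInterval, |ψ t * (2 * (t x : ℝ) - 1)| ≤ C := by
    intro t
    rw [abs_mul]
    calc |ψ t| * |2 * (t x : ℝ) - 1| ≤ |ψ t| * 1 :=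
          mul_le_mul_of_nonneg_left (abs_two_mul_sub_one_le (t x)) (abs_nonneg _)
      _ ≤ C := by rw [mul_one]; exact hC t
  rw [← integral_update x hm C hb]
  have h0 : ∀ t : ι → unitInterval,
      ∫ y : unitInterval, ψ (Function.update t x y) *
        (2 * ((Function.update t x y x : unitInterval) : ℝ) - 1) = 0 := by
    intro t
    simp only [hdep, Function.update_self]
    rw [integral_const_mul]
    have h1 := integral_signal_mul 0
    simp only [zero_mul, add_zero, mul_one, zero_div] at h1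
    rw [h1, mul_zero]
  simp_rw [h0]
  simp

/-- Weighted likelihood integrals. -/
noncomputable def HH (μ : Measure (V → Bool)) (a : ℝ) (h : (V → Bool) → ℝ)
    (R : Finset (V × ℕ)) (t : V × ℕ → unitInterval) : ℝ :=
  ∫ σ, h σ * lik a R t σ ∂μ

section HH

variable {μ : Measure (V → Bool)} [IsProbabilityMeasure μ]

omit [IsProbabilityMeasure μ] in
theorem WW_eq_HH (a : ℝ) (R : Finset (V × ℕ)) (t : V × ℕ → unitInterval) :
    WW μ a R t = HH μ a (fun _ => 1) R t := by
  simp [WW, HH]

omit [IsProbabilityMeasure μ] in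
theorem NN_eq_HH (a : ℝ) (v : V) (R : Finset (V × ℕ)) (t : V × ℕ → unitInterval) :
    NN μ a v R t = HH μ a (fun σ => spin (σ v)) R t := rfl

theorem measurable_HH (a : ℝ) {h : (V → Bool) → ℝ} (hh : Measurable h)
    (R : Finset (V × ℕ)) : Measurable fun t : V × ℕ → unitInterval => HH μ a h R t := by
  unfold HH
  refine StronglyMeasurable.measurable ?_
  refine StronglyMeasurable.integral_prod_right'
    (f := fun q : (V × ℕ → unitInterval) × (V → Bool) => h q.2 * lik a R q.1 q.2) ?_
  exact ((hh.comp measurable_snd).mul (measurable_lik a R)).stronglyMeasurable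

theorem integrable_h_lik {a : ℝ} (ha : 0 ≤ a) (ha1 : a < 1) {h : (V → Bool) → ℝ}
    (hh : Measurable h) {C : ℝ} (hC : ∀ σ, |h σ| ≤ C) (R : Finset (V × ℕ))
    (t : V × ℕ → unitInterval) : Integrable (fun σ => h σ * lik a R t σ) μ := by
  have hC0 : 0 ≤ C := (abs_nonneg _).trans (hC fun _ => true)
  refine integrable_of_bdd (hh.mul (measurable_lik_right a R t)) (C * (1 + a) ^ R.card)
    fun σ => ?_
  rw [abs_mul]
  exact mul_le_mul (hC σ) (abs_lik_le ha ha1 R t σ) (abs_nonneg _) hC0

theorem abs_HH_le {a : ℝ} (ha : 0 ≤ a) (ha1 : a < 1) {h : (V → Bool) → ℝ} {C : ℝ}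
    (hC : ∀ σ, |h σ| ≤ C) (R : Finset (V × ℕ))
    (t : V × ℕ → unitInterval) : |HH μ a h R t| ≤ C * (1 + a) ^ R.card := by
  have hC0 : 0 ≤ C := (abs_nonneg _).trans (hC fun _ => true)
  have := norm_integral_le_of_norm_le_const (μ := μ) (f := fun σ => h σ * lik a R t σ)
    (C := C * (1 + a) ^ R.card) (Filter.Eventually.of_forall fun σ => by
      rw [Real.norm_eq_abs, abs_mul]
      exact mul_le_mul (hC σ) (abs_lik_le ha ha1 R t σ) (abs_nonneg _) hC0)
  simpa [HH] using this

omit [IsProbabilityMeasure μ] in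
theorem HH_congr {a : ℝ} {h : (V → Bool) → ℝ} {R : Finset (V × ℕ)}
    {t t' : V × ℕ → unitInterval} (hh : ∀ x ∈ R, t x = t' x) :
    HH μ a h R t = HH μ a h R t' := by
  unfold HH; congr 1; funext σ; rw [lik_congr a hh σ]

/-- Integrating out one signal. -/
theorem integral_mul_HH_insert [DecidableEq V] {a : ℝ} (ha : 0 ≤ a) (ha1 : a < 1)
    {h : (V → Bool) → ℝ} (hh : Measurable h) {C : ℝ} (hC : ∀ σ, |h σ| ≤ C)
    {R : Finset (V × ℕ)} {x : V × ℕ} (hx : x ∉ R)
    {φ : (V × ℕ → unitInterval) → ℝ} (hφ : Measurable φ) {B : ℝ} (hB : ∀ t, |φ t| ≤ B)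
    (hdep : ∀ t y, φ (Function.update t x y) = φ t) :
    ∫ t, φ t * HH μ a h (insert x R) t ∂(PP (V × ℕ)) =
      ∫ t, φ t * HH μ a h R t ∂(PP (V × ℕ)) := by
  have hB0 : 0 ≤ B := (abs_nonneg _).trans (hB fun _ => 0)
  set h' : (V → Bool) → ℝ := fun σ => h σ * spin (σ x.1) with hh'
  have hh'm : Measurable h' := hh.mul (measurable_spin.comp (measurable_pi_apply x.1))
  have hC' : ∀ σ, |h' σ| ≤ C := fun σ => by rw [hh', abs_mul, abs_spin27, mul_one]; exact hC σ
  have hexp : ∀ t, HH μ a h (insert x R) t =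
      HH μ a h R t + a * (HH μ a h' R t * (2 * (t x : ℝ) - 1)) := by
    intro t
    unfold HH
    rw [← integral_mul_const, ← integral_const_mul,
      ← integral_add (integrable_h_lik ha ha1 hh hC R t)
      (((integrable_h_lik ha ha1 hh'm hC' R t).mul_const _).const_mul _)]
    congr 1; funext σ
    rw [lik_insert a hx]; simp only [hh']; ring
  have hsplit : ∀ t, φ t * HH μ a h (insert x R) t =
      φ t * HH μ a h R t + a * ((φ t * HH μ a h' R t) * (2 * (t x : ℝ) - 1)) := by
    intro t; rw [hexp]; ring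
  simp_rw [hsplit]
  have hψm : Measurable fun t => φ t * HH μ a h' R t := hφ.mul (measurable_HH a hh'm R)
  have hψb : ∀ t, |φ t * HH μ a h' R t| ≤ B * (C * (1 + a) ^ R.card) := fun t => by
    rw [abs_mul]
    exact mul_le_mul (hB t) (abs_HH_le ha ha1 hC' R t) (abs_nonneg _) hB0
  have hψd : ∀ t y, (fun t => φ t * HH μ a h' R t) (Function.update t x y) =
      (fun t => φ t * HH μ a h' R t) t := by
    intro t y
    simp only [hdep]
    congr 1
    refine HH_congr fun z hz => ?_
    have : z ≠ x := fun hzx => hx (hzx ▸ hz)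
    rw [Function.update_of_ne this]
  have hzero := integral_centered_zero x hψm _ hψb hψd
  have hint1 : Integrable (fun t => φ t * HH μ a h R t) (PP (V × ℕ)) := by
    refine integrable_of_abs_le (hφ.mul (measurable_HH a hh R)) (C := B * (C * (1 + a) ^ R.card))
      fun t => ?_
    rw [abs_mul]
    exact mul_le_mul (hB t) (abs_HH_le ha ha1 hC R t) (abs_nonneg _) hB0
  have hint2 : Integrable (fun t : V × ℕ → unitInterval =>
      (φ t * HH μ a h' R t) * (2 * (t x : ℝ) - 1)) (PP (V × ℕ)) := by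
    refine integrable_of_abs_le (hψm.mul ((measurable_const.mul
      (measurable_subtype_coe.comp (measurable_pi_apply x))).sub measurable_const))
      (C := B * (C * (1 + a) ^ R.card)) fun t => ?_
    rw [abs_mul]
    calc |φ t * HH μ a h' R t| * |2 * (t x : ℝ) - 1| ≤ |φ t * HH μ a h' R t| * 1 :=
          mul_le_mul_of_nonneg_left (abs_two_mul_sub_one_le (t x)) (abs_nonneg _)
      _ ≤ _ := by rw [mul_one]; exact hψb t
  rw [integral_add hint1 (hint2.const_mul a), integral_const_mul, hzero, mul_zero, add_zero]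

theorem integral_mul_HH_subset {a : ℝ} (ha : 0 ≤ a) (ha1 : a < 1)
    {h : (V → Bool) → ℝ} (hh : Measurable h) {C : ℝ} (hC : ∀ σ, |h σ| ≤ C)
    {R S : Finset (V × ℕ)} (hRS : R ⊆ S)
    {φ : (V × ℕ → unitInterval) → ℝ} (hφ : Measurable φ) {B : ℝ} (hB : ∀ t, |φ t| ≤ B)
    (hdep : ∀ t t' : V × ℕ → unitInterval, (∀ x ∈ R, t x = t' x) → φ t = φ t') :
    ∫ t, φ t * HH μ a h S t ∂(PP (V × ℕ)) = ∫ t, φ t * HH μ a h R t ∂(PP (V × ℕ)) := by
  classical
  have key : ∀ s : Finset (V × ℕ), Disjoint s R →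
      ∫ t, φ t * HH μ a h (s ∪ R) t ∂(PP (V × ℕ)) =
        ∫ t, φ t * HH μ a h R t ∂(PP (V × ℕ)) := by
    intro s
    induction s using Finset.induction_on with
    | empty => intro _; simp
    | insert b s hb ih =>
      intro hd
      rw [Finset.disjoint_insert_left] at hd
      rw [Finset.insert_union, integral_mul_HH_insert ha ha1 hh hC
        (by simp [hb, hd.1]) hφ hB, ih hd.2]
      intro t y
      refine hdep _ _ fun z hz => ?_
      have : z ≠ b := fun hzb => hd.1 (hzb ▸ hz)
      rw [Function.update_of_ne this]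
  have := key (S \ R) Finset.sdiff_disjoint
  rwa [Finset.sdiff_union_of_subset hRS] at this

theorem integral_mul_WW_subset {a : ℝ} (ha : 0 ≤ a) (ha1 : a < 1)
    {R S : Finset (V × ℕ)} (hRS : R ⊆ S)
    {φ : (V × ℕ → unitInterval) → ℝ} (hφ : Measurable φ) {B : ℝ} (hB : ∀ t, |φ t| ≤ B)
    (hdep : ∀ t t' : V × ℕ → unitInterval, (∀ x ∈ R, t x = t' x) → φ t = φ t') :
    ∫ t, φ t * WW μ a S t ∂(PP (V × ℕ)) = ∫ t, φ t * WW μ a R t ∂(PP (V × ℕ)) := by
  simp_rw [WW_eq_HH]
  exact integral_mul_HH_subset ha ha1 measurable_const (C := 1) (fun _ => by simp) hRS hφ hB hdep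

theorem integral_mul_NN_subset {a : ℝ} (ha : 0 ≤ a) (ha1 : a < 1) (v : V)
    {R S : Finset (V × ℕ)} (hRS : R ⊆ S)
    {φ : (V × ℕ → unitInterval) → ℝ} (hφ : Measurable φ) {B : ℝ} (hB : ∀ t, |φ t| ≤ B)
    (hdep : ∀ t t' : V × ℕ → unitInterval, (∀ x ∈ R, t x = t' x) → φ t = φ t') :
    ∫ t, φ t * NN μ a v S t ∂(PP (V × ℕ)) = ∫ t, φ t * NN μ a v R t ∂(PP (V × ℕ)) := by
  simp_rw [NN_eq_HH]
  exact integral_mul_HH_subset ha ha1 (measurable_spin.comp (measurable_pi_apply v)) (C := 1)
    (fun _ => by rw [Function.comp_apply, abs_spin27]) hRS hφ hB hdep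

end HH

/-! ### Pythagoras -/

/-- Second moment of the posterior mean. -/
noncomputable def MM (μ : Measure (V → Bool)) (a : ℝ) (v : V) (R : Finset (V × ℕ)) : ℝ :=
  ∫ t, mm μ a v R t ^ 2 * WW μ a R t ∂(PP (V × ℕ))

section MM

variable {μ : Measure (V → Bool)} [IsProbabilityMeasure μ]

theorem mm_mul_WW {a : ℝ} (ha : 0 ≤ a) (ha1 : a < 1) (v : V) (R : Finset (V × ℕ))
    (t : V × ℕ → unitInterval) : mm μ a v R t * WW μ a R t = NN μ a v R t := by
  unfold mm
  rw [div_mul_cancel₀ _ (WW_pos ha ha1 R t).ne']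

theorem integral_sq_sub {a : ℝ} (ha : 0 ≤ a) (ha1 : a < 1) (v : V)
    {R R' S : Finset (V × ℕ)} (h1 : R ⊆ R') (h2 : R' ⊆ S) :
    ∫ t, (mm μ a v R' t - mm μ a v R t) ^ 2 * WW μ a S t ∂(PP (V × ℕ)) =
      MM μ a v R' - MM μ a v R := by
  have hm := measurable_mm μ a v R
  have hm' := measurable_mm μ a v R'
  have hb : ∀ t, |mm μ a v R t| ≤ 1 := abs_mm_le ha ha1 v R
  have hb' : ∀ t, |mm μ a v R' t| ≤ 1 := abs_mm_le ha ha1 v R'
  have hbsq : ∀ t, |mm μ a v R t ^ 2| ≤ 1 := fun t => by
    rw [abs_pow]; exact pow_le_one₀ (abs_nonneg _) (hb t)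
  have hbsq' : ∀ t, |mm μ a v R' t ^ 2| ≤ 1 := fun t => by
    rw [abs_pow]; exact pow_le_one₀ (abs_nonneg _) (hb' t)
  have hbp : ∀ t, |mm μ a v R t * mm μ a v R' t| ≤ 1 := fun t => by
    rw [abs_mul]; exact mul_le_one₀ (hb t) (abs_nonneg _) (hb' t)
  have hint : ∀ {φ : (V × ℕ → unitInterval) → ℝ}, Measurable φ → (∀ t, |φ t| ≤ 1) →
      Integrable (fun t => φ t * WW μ a S t) (PP (V × ℕ)) := by
    intro φ hφ hφb
    refine integrable_of_abs_le (hφ.mul (measurable_WW μ a S)) (C := 1 * (1 + a) ^ S.card)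
      fun t => ?_
    rw [abs_mul]
    exact mul_le_mul (hφb t) (abs_WW_le ha ha1 S t) (abs_nonneg _) zero_le_one
  have e1 : ∫ t, mm μ a v R' t ^ 2 * WW μ a S t ∂(PP (V × ℕ)) = MM μ a v R' :=
    integral_mul_WW_subset ha ha1 h2 (hm'.pow_const 2) hbsq'
      fun t t' h => by rw [mm_congr h]
  have e2 : ∫ t, mm μ a v R t ^ 2 * WW μ a S t ∂(PP (V × ℕ)) = MM μ a v R :=
    integral_mul_WW_subset ha ha1 (h1.trans h2) (hm.pow_const 2) hbsq
      fun t t' h => by rw [mm_congr h]
  have hmm' : Measurable fun t => mm μ a v R t * mm μ a v R' t := hm.mul hm'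
  have e3 : ∫ t, (mm μ a v R t * mm μ a v R' t) * WW μ a S t ∂(PP (V × ℕ)) = MM μ a v R := by
    rw [integral_mul_WW_subset ha ha1 h2 hmm' hbp
      fun t t' h => by rw [mm_congr h, mm_congr fun x hx => h x (h1 hx)]]
    have : ∀ t, (mm μ a v R t * mm μ a v R' t) * WW μ a R' t =
        mm μ a v R t * NN μ a v R' t := fun t => by
      rw [mul_assoc, mm_mul_WW ha ha1]
    simp_rw [this]
    rw [integral_mul_NN_subset ha ha1 v h1 hm hb fun t t' h => mm_congr h]
    unfold MM
    congr 1; funext t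
    rw [← mm_mul_WW ha ha1]; ring
  have hexp : ∀ t, (mm μ a v R' t - mm μ a v R t) ^ 2 * WW μ a S t =
      (mm μ a v R' t ^ 2 * WW μ a S t - 2 * ((mm μ a v R t * mm μ a v R' t) * WW μ a S t)) +
        mm μ a v R t ^ 2 * WW μ a S t := fun t => by ring
  simp_rw [hexp]
  have i1 : Integrable (fun t => mm μ a v R' t ^ 2 * WW μ a S t) (PP (V × ℕ)) :=
    hint (hm'.pow_const 2) hbsq'
  have i2 : Integrable (fun t => 2 * ((mm μ a v R t * mm μ a v R' t) * WW μ a S t))
      (PP (V × ℕ)) := (hint hmm' hbp).const_mul 2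
  have i3 : Integrable (fun t => mm μ a v R t ^ 2 * WW μ a S t) (PP (V × ℕ)) :=
    hint (hm.pow_const 2) hbsq
  have i12 : Integrable (fun t => mm μ a v R' t ^ 2 * WW μ a S t -
      2 * ((mm μ a v R t * mm μ a v R' t) * WW μ a S t)) (PP (V × ℕ)) := i1.sub i2
  rw [integral_add i12 i3, integral_sub i1 i2, integral_const_mul, e1, e2, e3]
  ring

theorem integral_WW {a : ℝ} (ha : 0 ≤ a) (ha1 : a < 1) (R : Finset (V × ℕ)) :
    ∫ t, WW μ a R t ∂(PP (V × ℕ)) = 1 := by
  have h := integral_mul_WW_subset (μ := μ) ha ha1 (Finset.empty_subset R)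
    (φ := fun _ => 1) measurable_const (B := 1) (fun _ => by simp) (fun _ _ _ => rfl)
  simpa [WW_empty] using h

theorem MM_mono {a : ℝ} (ha : 0 ≤ a) (ha1 : a < 1) (v : V)
    {R R' : Finset (V × ℕ)} (h1 : R ⊆ R') : MM μ a v R ≤ MM μ a v R' := by
  have h := integral_sq_sub (μ := μ) ha ha1 v h1 subset_rfl
  have h0 : 0 ≤ ∫ t, (mm μ a v R' t - mm μ a v R t) ^ 2 * WW μ a R' t ∂(PP (V × ℕ)) :=
    integral_nonneg fun t => mul_nonneg (sq_nonneg _) (WW_pos ha ha1 R' t).le
  linarith

theorem MM_le_one {a : ℝ} (ha : 0 ≤ a) (ha1 : a < 1) (v : V) (R : Finset (V × ℕ)) :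
    MM μ a v R ≤ 1 := by
  rw [← integral_WW (μ := μ) ha ha1 R]
  unfold MM
  have hbsq : ∀ t, mm μ a v R t ^ 2 ≤ 1 := fun t => by
    have := abs_mm_le (μ := μ) ha ha1 v R t
    rw [← sq_abs]; exact pow_le_one₀ (abs_nonneg _) this
  refine integral_mono ?_ ?_ fun t => ?_
  · refine integrable_of_abs_le (((measurable_mm μ a v R).pow_const 2).mul (measurable_WW μ a R))
      (C := 1 * (1 + a) ^ R.card) fun t => ?_
    rw [abs_mul, abs_of_nonneg (sq_nonneg (mm μ a v R t))]
    exact mul_le_mul (hbsq t) (abs_WW_le ha ha1 R t) (abs_nonneg _) zero_le_one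
  · exact integrable_of_abs_le (measurable_WW μ a R) fun t => abs_WW_le ha ha1 R t
  · have := (WW_pos (μ := μ) ha ha1 R t).le
    calc mm μ a v R t ^ 2 * WW μ a R t ≤ 1 * WW μ a R t :=
          mul_le_mul_of_nonneg_right (hbsq t) this
      _ = _ := one_mul _

end MM

end Vale.Agent.P161
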