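import Vale.Agent.Lib.P161.Core4

/-!
P161, core part 5: the sampling maps `TT S` converge in `L²` as the finite event set `S` grows.
-/

open MeasureTheory

namespace Vale.Agent.P161

variable {V : Type*}

theorem coe_unit_abs_le (x : unitInterval) : |(x : ℝ)| ≤ 1 := by
  rw [abs_of_nonneg x.2.1]; exact x.2.2

theorem unit_sub_abs_le (x y : unitInterval) : |(x : ℝ) - y| ≤ 1 := by
  rw [abs_le]; constructor <;> linarith [x.2.1, x.2.2, y.2.1, y.2.2]

/-- Finite event sets realising the supremum of the second moments up to `δ`. -/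
theorem exists_saturating {μ : Measure (V → Bool)} [IsProbabilityMeasure μ] {a : ℝ}
    (ha : 0 ≤ a) (ha1 : a < 1) (u : V → unitInterval) (x : V × ℕ) {δ : ℝ} (hδ : 0 < δ) :
    ∃ R : Finset (V × ℕ), (∀ y ∈ R, before u y x) ∧
      ∀ R' : Finset (V × ℕ), (∀ y ∈ R', before u y x) → MM μ a x.1 R' ≤ MM μ a x.1 R + δ := by
  set A : Set ℝ := {c | ∃ R : Finset (V × ℕ), (∀ y ∈ R, before u y x) ∧ MM μ a x.1 R = c} with hA
  have hne : A.Nonempty := ⟨MM μ a x.1 ∅, ∅, by simp, rfl⟩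
  have hbdd : BddAbove A := ⟨1, by rintro c ⟨R, _, rfl⟩; exact MM_le_one ha ha1 _ _⟩
  obtain ⟨c, ⟨R, hR, rfl⟩, hc⟩ := exists_lt_of_lt_csSup hne (sub_lt_self (sSup A) hδ)
  refine ⟨R, hR, fun R' hR' => ?_⟩
  have h1 : MM μ a x.1 R' ≤ sSup A := le_csSup hbdd ⟨R', hR', rfl⟩
  linarith

/-- Square summability of the influences gives a finite set of relevant coordinates. -/
theorem exists_finite_relevant {K : V → V → ℝ} (hsum : ∀ v, Summable fun w => K v w ^ 2)
    {a r : ℝ} (e : V × ℕ) {τ : ℝ} (hτ : 0 < τ) :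
    ∃ A : Finset (V × ℕ), ∀ s : Finset (V × ℕ), Disjoint s A →
      ∑ i ∈ s, infl K a r e i ^ 2 ≤ τ := by
  classical
  have h1 : Summable fun x : V × ℕ => K e.1 x.1 ^ 2 *
      (if x.2 ≤ e.2 then gk a r e.2 ^ 2 else 0) := by
    have h2 : Summable fun j : ℕ => if j ≤ e.2 then gk a r e.2 ^ 2 else 0 := by
      refine summable_of_ne_finset_zero (s := Finset.range (e.2 + 1)) fun j hj => ?_
      simp only [Finset.mem_range, not_lt] at hj
      rw [if_neg (by omega)]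
    have h3 := (hsum e.1).mul_of_nonneg h2 (fun w => sq_nonneg _)
      (fun j => by dsimp only; split_ifs; exacts [sq_nonneg _, le_rfl])
    exact h3
  obtain ⟨A, hA⟩ := summable_iff_vanishing_norm.1 h1 τ hτ
  refine ⟨A, fun s hs => ?_⟩
  have h3 := hA s hs
  have h4 : ∀ i ∈ s, infl K a r e i ^ 2 = K e.1 i.1 ^ 2 *
      (if i.2 ≤ e.2 then gk a r e.2 ^ 2 else 0) := by
    intro i _
    unfold infl
    split_ifs
    · ring
    · ring
  rw [Finset.sum_congr rfl h4]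
  exact (le_abs_self _).trans h3.le

/-- Main comparison estimate. -/
theorem TT_compare {μ : Measure (V → Bool)} [IsProbabilityMeasure μ] {a r C : ℝ}
    {D K : V → V → ℝ} (ha : 0 ≤ a) (ha1 : a < 1) (hr : 1 ≤ r) (hD : CovBound μ a D)
    (hK : KernelBound D K C)
    (hC : 1 / (4 * (1 - a)) * (a * (2 * a / (1 - a) ^ 2)) * C ≤ 1 - 1 / r)
    {u : V → unitInterval} (hu : Function.Injective u)
    {A S S' : Finset (V × ℕ)} {e : V × ℕ} (he : e ∈ S) (hAS : A ⊆ S) (hSS' : S ⊆ S')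
    {τ δ : ℝ}
    (hτ : ∀ s : Finset (V × ℕ), Disjoint s A → ∑ i ∈ s, infl K a r e i ^ 2 ≤ τ)
    (hδ : ∀ i ∈ A, MM μ a i.1 (pred S' u i) - MM μ a i.1 (pred S u i) ≤ δ) :
    ∫ ξ, (((TT μ a S' u ξ e : unitInterval) : ℝ) - TT μ a S u ξ e) ^ 2 ∂(PP (V × ℕ)) ≤
      3 * (τ + (∑ i ∈ A, infl K a r e i ^ 2) * (A.card * δ) + τ) := by
  classical
  set c : V × ℕ → ℝ := infl K a r e with hc
  have hc0 : ∀ i, 0 ≤ c i := fun i => infl_nonneg hK.nonneg ha1 hr e i
  set f : (V × ℕ → unitInterval) → ℝ := fun ξ => ((TT μ a S u ξ e : unitInterval) : ℝ) with hf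
  have hfm : Measurable f :=
    measurable_subtype_coe.comp ((measurable_pi_apply e).comp (measurable_TT_right μ a S u))
  have hfb : ∀ ξ, |f ξ| ≤ 1 := fun ξ => coe_unit_abs_le _
  have hdep : ∀ ξ ξ' : V × ℕ → unitInterval, (∀ i ∈ S, ξ i = ξ' i) → f ξ = f ξ' := by
    intro ξ ξ' h
    simp only [hf]
    rw [TT_congr h e he]
  have hlip : ∀ i, ∀ ξ (x : unitInterval),
      |f (Function.update ξ i x) - f ξ| ≤ c i * |(x : ℝ) - ξ i| := by
    intro i ξ x
    have := TT_influence ha ha1 hr hD hK hC S u i ξ x e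
    convert this using 4
  have hosc : ∀ i, ∀ ξ x, |f (Function.update ξ i x) - f ξ| ≤ c i := by
    intro i ξ x
    refine (hlip i ξ x).trans ?_
    calc c i * |(x : ℝ) - ξ i| ≤ c i * 1 :=
          mul_le_mul_of_nonneg_left (unit_sub_abs_le _ _) (hc0 i)
      _ = c i := mul_one _
  set s := S \ A with hs
  have hSs : S \ s = A := by rw [hs]; exact Finset.sdiff_sdiff_eq_self hAS
  set F := avg s f with hF
  have hFm : Measurable F := measurable_avg s hfm
  have hFb : ∀ ξ, |F ξ| ≤ 1 := fun ξ => abs_avg_le s hfb ξ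
  have hFdep : ∀ ξ ξ' : V × ℕ → unitInterval, (∀ i ∈ S, ξ i = ξ' i) → F ξ = F ξ' := by
    intro ξ ξ' h
    simp only [hF, avg]
    congr 1; funext z
    refine hdep _ _ fun i hi => ?_
    by_cases his : i ∈ s
    · simp [his]
    · simp [his, h i hi]
  have hFlip : ∀ ξ ξ' : V × ℕ → unitInterval,
      |F ξ - F ξ'| ≤ ∑ i ∈ A, c i * |(ξ i : ℝ) - ξ' i| := by
    intro ξ ξ'
    have := avg_lipschitz S s hfm 1 hfb c hdep (fun i _ => hlip i) ξ ξ'
    rwa [hSs] at this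
  have hES : ∫ ξ, (f ξ - F ξ) ^ 2 ∂(PP (V × ℕ)) ≤ τ :=
    (efron_stein s hfm 1 hfb c fun i _ => hosc i).trans (hτ s Finset.sdiff_disjoint)
  -- innovations
  set η : (V × ℕ → unitInterval) → (V × ℕ → unitInterval) := fun t => ET μ a S u t with hη
  have hηm : Measurable η := measurable_ET μ a S u
  have hfη : ∀ t, f (η t) = (t e : ℝ) := by
    intro t; simp only [hf, hη, TT_ET ha ha1]
  -- pointwise decomposition
  have hpt : ∀ ξ, (((TT μ a S' u ξ e : unitInterval) : ℝ) - TT μ a S u ξ e) ^ 2 ≤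
      3 * ((f (η (TT μ a S' u ξ)) - F (η (TT μ a S' u ξ))) ^ 2 +
        (∑ i ∈ A, c i ^ 2) * (∑ i ∈ A, (mm μ a i.1 (pred S' u i) (TT μ a S' u ξ) -
          mm μ a i.1 (pred S u i) (TT μ a S' u ξ)) ^ 2) + (f ξ - F ξ) ^ 2) := by
    intro ξ
    set t := TT μ a S' u ξ with ht
    have hξ : ξ = ET μ a S' u t := (ET_TT ha ha1 S' u ξ).symm
    have h1 : ((t e : unitInterval) : ℝ) - TT μ a S u ξ e = f (η t) - f ξ := by
      rw [hfη]
    rw [h1]
    have h2 : |F (η t) - F ξ| ≤ ∑ i ∈ A, c i * |mm μ a i.1 (pred S' u i) t -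
          mm μ a i.1 (pred S u i) t| := by
      refine (hFlip _ _).trans (Finset.sum_le_sum fun i hi => ?_)
      refine mul_le_mul_of_nonneg_left ?_ (hc0 i)
      have hiS : i ∈ S := hAS hi
      have hiS' : i ∈ S' := hSS' hiS
      have e1 : η t i = cdfK (a * mm μ a i.1 (pred S u i) t) (t i) := ET_apply_mem hiS
      have e2 : ξ i = cdfK (a * mm μ a i.1 (pred S' u i) t) (t i) := by
        conv_lhs => rw [hξ]
        exact ET_apply_mem hiS'
      rw [e1, e2]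
      refine (cdfK_lipschitz (abs_a_mul_mm_lt ha ha1 _ _ _) (abs_a_mul_mm_lt ha ha1 _ _ _)
        _).trans ?_
      rw [← mul_sub, abs_mul, abs_of_nonneg ha, abs_sub_comm]
      have := abs_nonneg (mm μ a i.1 (pred S' u i) t - mm μ a i.1 (pred S u i) t)
      nlinarith only [ha1, this]
    have h3 : (F (η t) - F ξ) ^ 2 ≤ (∑ i ∈ A, c i ^ 2) *
        (∑ i ∈ A, (mm μ a i.1 (pred S' u i) t - mm μ a i.1 (pred S u i) t) ^ 2) := by
      rw [← sq_abs]
      refine (pow_le_pow_left₀ (abs_nonneg _) h2 2).trans ?_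
      have h4 := Finset.sum_mul_sq_le_sq_mul_sq A c
        (fun i => |mm μ a i.1 (pred S' u i) t - mm μ a i.1 (pred S u i) t|)
      simpa only [sq_abs] using h4
    linarith only [sq_nonneg ((f (η t) - F (η t)) - (F (η t) - F ξ)),
      sq_nonneg ((F (η t) - F ξ) - (F ξ - f ξ)), sq_nonneg ((f (η t) - F (η t)) - (F ξ - f ξ)),
      sq_nonneg (f ξ - F ξ), h3]
  -- integrability
  have hTm' := measurable_TT_right μ a S' u
  have hg1 : Measurable fun t : V × ℕ → unitInterval => (f (η t) - F (η t)) ^ 2 :=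
    ((hfm.comp hηm).sub (hFm.comp hηm)).pow_const 2
  have hb4 : ∀ x y : ℝ, |x| ≤ 1 → |y| ≤ 1 → |(x - y) ^ 2| ≤ 4 := by
    intro x y hx hy
    rw [abs_pow]
    have h1 : |x - y| ≤ 2 := (abs_sub x y).trans (by linarith)
    calc |x - y| ^ 2 ≤ 2 ^ 2 := pow_le_pow_left₀ (abs_nonneg _) h1 2
      _ = 4 := by norm_num
  have hg1b : ∀ t, |(f (η t) - F (η t)) ^ 2| ≤ 4 := fun t => hb4 _ _ (hfb _) (hFb _)
  have hg2 : ∀ i, Measurable fun t : V × ℕ → unitInterval =>
      (mm μ a i.1 (pred S' u i) t - mm μ a i.1 (pred S u i) t) ^ 2 := fun i =>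
    ((measurable_mm μ a i.1 _).sub (measurable_mm μ a i.1 _)).pow_const 2
  have hg2b : ∀ i t, |(mm μ a i.1 (pred S' u i) t - mm μ a i.1 (pred S u i) t) ^ 2| ≤ 4 :=
    fun i t => hb4 _ _ (abs_mm_le ha ha1 _ _ _) (abs_mm_le ha ha1 _ _ _)
  have j1 : Integrable (fun ξ => (f (η (TT μ a S' u ξ)) - F (η (TT μ a S' u ξ))) ^ 2)
      (PP (V × ℕ)) := integrable_of_abs_le (hg1.comp hTm') fun ξ => hg1b _
  have j2' : ∀ i, Integrable (fun ξ => (mm μ a i.1 (pred S' u i) (TT μ a S' u ξ) -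
          mm μ a i.1 (pred S u i) (TT μ a S' u ξ)) ^ 2) (PP (V × ℕ)) := fun i =>
    integrable_of_abs_le ((hg2 i).comp hTm') fun ξ => hg2b i _
  have j2 : Integrable (fun ξ => (∑ i ∈ A, c i ^ 2) *
      (∑ i ∈ A, (mm μ a i.1 (pred S' u i) (TT μ a S' u ξ) -
          mm μ a i.1 (pred S u i) (TT μ a S' u ξ)) ^ 2)) (PP (V × ℕ)) :=
    (integrable_finsetSum _ fun i _ => j2' i).const_mul _
  have j3 : Integrable (fun ξ => (f ξ - F ξ) ^ 2) (PP (V × ℕ)) :=
    integrable_of_abs_le ((hfm.sub hFm).pow_const 2) fun ξ => hb4 _ _ (hfb _) (hFb _)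
  have j0 : Integrable (fun ξ => (((TT μ a S' u ξ e : unitInterval) : ℝ) - TT μ a S u ξ e) ^ 2)
      (PP (V × ℕ)) := by
    refine integrable_of_abs_le (C := 4) (Measurable.pow_const (Measurable.sub ?_ hfm) 2)
      fun ξ => hb4 _ _ (coe_unit_abs_le _) (hfb _)
    exact measurable_subtype_coe.comp ((measurable_pi_apply e).comp hTm')
  have j12 : Integrable (fun ξ => (f (η (TT μ a S' u ξ)) - F (η (TT μ a S' u ξ))) ^ 2 +
        (∑ i ∈ A, c i ^ 2) * (∑ i ∈ A, (mm μ a i.1 (pred S' u i) (TT μ a S' u ξ) -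
          mm μ a i.1 (pred S u i) (TT μ a S' u ξ)) ^ 2)) (PP (V × ℕ)) := j1.add j2
  refine (integral_mono j0 ((j12.add j3).const_mul 3) hpt).trans ?_
  simp only [Pi.add_apply]
  rw [integral_const_mul, integral_add j12 j3, integral_add j1 j2, integral_const_mul,
    integral_finsetSum _ fun i _ => j2' i]
  -- first term
  have k1 : ∫ ξ, (f (η (TT μ a S' u ξ)) - F (η (TT μ a S' u ξ))) ^ 2 ∂(PP (V × ℕ)) ≤ τ := by
    have e1 := integral_TT (μ := μ) ha ha1 hu S' hg1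
    have e2 := integral_TT (μ := μ) ha ha1 hu S hg1
    have e3 := integral_mul_WW_subset (μ := μ) ha ha1 hSS' hg1 hg1b (fun t t' h => by
      have h1 : ∀ i ∈ S, η t i = η t' i := ET_congr h
      rw [hdep _ _ h1, hFdep _ _ h1])
    rw [e1, e3, ← e2]
    have h4 : ∀ ξ, η (TT μ a S u ξ) = ξ := fun ξ => ET_TT ha ha1 S u ξ
    simp_rw [h4]
    exact hES
  have k2 : ∑ i ∈ A, ∫ ξ, (mm μ a i.1 (pred S' u i) (TT μ a S' u ξ) -
          mm μ a i.1 (pred S u i) (TT μ a S' u ξ)) ^ 2 ∂(PP (V × ℕ)) ≤ A.card * δ := by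
    calc _ ≤ ∑ i ∈ A, δ := by
          refine Finset.sum_le_sum fun i hi => ?_
          rw [integral_TT (μ := μ) ha ha1 hu S' (hg2 i),
            integral_sq_sub ha ha1 i.1 (R := pred S u i) (R' := pred S' u i) (S := S')]
          · exact hδ i hi
          · intro x hx
            rw [mem_pred] at *
            exact ⟨hSS' hx.1, hx.2⟩
          · intro x hx
            exact (mem_pred.1 hx).1
      _ = A.card * δ := by rw [Finset.sum_const, nsmul_eq_mul]
  have hc2 : 0 ≤ ∑ i ∈ A, c i ^ 2 := Finset.sum_nonneg fun i _ => sq_nonneg _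
  have k3 := mul_le_mul_of_nonneg_left k2 hc2
  linarith

/-- Cauchy property along increasing finite event sets, for injective labels. -/
theorem TT_cauchy {μ : Measure (V → Bool)} [IsProbabilityMeasure μ] {a r C : ℝ}
    {D K : V → V → ℝ} (ha : 0 ≤ a) (ha1 : a < 1) (hr : 1 ≤ r) (hD : CovBound μ a D)
    (hK : KernelBound D K C)
    (hC : 1 / (4 * (1 - a)) * (a * (2 * a / (1 - a) ^ 2)) * C ≤ 1 - 1 / r)
    (hsum : ∀ v, Summable fun w => K v w ^ 2)
    {u : V → unitInterval} (hu : Function.Injective u) (e : V × ℕ) {ε : ℝ} (hε : 0 < ε) :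
    ∃ S₀ : Finset (V × ℕ), ∀ S S' : Finset (V × ℕ), S₀ ⊆ S → S ⊆ S' →
    ∫ ξ, (((TT μ a S' u ξ e : unitInterval) : ℝ) - TT μ a S u ξ e) ^ 2 ∂(PP (V × ℕ)) ≤ ε := by
  classical
  obtain ⟨A, hA⟩ := exists_finite_relevant hsum (a := a) (r := r) e (τ := ε / 9) (by positivity)
  set CA := ∑ i ∈ A, infl K a r e i ^ 2 with hCA
  have hCA0 : 0 ≤ CA := Finset.sum_nonneg fun i _ => sq_nonneg _
  set δ := ε / (9 * ((CA + 1) * (A.card + 1))) with hδ
  have hδ0 : 0 < δ := by positivity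
  choose R hR1 hR2 using fun x => exists_saturating (μ := μ) ha ha1 u x hδ0
  refine ⟨A ∪ A.biUnion R ∪ {e}, fun S S' hS hSS' => ?_⟩
  have heS : e ∈ S := hS (by simp)
  have hAS : A ⊆ S := fun x hx => hS (by simp [hx])
  have hRS : ∀ i ∈ A, R i ⊆ S := fun i hi x hx => hS (by
    simp only [Finset.mem_union, Finset.mem_biUnion]
    exact Or.inl (Or.inr ⟨i, hi, hx⟩))
  refine (TT_compare ha ha1 hr hD hK hC hu heS hAS hSS' (τ := ε / 9) (δ := δ) hA ?_).trans ?_
  · intro i hi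
    have h1 : MM μ a i.1 (R i) ≤ MM μ a i.1 (pred S u i) := by
      refine MM_mono ha ha1 i.1 fun x hx => ?_
      exact mem_pred.2 ⟨hRS i hi hx, hR1 i x hx⟩
    have h2 := hR2 i (pred S' u i) fun y hy => (mem_pred.1 hy).2
    linarith
  · have h1 : CA * (A.card * δ) ≤ ε / 9 := by
      have h2 : CA * A.card ≤ (CA + 1) * (A.card + 1) := by nlinarith [Nat.cast_nonneg (α := ℝ) A.card]
      have h3 : 0 < (CA + 1) * ((A.card : ℝ) + 1) := by positivity
      calc CA * (A.card * δ) = (CA * A.card) * δ := by ring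
        _ ≤ ((CA + 1) * (A.card + 1)) * δ := mul_le_mul_of_nonneg_right h2 hδ0.le
        _ = ε / 9 := by rw [hδ]; field_simp
    linarith

end Vale.Agent.P161
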