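import Vale.Agent.Lib.P161.Core5

/-!
P161, core part 6: averages of the signals are close to the spins.
-/

open MeasureTheory

namespace Vale.Agent.P161

variable {V : Type*}

/-- Integrating out one signal, for fixed spins. -/
theorem integral_lik_insert [DecidableEq V] {a : ℝ} (ha : 0 ≤ a) (ha1 : a < 1)
    {R : Finset (V × ℕ)} {x : V × ℕ} (hx : x ∉ R) (σ : V → Bool)
    {φ : (V × ℕ → unitInterval) → ℝ} (hφ : Measurable φ) {B : ℝ} (hB : ∀ t, |φ t| ≤ B)
    (hdep : ∀ t y, φ (Function.update t x y) = φ t)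
    {p : unitInterval → ℝ} (hp : Measurable p) {B' : ℝ} (hB' : ∀ y, |p y| ≤ B') :
    ∫ t, φ t * p (t x) * lik a (insert x R) t σ ∂(PP (V × ℕ)) =
      (∫ y, p y * (1 + a * spin (σ x.1) * (2 * (y : ℝ) - 1))) *
        ∫ t, φ t * lik a R t σ ∂(PP (V × ℕ)) := by
  have hB0 : 0 ≤ B := (abs_nonneg _).trans (hB fun _ => 0)
  have hB0' : 0 ≤ B' := (abs_nonneg _).trans (hB' 0)
  have hlm : ∀ R : Finset (V × ℕ), Measurable fun t : V × ℕ → unitInterval => lik a R t σ :=
    fun R => (measurable_lik a R).comp (f := fun t => (t, σ)) (measurable_id.prodMk measurable_const)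
  have hm : Measurable fun t : V × ℕ → unitInterval => φ t * p (t x) * lik a (insert x R) t σ :=
    (hφ.mul (hp.comp (measurable_pi_apply x))).mul (hlm _)
  have hb : ∀ t : V × ℕ → unitInterval, |φ t * p (t x) * lik a (insert x R) t σ| ≤
      B * B' * (1 + a) ^ (insert x R).card := by
    intro t
    rw [abs_mul, abs_mul]
    exact mul_le_mul (mul_le_mul (hB t) (hB' _) (abs_nonneg _) hB0) (abs_lik_le ha ha1 _ t σ)
      (abs_nonneg _) (by positivity)
  rw [← integral_update x hm _ hb, ← integral_const_mul]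
  refine integral_congr_ae (Filter.Eventually.of_forall fun t => ?_)
  have hlc : ∀ y : unitInterval, lik a R (Function.update t x y) σ = lik a R t σ := by
    intro y
    refine lik_congr a (fun z hz => ?_) σ
    have : z ≠ x := fun hzx => hx (hzx ▸ hz)
    rw [Function.update_of_ne this]
  have h1 : ∀ y : unitInterval, φ (Function.update t x y) * p (Function.update t x y x) *
      lik a (insert x R) (Function.update t x y) σ =
      (p y * (1 + a * spin (σ x.1) * (2 * (y : ℝ) - 1))) * (φ t * lik a R t σ) := by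
    intro y
    rw [hdep, lik_insert a hx, hlc, Function.update_self]; ring
  simp_rw [h1]
  rw [integral_mul_const]

theorem integral_one_factor (κ : ℝ) :
    ∫ y : unitInterval, (1 : ℝ) * (1 + κ * (2 * (y : ℝ) - 1)) = 1 := by
  simp_rw [one_mul]; exact integral_unit_density κ

theorem integrable_unit {f : unitInterval → ℝ} (hf : Continuous f) :
    Integrable f (volume : Measure unitInterval) := by
  obtain ⟨C, hC⟩ := isCompact_univ.exists_bound_of_continuousOn hf.continuousOn
  exact Integrable.of_bound hf.aestronglyMeasurable C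
    (Filter.Eventually.of_forall fun x => hC x (Set.mem_univ x))

theorem integral_centered_factor (κ : ℝ) :
    ∫ y : unitInterval, ((2 * (y : ℝ) - 1) - κ / 3) * (1 + κ * (2 * (y : ℝ) - 1)) = 0 := by
  have h : ∀ y : unitInterval, ((2 * (y : ℝ) - 1) - κ / 3) * (1 + κ * (2 * (y : ℝ) - 1)) =
      (2 * (y : ℝ) - 1) * (1 + κ * (2 * (y : ℝ) - 1)) -
        κ / 3 * (1 + κ * (2 * (y : ℝ) - 1)) := fun y => by ring
  simp_rw [h]
  rw [integral_sub (integrable_unit (by fun_prop)) (integrable_unit (by fun_prop)),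
    integral_signal_mul, integral_const_mul, integral_unit_density]
  ring

theorem integral_centered_sq_factor (κ : ℝ) :
    ∫ y : unitInterval, ((2 * (y : ℝ) - 1) - κ / 3) ^ 2 * (1 + κ * (2 * (y : ℝ) - 1)) ≤ 1 / 3 := by
  have h : ∀ y : unitInterval, ((2 * (y : ℝ) - 1) - κ / 3) ^ 2 * (1 + κ * (2 * (y : ℝ) - 1)) =
      (2 * (y : ℝ) - 1) ^ 2 * (1 + κ * (2 * (y : ℝ) - 1)) -
        (2 * κ / 3 * ((2 * (y : ℝ) - 1) * (1 + κ * (2 * (y : ℝ) - 1))) -
        (κ / 3) ^ 2 * (1 + κ * (2 * (y : ℝ) - 1))) := fun y => by ring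
  simp_rw [h]
  rw [integral_sub (integrable_unit (by fun_prop)) (integrable_unit (by fun_prop)),
    integral_sub (integrable_unit (by fun_prop)) (integrable_unit (by fun_prop)),
    integral_signal_sq_mul, integral_const_mul, integral_const_mul, integral_signal_mul,
    integral_unit_density]
  nlinarith [sq_nonneg κ]

/-- Total mass one for fixed spins. -/
theorem integral_lik_one {a : ℝ} (ha : 0 ≤ a) (ha1 : a < 1) (S : Finset (V × ℕ))
    (σ : V → Bool) : ∫ t, lik a S t σ ∂(PP (V × ℕ)) = 1 := by
  classical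
  induction S using Finset.induction_on with
  | empty => simp [lik]
  | insert x R hx ih =>
    have h := integral_lik_insert ha ha1 hx σ (φ := fun _ => 1) measurable_const (B := 1)
      (fun _ => by simp) (fun _ _ => rfl) (p := fun _ => 1) measurable_const (B' := 1)
      (fun _ => by simp)
    simp only [one_mul, mul_one] at h
    rw [h, ih, mul_one]
    exact integral_unit_density _

/-- Centred partial sums of the signals at `v`. -/
noncomputable def BB (a : ℝ) (K : ℕ) (v : V) (t : V × ℕ → unitInterval) (σ : V → Bool) : ℝ :=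
  ∑ k ∈ Finset.range K, ((2 * (t (v, k) : ℝ) - 1) - a * spin (σ v) / 3)

theorem measurable_BB (a : ℝ) (K : ℕ) (v : V) :
    Measurable fun p : (V × ℕ → unitInterval) × (V → Bool) => BB a K v p.1 p.2 := by
  unfold BB
  refine Finset.measurable_sum _ fun k _ => ?_
  refine Measurable.sub (Measurable.sub (measurable_const.mul ?_) measurable_const) ?_
  · exact measurable_subtype_coe.comp ((measurable_pi_apply (v, k)).comp measurable_fst)
  · exact (measurable_const.mul (measurable_spin.comp
      ((measurable_pi_apply v).comp measurable_snd))).div_const 3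

theorem abs_BB_term_le {a : ℝ} (ha : 0 ≤ a) (ha1 : a < 1) (y : unitInterval) (b : Bool) :
    |(2 * (y : ℝ) - 1) - a * spin b / 3| ≤ 2 := by
  have h1 := abs_two_mul_sub_one_le y
  have h2 : |a * spin b / 3| ≤ 1 := by
    rw [abs_div, abs_mul, abs_spin27, abs_of_nonneg ha]; norm_num; linarith
  calc _ ≤ |2 * (y : ℝ) - 1| + |a * spin b / 3| := abs_sub _ _
    _ ≤ 2 := by linarith

theorem abs_BB_le {a : ℝ} (ha : 0 ≤ a) (ha1 : a < 1) (K : ℕ) (v : V)
    (t : V × ℕ → unitInterval) (σ : V → Bool) : |BB a K v t σ| ≤ K * 2 := by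
  unfold BB
  refine (Finset.abs_sum_le_sum_abs _ _).trans ?_
  refine (Finset.sum_le_sum fun k _ => abs_BB_term_le ha ha1 (t (v, k)) (σ v)).trans ?_
  simp

/-- Second moment of the centred sums. -/
theorem integral_BB_sq {a : ℝ} (ha : 0 ≤ a) (ha1 : a < 1) (S : Finset (V × ℕ)) (v : V)
    (σ : V → Bool) (K : ℕ) (hK : ∀ k < K, (v, k) ∈ S) :
    ∫ t, BB a K v t σ ^ 2 * lik a S t σ ∂(PP (V × ℕ)) ≤ K / 3 := by
  classical
  induction K with
  | zero => simp [BB]
  | succ K ih =>
    have ih' := ih fun k hk => hK k (by omega)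
    set x : V × ℕ := (v, K) with hx
    have hxS : x ∈ S := hK K (by omega)
    set R := S.erase x with hR
    have hxR : x ∉ R := Finset.notMem_erase x S
    have hins : insert x R = S := Finset.insert_erase hxS
    set p : unitInterval → ℝ := fun y => (2 * (y : ℝ) - 1) - a * spin (σ v) / 3 with hp
    have hpm : Measurable p := by
      refine Measurable.sub (Measurable.sub (measurable_const.mul measurable_subtype_coe)
        measurable_const) measurable_const
    have hpb : ∀ y, |p y| ≤ 2 := fun y => abs_BB_term_le ha ha1 y (σ v)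
    have hBm : Measurable fun t : V × ℕ → unitInterval => BB a K v t σ :=
      (measurable_BB a K v).comp (f := fun t => (t, σ)) (measurable_id.prodMk measurable_const)
    have hBb : ∀ t, |BB a K v t σ| ≤ K * 2 := fun t => abs_BB_le ha ha1 K v t σ
    have hBdep : ∀ t y, BB a K v (Function.update t x y) σ = BB a K v t σ := by
      intro t y
      unfold BB
      refine Finset.sum_congr rfl fun k hk => ?_
      have : ((v, k) : V × ℕ) ≠ x := by
        intro h
        have h2 : k = K := congrArg Prod.snd h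
        simp only [Finset.mem_range] at hk
        omega
      rw [Function.update_of_ne this]
    have hlm : Measurable fun t : V × ℕ → unitInterval => lik a S t σ :=
      (measurable_lik a S).comp (f := fun t => (t, σ)) (measurable_id.prodMk measurable_const)
    have hexp : ∀ t : V × ℕ → unitInterval, BB a (K + 1) v t σ ^ 2 * lik a S t σ =
        (BB a K v t σ ^ 2 * lik a S t σ + 2 * (BB a K v t σ * p (t x) * lik a S t σ)) +
        (fun y => p y ^ 2) (t x) * lik a S t σ := by
      intro t
      have h1 : BB a (K + 1) v t σ = BB a K v t σ + p (t x) := by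
        unfold BB; rw [Finset.sum_range_succ]
      rw [h1]; ring
    simp_rw [hexp]
    have hlb : ∀ t : V × ℕ → unitInterval, |lik a S t σ| ≤ (1 + a) ^ S.card :=
      fun t => abs_lik_le ha ha1 S t σ
    have i1 : Integrable (fun t => BB a K v t σ ^ 2 * lik a S t σ) (PP (V × ℕ)) := by
      refine integrable_of_abs_le ((hBm.pow_const 2).mul hlm)
        (C := (K * 2) ^ 2 * (1 + a) ^ S.card) fun t => ?_
      rw [abs_mul, abs_pow]
      exact mul_le_mul (pow_le_pow_left₀ (abs_nonneg _) (hBb t) 2) (hlb t) (abs_nonneg _)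
        (by positivity)
    have i2 : Integrable (fun t => BB a K v t σ * p (t x) * lik a S t σ) (PP (V × ℕ)) := by
      refine integrable_of_abs_le ((hBm.mul (hpm.comp (measurable_pi_apply x))).mul hlm)
        (C := (K * 2) * 2 * (1 + a) ^ S.card) fun t => ?_
      rw [abs_mul, abs_mul]
      exact mul_le_mul (mul_le_mul (hBb t) (hpb _) (abs_nonneg _) (by positivity)) (hlb t)
        (abs_nonneg _) (by positivity)
    have i3 : Integrable (fun t : V × ℕ → unitInterval =>
        (fun y => p y ^ 2) (t x) * lik a S t σ) (PP (V × ℕ)) := by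
      refine integrable_of_abs_le (((hpm.pow_const 2).comp (measurable_pi_apply x)).mul hlm)
        (C := 2 ^ 2 * (1 + a) ^ S.card) fun t => ?_
      rw [abs_mul]
      refine mul_le_mul ?_ (hlb t) (abs_nonneg _) (by positivity)
      simp only [abs_pow]
      exact pow_le_pow_left₀ (abs_nonneg _) (hpb _) 2
    have i12 : Integrable (fun t => BB a K v t σ ^ 2 * lik a S t σ +
        2 * (BB a K v t σ * p (t x) * lik a S t σ)) (PP (V × ℕ)) := i1.add (i2.const_mul 2)
    rw [integral_add i12 i3, integral_add i1 (i2.const_mul 2), integral_const_mul]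
    have e2 : ∫ t, BB a K v t σ * p (t x) * lik a S t σ ∂(PP (V × ℕ)) = 0 := by
      have h := integral_lik_insert ha ha1 hxR σ hBm hBb hBdep hpm hpb
      rw [hins] at h
      rw [h]
      have h0 : ∫ y, p y * (1 + a * spin (σ x.1) * (2 * (y : ℝ) - 1)) = 0 :=
        integral_centered_factor (a * spin (σ v))
      rw [h0, zero_mul]
    have e3 : ∫ t, (fun y => p y ^ 2) (t x) * lik a S t σ ∂(PP (V × ℕ)) ≤ 1 / 3 := by
      have h := integral_lik_insert ha ha1 hxR σ (φ := fun _ => 1) measurable_const (B := 1)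
        (fun _ => by simp) (fun _ _ => rfl) (p := fun y => p y ^ 2) (hpm.pow_const 2)
        (B' := 2 ^ 2) (fun y => by
          rw [abs_pow]; exact pow_le_pow_left₀ (abs_nonneg _) (hpb _) 2)
      rw [hins] at h
      simp only [one_mul] at h
      simp only
      rw [h, integral_lik_one ha ha1, mul_one]
      exact integral_centered_sq_factor (a * spin (σ v))
    rw [e2, mul_zero, add_zero]
    push_cast
    linarith

/-- Normalised averages of the signals at `v`. -/
noncomputable def YY (a : ℝ) (K : ℕ) (v : V) (t : V × ℕ → unitInterval) : ℝ :=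
  3 / (a * K) * ∑ k ∈ Finset.range K, (2 * (t (v, k) : ℝ) - 1)

theorem measurable_YY (a : ℝ) (K : ℕ) (v : V) :
    Measurable fun t : V × ℕ → unitInterval => YY a K v t := by
  unfold YY
  refine measurable_const.mul (Finset.measurable_sum _ fun k _ => ?_)
  exact (measurable_const.mul (measurable_subtype_coe.comp (measurable_pi_apply _))).sub
    measurable_const

theorem abs_YY_le {a : ℝ} (ha : 0 < a) {K : ℕ} (hK : 0 < K) (v : V)
    (t : V × ℕ → unitInterval) : |YY a K v t| ≤ 3 / a := by
  unfold YY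
  have hK' : (0 : ℝ) < K := by exact_mod_cast hK
  rw [abs_mul, abs_of_pos (by positivity : (0:ℝ) < 3 / (a * K))]
  have h1 : |∑ k ∈ Finset.range K, (2 * (t (v, k) : ℝ) - 1)| ≤ K := by
    refine (Finset.abs_sum_le_sum_abs _ _).trans ?_
    refine (Finset.sum_le_sum fun k _ => abs_two_mul_sub_one_le (t (v, k))).trans ?_
    simp
  calc 3 / (a * K) * |∑ k ∈ Finset.range K, (2 * (t (v, k) : ℝ) - 1)| ≤ 3 / (a * K) * K :=
        mul_le_mul_of_nonneg_left h1 (by positivity)
    _ = 3 / a := by field_simp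

theorem YY_sub_spin {a : ℝ} (ha : 0 < a) {K : ℕ} (hK : 0 < K) (v : V)
    (t : V × ℕ → unitInterval) (σ : V → Bool) :
    YY a K v t - spin (σ v) = 3 / (a * K) * BB a K v t σ := by
  unfold YY BB
  have hK' : (0 : ℝ) < K := by exact_mod_cast hK
  have h1 : ∑ k ∈ Finset.range K, ((2 * (t (v, k) : ℝ) - 1) - a * spin (σ v) / 3) =
      ∑ k ∈ Finset.range K, (2 * (t (v, k) : ℝ) - 1) - K * (a * spin (σ v) / 3) := by
    rw [Finset.sum_sub_distrib, Finset.sum_const, Finset.card_range, nsmul_eq_mul]
  rw [h1, mul_sub]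
  congr 1
  field_simp

/-- The averages are close to the spins, for fixed spins. -/
theorem integral_YY_sub_sq {a : ℝ} (ha : 0 < a) (ha1 : a < 1) (S : Finset (V × ℕ)) (v : V)
    (σ : V → Bool) {K : ℕ} (hK0 : 0 < K) (hK : ∀ k < K, (v, k) ∈ S) :
    ∫ t, (YY a K v t - spin (σ v)) ^ 2 * lik a S t σ ∂(PP (V × ℕ)) ≤ 3 / (a ^ 2 * K) := by
  have hK' : (0 : ℝ) < K := by exact_mod_cast hK0
  have h1 : ∀ t : V × ℕ → unitInterval, (YY a K v t - spin (σ v)) ^ 2 * lik a S t σ =
      (3 / (a * K)) ^ 2 * (BB a K v t σ ^ 2 * lik a S t σ) := by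
    intro t; rw [YY_sub_spin ha hK0]; ring
  simp_rw [h1]
  rw [integral_const_mul]
  calc (3 / (a * K)) ^ 2 * ∫ t, BB a K v t σ ^ 2 * lik a S t σ ∂(PP (V × ℕ))
      ≤ (3 / (a * K)) ^ 2 * (K / 3) :=
        mul_le_mul_of_nonneg_left (integral_BB_sq ha.le ha1 S v σ K hK) (by positivity)
    _ = 3 / (a ^ 2 * K) := by field_simp

section joint

variable {μ : Measure (V → Bool)} [IsProbabilityMeasure μ]

/-- Exchange of the order of integration. -/
theorem integral_mul_WW_eq {a : ℝ} (ha : 0 ≤ a) (ha1 : a < 1) (S : Finset (V × ℕ))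
    {F : (V × ℕ → unitInterval) → ℝ} (hF : Measurable F) {B : ℝ} (hB : ∀ t, |F t| ≤ B) :
    ∫ t, F t * WW μ a S t ∂(PP (V × ℕ)) =
      ∫ σ, ∫ t, F t * lik a S t σ ∂(PP (V × ℕ)) ∂μ := by
  have h1 : ∀ t, F t * WW μ a S t = ∫ σ, F t * lik a S t σ ∂μ := by
    intro t; unfold WW; rw [integral_const_mul]
  simp_rw [h1]
  rw [integral_integral_swap]
  refine Integrable.of_bound (C := B * (1 + a) ^ S.card) ?_ ?_
  · exact ((hF.comp measurable_fst).mul (measurable_lik a S)).aestronglyMeasurable
  · refine Filter.Eventually.of_forall fun p => ?_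
    rw [Function.uncurry, Real.norm_eq_abs, abs_mul]
    exact mul_le_mul (hB _) (abs_lik_le ha ha1 S _ _) (abs_nonneg _)
      ((abs_nonneg _).trans (hB p.1))

/-- `L²` distance between two averages under the law of the signals. -/
theorem integral_YY_sub_YY_sq {a : ℝ} (ha : 0 < a) (ha1 : a < 1) (S : Finset (V × ℕ)) (v : V)
    {K L : ℕ} (hK0 : 0 < K) (hL0 : 0 < L) (hK : ∀ k < K, (v, k) ∈ S) (hL : ∀ k < L, (v, k) ∈ S) :
    ∫ t, (YY a K v t - YY a L v t) ^ 2 * WW μ a S t ∂(PP (V × ℕ)) ≤
      2 * (3 / (a ^ 2 * K) + 3 / (a ^ 2 * L)) := by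
  have hbK := abs_YY_le (V := V) ha hK0 v
  have hbL := abs_YY_le (V := V) ha hL0 v
  have h3a : (0:ℝ) ≤ 3 / a := by positivity
  have hswap := integral_mul_WW_eq (μ := μ) ha.le ha1 S
    (F := fun t => (YY a K v t - YY a L v t) ^ 2)
    (((measurable_YY a K v).sub (measurable_YY a L v)).pow_const 2)
    (B := (3 / a + 3 / a) ^ 2) (fun t => by
      rw [abs_pow]
      exact pow_le_pow_left₀ (abs_nonneg _) ((abs_sub _ _).trans (add_le_add (hbK t) (hbL t))) 2)
  rw [hswap]
  have hlm : ∀ σ, Measurable fun t : V × ℕ → unitInterval => lik a S t σ := fun σ =>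
    (measurable_lik a S).comp (f := fun t => (t, σ)) (measurable_id.prodMk measurable_const)
  have hint : ∀ (M : ℕ) (hM : 0 < M) (σ : V → Bool), Integrable
      (fun t => (YY a M v t - spin (σ v)) ^ 2 * lik a S t σ) (PP (V × ℕ)) := by
    intro M hM σ
    refine integrable_of_abs_le ((((measurable_YY a M v).sub_const _).pow_const 2).mul (hlm σ))
      (C := (3 / a + 1) ^ 2 * (1 + a) ^ S.card) fun t => ?_
    rw [abs_mul, abs_pow]
    refine mul_le_mul (pow_le_pow_left₀ (abs_nonneg _) ((abs_sub _ _).trans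
      (add_le_add (abs_YY_le ha hM v t) (abs_spin27 _).le)) 2) (abs_lik_le ha.le ha1 S t σ)
      (abs_nonneg _) (by positivity)
  have hpt : ∀ σ, ∫ t, (YY a K v t - YY a L v t) ^ 2 * lik a S t σ ∂(PP (V × ℕ)) ≤
      2 * (3 / (a ^ 2 * K) + 3 / (a ^ 2 * L)) := by
    intro σ
    calc ∫ t, (YY a K v t - YY a L v t) ^ 2 * lik a S t σ ∂(PP (V × ℕ))
        ≤ ∫ t, (2 * ((YY a K v t - spin (σ v)) ^ 2 * lik a S t σ) +
            2 * ((YY a L v t - spin (σ v)) ^ 2 * lik a S t σ)) ∂(PP (V × ℕ)) := by
          refine integral_mono ?_ (((hint K hK0 σ).const_mul 2).add ((hint L hL0 σ).const_mul 2))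
            fun t => ?_
          · refine integrable_of_abs_le ((((measurable_YY a K v).sub
              (measurable_YY a L v)).pow_const 2).mul (hlm σ))
              (C := (3 / a + 3 / a) ^ 2 * (1 + a) ^ S.card) fun t => ?_
            rw [abs_mul, abs_pow]
            exact mul_le_mul (pow_le_pow_left₀ (abs_nonneg _) ((abs_sub _ _).trans
              (add_le_add (hbK t) (hbL t))) 2) (abs_lik_le ha.le ha1 S t σ)
              (abs_nonneg _) (by positivity)
          · have hl := (lik_pos ha.le ha1 S t σ).le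
            simp only
            nlinarith [mul_nonneg (sq_nonneg ((YY a K v t - spin (σ v)) +
              (YY a L v t - spin (σ v)))) hl]
      _ = 2 * (∫ t, (YY a K v t - spin (σ v)) ^ 2 * lik a S t σ ∂(PP (V × ℕ))) +
            2 * ∫ t, (YY a L v t - spin (σ v)) ^ 2 * lik a S t σ ∂(PP (V × ℕ)) := by
          rw [integral_add ((hint K hK0 σ).const_mul 2) ((hint L hL0 σ).const_mul 2),
            integral_const_mul, integral_const_mul]
      _ ≤ _ := by
          have h1 := integral_YY_sub_sq ha ha1 S v σ hK0 hK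
          have h2 := integral_YY_sub_sq ha ha1 S v σ hL0 hL
          linarith
  calc _ ≤ ∫ _σ : V → Bool, 2 * (3 / (a ^ 2 * K) + 3 / (a ^ 2 * L)) ∂μ := by
        refine integral_mono_of_nonneg (Filter.Eventually.of_forall fun σ =>
          integral_nonneg fun t => mul_nonneg (sq_nonneg _) (lik_pos ha.le ha1 S t σ).le)
          (integrable_const _) (Filter.Eventually.of_forall hpt)
    _ = _ := by simp

/-- Test functions of the averages have almost the same expectation as the same functions of
the spins. -/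
theorem abs_integral_test_le {a : ℝ} (ha : 0 < a) (ha1 : a < 1) (S : Finset (V × ℕ))
    (V₀ : Finset V) {K : ℕ} (hK0 : 0 < K) (hK : ∀ v ∈ V₀, ∀ k < K, (v, k) ∈ S)
    {φ : (V → ℝ) → ℝ} (hφm : Measurable φ) (hφb : ∀ x, |φ x| ≤ 1) {L : ℝ} (hL0 : 0 ≤ L)
    (hφL : ∀ x y : V → ℝ, |φ x - φ y| ≤ L * ∑ v ∈ V₀, |x v - y v|) {ε : ℝ} (hε : 0 < ε)
    (hKε : 3 / (a ^ 2 * K) ≤ ε ^ 2) :
    |(∫ t, φ (fun v => YY a K v t) * WW μ a S t ∂(PP (V × ℕ))) -
      ∫ σ, φ (fun v => spin (σ v)) ∂μ| ≤ L * (V₀.card * ε) := by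
  have hYm : Measurable fun t : V × ℕ → unitInterval => φ (fun v => YY a K v t) :=
    hφm.comp (measurable_pi_lambda _ fun v => measurable_YY a K v)
  have hSm : Measurable fun σ : V → Bool => φ (fun v => spin (σ v)) :=
    hφm.comp (measurable_pi_lambda _ fun v => measurable_spin.comp (measurable_pi_apply v))
  rw [integral_mul_WW_eq ha.le ha1 S hYm (B := 1) fun t => hφb _]
  have hlm : ∀ σ, Measurable fun t : V × ℕ → unitInterval => lik a S t σ := fun σ =>
    (measurable_lik a S).comp (f := fun t => (t, σ)) (measurable_id.prodMk measurable_const)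
  have hI1 : ∀ σ, Integrable (fun t => φ (fun v => YY a K v t) * lik a S t σ) (PP (V × ℕ)) := by
    intro σ
    refine integrable_of_abs_le (hYm.mul (hlm σ)) (C := 1 * (1 + a) ^ S.card) fun t => ?_
    rw [abs_mul]
    exact mul_le_mul (hφb _) (abs_lik_le ha.le ha1 S t σ) (abs_nonneg _) zero_le_one
  have hI2 : ∀ σ, Integrable (fun t => φ (fun v => spin (σ v)) * lik a S t σ) (PP (V × ℕ)) := by
    intro σ
    refine integrable_of_abs_le (measurable_const.mul (hlm σ)) (C := 1 * (1 + a) ^ S.card)
      fun t => ?_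
    rw [abs_mul]
    exact mul_le_mul (hφb _) (abs_lik_le ha.le ha1 S t σ) (abs_nonneg _) zero_le_one
  have hE : ∀ σ, φ (fun v => spin (σ v)) =
      ∫ t, φ (fun v => spin (σ v)) * lik a S t σ ∂(PP (V × ℕ)) := by
    intro σ
    rw [integral_const_mul, integral_lik_one ha.le ha1, mul_one]
  have hpt : ∀ σ, |(∫ t, φ (fun v => YY a K v t) * lik a S t σ ∂(PP (V × ℕ))) -
      φ (fun v => spin (σ v))| ≤ L * (V₀.card * ε) := by
    intro σ
    conv_lhs => rw [hE σ]
    rw [← integral_sub (hI1 σ) (hI2 σ)]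
    have hI3 : ∀ v ∈ V₀, Integrable (fun t => |YY a K v t - spin (σ v)| * lik a S t σ)
        (PP (V × ℕ)) := by
      intro v _
      refine integrable_of_abs_le (Measurable.mul (((measurable_YY a K v).sub_const _).abs)
        (hlm σ)) (C := (3 / a + 1) * (1 + a) ^ S.card) fun t => ?_
      rw [abs_mul, abs_abs]
      exact mul_le_mul ((abs_sub _ _).trans (add_le_add (abs_YY_le ha hK0 v t) (abs_spin27 _).le))
        (abs_lik_le ha.le ha1 S t σ) (abs_nonneg _) (by positivity)
    have hstep : ∀ v ∈ V₀, ∫ t, |YY a K v t - spin (σ v)| * lik a S t σ ∂(PP (V × ℕ)) ≤ ε := by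
      intro v hv
      -- `|y| ≤ y²/(2ε) + ε/2`
      have h1 : ∀ t, |YY a K v t - spin (σ v)| * lik a S t σ ≤
          1 / (2 * ε) * ((YY a K v t - spin (σ v)) ^ 2 * lik a S t σ) +
            ε / 2 * lik a S t σ := by
        intro t
        have hl := (lik_pos ha.le ha1 S t σ).le
        have h2 : |YY a K v t - spin (σ v)| ≤
            1 / (2 * ε) * (YY a K v t - spin (σ v)) ^ 2 + ε / 2 := by
          have h3 := sq_nonneg (|YY a K v t - spin (σ v)| - ε)
          rw [← sq_abs (YY a K v t - spin (σ v))]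
          rw [div_mul_eq_mul_div, one_mul, ← sub_le_iff_le_add, le_div_iff₀ (by positivity)]
          nlinarith
        calc _ ≤ (1 / (2 * ε) * (YY a K v t - spin (σ v)) ^ 2 + ε / 2) * lik a S t σ :=
              mul_le_mul_of_nonneg_right h2 hl
          _ = _ := by ring
      have hI4 : Integrable (fun t => (YY a K v t - spin (σ v)) ^ 2 * lik a S t σ)
          (PP (V × ℕ)) := by
        refine integrable_of_abs_le ((((measurable_YY a K v).sub_const _).pow_const 2).mul (hlm σ))
          (C := (3 / a + 1) ^ 2 * (1 + a) ^ S.card) fun t => ?_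
        rw [abs_mul, abs_pow]
        refine mul_le_mul (pow_le_pow_left₀ (abs_nonneg _) ((abs_sub _ _).trans
          (add_le_add (abs_YY_le ha hK0 v t) (abs_spin27 _).le)) 2) (abs_lik_le ha.le ha1 S t σ)
          (abs_nonneg _) (by positivity)
      have hI5 : Integrable (fun t => lik a S t σ) (PP (V × ℕ)) :=
        integrable_of_abs_le (hlm σ) fun t => abs_lik_le ha.le ha1 S t σ
      refine (integral_mono (hI3 v hv) ((hI4.const_mul _).add (hI5.const_mul _)) h1).trans ?_
      simp only [Pi.add_apply]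
      rw [integral_add (hI4.const_mul _) (hI5.const_mul _), integral_const_mul,
        integral_const_mul, integral_lik_one ha.le ha1, mul_one]
      have h5 := (integral_YY_sub_sq ha ha1 S v σ hK0 (hK v hv)).trans hKε
      calc _ ≤ 1 / (2 * ε) * ε ^ 2 + ε / 2 := by
            have := mul_le_mul_of_nonneg_left h5 (by positivity : (0:ℝ) ≤ 1 / (2 * ε))
            linarith
        _ = ε := by field_simp; ring
    calc |∫ t, (φ (fun v => YY a K v t) * lik a S t σ -
          φ (fun v => spin (σ v)) * lik a S t σ) ∂(PP (V × ℕ))|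
        ≤ ∫ t, |φ (fun v => YY a K v t) * lik a S t σ -
          φ (fun v => spin (σ v)) * lik a S t σ| ∂(PP (V × ℕ)) := abs_integral_le_integral_abs
      _ ≤ ∫ t, L * ∑ v ∈ V₀, |YY a K v t - spin (σ v)| * lik a S t σ ∂(PP (V × ℕ)) := by
          refine integral_mono ((hI1 σ).sub (hI2 σ)).abs
            ((integrable_finsetSum _ hI3).const_mul L) fun t => ?_
          simp only
          rw [← sub_mul, abs_mul, abs_of_pos (lik_pos ha.le ha1 S t σ), ← Finset.sum_mul,
            ← mul_assoc]
          exact mul_le_mul_of_nonneg_right (hφL _ _) (lik_pos ha.le ha1 S t σ).le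
      _ = L * ∑ v ∈ V₀, ∫ t, |YY a K v t - spin (σ v)| * lik a S t σ ∂(PP (V × ℕ)) := by
          rw [integral_const_mul, integral_finsetSum _ hI3]
      _ ≤ L * ∑ v ∈ V₀, ε := mul_le_mul_of_nonneg_left (Finset.sum_le_sum hstep) hL0
      _ = L * (V₀.card * ε) := by rw [Finset.sum_const, nsmul_eq_mul]
  have hJ1 : Integrable (fun σ => ∫ t, φ (fun v => YY a K v t) * lik a S t σ ∂(PP (V × ℕ))) μ := by
    refine integrable_of_bdd ?_ ((1 + a) ^ S.card) fun σ => ?_
    · refine StronglyMeasurable.measurable ?_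
      refine StronglyMeasurable.integral_prod_left'
        (f := fun p : (V × ℕ → unitInterval) × (V → Bool) =>
          φ (fun v => YY a K v p.1) * lik a S p.1 p.2) ?_
      exact ((hYm.comp measurable_fst).mul (measurable_lik a S)).stronglyMeasurable
    · have := norm_integral_le_of_norm_le_const (μ := PP (V × ℕ))
        (f := fun t => φ (fun v => YY a K v t) * lik a S t σ) (C := (1 + a) ^ S.card)
        (Filter.Eventually.of_forall fun t => by
          rw [Real.norm_eq_abs, abs_mul]
          calc _ ≤ 1 * (1 + a) ^ S.card :=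
                mul_le_mul (hφb _) (abs_lik_le ha.le ha1 S t σ) (abs_nonneg _) zero_le_one
            _ = _ := one_mul _)
      simpa using this
  have hJ2 : Integrable (fun σ : V → Bool => φ (fun v => spin (σ v))) μ :=
    integrable_of_bdd hSm 1 fun σ => hφb _
  rw [← integral_sub hJ1 hJ2]
  have := norm_integral_le_of_norm_le_const (μ := μ)
    (f := fun σ => (∫ t, φ (fun v => YY a K v t) * lik a S t σ ∂(PP (V × ℕ))) -
      φ (fun v => spin (σ v))) (C := L * (V₀.card * ε))
    (Filter.Eventually.of_forall fun σ => by rw [Real.norm_eq_abs]; exact hpt σ)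
  simpa using this

end joint

end Vale.Agent.P161
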