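import Vale.Agent.Lib.P161.Core6

/-!
P161, core part 7: joint `L²` convergence of the sampling maps and the limiting map.
-/

open MeasureTheory Filter

namespace Vale.Agent.P161

variable {V : Type*}

/-- Joint law of labels and noise. -/
noncomputable abbrev QQ (V : Type*) : Measure ((V → unitInterval) × (V × ℕ → unitInterval)) :=
  (PP V).prod (PP (V × ℕ))

/-- Almost surely all labels are distinct. -/
theorem ae_injective [Countable V] : ∀ᵐ u ∂(PP V), Function.Injective u := by
  classical
  have h : ∀ v w : V, ∀ᵐ u ∂(PP V), v ≠ w → u v ≠ u w := by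
    intro v w
    by_cases hvw : v = w
    · exact Eventually.of_forall fun u h => absurd hvw h
    · have hs : MeasurableSet {u : V → unitInterval | u v = u w} :=
        measurableSet_eq_fun (measurable_pi_apply v) (measurable_pi_apply w)
      have h0 : (PP V) {u : V → unitInterval | u v = u w} = 0 := by
        have h1 := lintegral_update v (f := ({u : V → unitInterval | u v = u w}).indicator 1)
          (measurable_one.indicator hs)
        rw [lintegral_indicator_one hs] at h1
        rw [← h1]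
        rw [lintegral_eq_zero_iff']
        · refine Eventually.of_forall fun u => ?_
          simp only [Pi.zero_apply]
          rw [lintegral_eq_zero_iff]
          · have hae : ∀ᵐ x ∂(volume : Measure unitInterval), x ≠ u w :=
              (Measure.ae_ne volume (u w))
            filter_upwards [hae] with x hx
            rw [Set.indicator_of_notMem]
            · rfl
            · simp only [Set.mem_setOf_eq, Function.update_self]
              rw [Function.update_of_ne (Ne.symm hvw)]
              exact hx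
          · exact (measurable_one.indicator hs).comp (measurable_update u)
        · refine Measurable.aemeasurable ?_
          exact Measurable.lintegral_prod_right'
            (f := fun p : (V → unitInterval) × unitInterval =>
              ({u : V → unitInterval | u v = u w}).indicator (1 : (V → unitInterval) → ENNReal)
                (Function.update p.1 v p.2))
            ((measurable_one.indicator hs).comp (measurable_update_uncurry v))
      have h2 : ∀ᵐ u ∂(PP V), ¬ (u v = u w) := by
        rw [ae_iff]; simpa using h0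
      filter_upwards [h2] with u hu _ using hu
  have h2 : ∀ᵐ u ∂(PP V), ∀ v w : V, v ≠ w → u v ≠ u w := by
    rw [ae_all_iff]; intro v
    rw [ae_all_iff]; exact h v
  filter_upwards [h2] with u hu v w hvw
  by_contra hne
  exact hu v w hne hvw

/-- Triangle inequality for mean square distances. -/
theorem integral_sq_triangle {α : Type*} [MeasurableSpace α] {P : Measure α} [IsFiniteMeasure P]
    {f g h : α → ℝ} (hf : Measurable f) (hg : Measurable g) (hh : Measurable h) {C : ℝ}
    (hfC : ∀ x, |f x| ≤ C) (hgC : ∀ x, |g x| ≤ C) (hhC : ∀ x, |h x| ≤ C) :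
    ∫ x, (f x - g x) ^ 2 ∂P ≤ 2 * ∫ x, (h x - f x) ^ 2 ∂P + 2 * ∫ x, (h x - g x) ^ 2 ∂P := by
  have hi : ∀ {f g : α → ℝ}, Measurable f → Measurable g → (∀ x, |f x| ≤ C) → (∀ x, |g x| ≤ C) →
      Integrable (fun x => (f x - g x) ^ 2) P := by
    intro f g hf hg hfC hgC
    refine Integrable.of_bound ((hf.sub hg).pow_const 2).aestronglyMeasurable ((C + C) ^ 2)
      (Eventually.of_forall fun x => ?_)
    rw [Real.norm_eq_abs, abs_pow]
    exact pow_le_pow_left₀ (abs_nonneg _) ((abs_sub _ _).trans (add_le_add (hfC x) (hgC x))) 2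
  rw [← integral_const_mul, ← integral_const_mul,
    ← integral_add ((hi hh hf hhC hfC).const_mul 2) ((hi hh hg hhC hgC).const_mul 2)]
  refine integral_mono (hi hf hg hfC hgC) (((hi hh hf hhC hfC).const_mul 2).add
    ((hi hh hg hhC hgC).const_mul 2)) fun x => ?_
  simp only
  nlinarith [sq_nonneg ((h x - f x) + (h x - g x))]

/-- Bounded measurable functions are integrable for `QQ V`. -/
theorem integrable_QQ {f : (V → unitInterval) × (V × ℕ → unitInterval) → ℝ} (hf : Measurable f)
    {C : ℝ} (hC : ∀ p, |f p| ≤ C) : Integrable f (QQ V) :=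
  Integrable.of_bound hf.aestronglyMeasurable C (Eventually.of_forall hC)

theorem measurable_TT_coord (μ : Measure (V → Bool)) [IsProbabilityMeasure μ] (a : ℝ)
    (S : Finset (V × ℕ)) (e : V × ℕ) :
    Measurable fun p : (V → unitInterval) × (V × ℕ → unitInterval) =>
      ((TT μ a S p.1 p.2 e : unitInterval) : ℝ) :=
  measurable_subtype_coe.comp ((measurable_pi_apply e).comp (measurable_TT μ a S))

/-- Law of the sampling map under the joint law. -/
theorem integral_TT_QQ [Countable V] {μ : Measure (V → Bool)} [IsProbabilityMeasure μ] {a : ℝ}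
    (ha : 0 ≤ a) (ha1 : a < 1) (S : Finset (V × ℕ)) {f : (V × ℕ → unitInterval) → ℝ}
    (hf : Measurable f) {C : ℝ} (hC : ∀ t, |f t| ≤ C) :
    ∫ p, f (TT μ a S p.1 p.2) ∂(QQ V) = ∫ t, f t * WW μ a S t ∂(PP (V × ℕ)) := by
  have hm : Measurable fun p : (V → unitInterval) × (V × ℕ → unitInterval) =>
      f (TT μ a S p.1 p.2) := hf.comp (measurable_TT μ a S)
  rw [integral_prod _ (integrable_QQ hm fun p => hC _)]
  have h1 : ∀ᵐ u ∂(PP V), ∫ ξ, f (TT μ a S u ξ) ∂(PP (V × ℕ)) =
      ∫ t, f t * WW μ a S t ∂(PP (V × ℕ)) := by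
    filter_upwards [ae_injective] with u hu
    exact integral_TT ha ha1 hu S hf
  rw [integral_congr_ae h1]
  simp

/-- Joint `L²` Cauchy property of the sampling maps. -/
def L2Cauchy (μ : Measure (V → Bool)) (a : ℝ) : Prop :=
  ∀ e : V × ℕ, ∀ ε : ℝ, 0 < ε → ∃ S₀ : Finset (V × ℕ), ∀ S S' : Finset (V × ℕ),
    S₀ ⊆ S → S₀ ⊆ S' →
      ∫ p, (((TT μ a S' p.1 p.2 e : unitInterval) : ℝ) - TT μ a S p.1 p.2 e) ^ 2 ∂(QQ V) ≤ ε

theorem TT_triangle {μ : Measure (V → Bool)} [IsProbabilityMeasure μ] (a : ℝ)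
    (u : V → unitInterval) (e : V × ℕ) (S S' T : Finset (V × ℕ)) :
    ∫ ξ, (((TT μ a S' u ξ e : unitInterval) : ℝ) - TT μ a S u ξ e) ^ 2 ∂(PP (V × ℕ)) ≤
    2 * (∫ ξ, (((TT μ a T u ξ e : unitInterval) : ℝ) - TT μ a S' u ξ e) ^ 2 ∂(PP (V × ℕ))) +
    2 * ∫ ξ, (((TT μ a T u ξ e : unitInterval) : ℝ) - TT μ a S u ξ e) ^ 2 ∂(PP (V × ℕ)) := by
  have hmu : ∀ T : Finset (V × ℕ), Measurable fun ξ : V × ℕ → unitInterval =>
      ((TT μ a T u ξ e : unitInterval) : ℝ) := fun T =>
    measurable_subtype_coe.comp ((measurable_pi_apply e).comp (measurable_TT_right μ a T u))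
  exact integral_sq_triangle (P := PP (V × ℕ))
    (f := fun ξ => ((TT μ a S' u ξ e : unitInterval) : ℝ))
    (g := fun ξ => ((TT μ a S u ξ e : unitInterval) : ℝ))
    (h := fun ξ => ((TT μ a T u ξ e : unitInterval) : ℝ)) (hmu S') (hmu S)
    (hmu T) (C := 1) (fun ξ => coe_unit_abs_le _)
    (fun ξ => coe_unit_abs_le _) (fun ξ => coe_unit_abs_le _)

/-- The `L²` Cauchy property for injective labels gives the joint one. -/
theorem L2Cauchy_of_injective [Countable V] {μ : Measure (V → Bool)} [IsProbabilityMeasure μ]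
    {a : ℝ}
    (h : ∀ u : V → unitInterval, Function.Injective u → ∀ e : V × ℕ, ∀ ε : ℝ, 0 < ε →
      ∃ S₀ : Finset (V × ℕ), ∀ S S' : Finset (V × ℕ), S₀ ⊆ S → S ⊆ S' →
      ∫ ξ, (((TT μ a S' u ξ e : unitInterval) : ℝ) - TT μ a S u ξ e) ^ 2 ∂(PP (V × ℕ)) ≤ ε) :
    L2Cauchy μ a := by
  classical
  intro e ε hε
  by_contra hcon
  push Not at hcon
  choose S S' hS hS' hlt using hcon
  obtain ⟨xs, -, hxs⟩ := exists_seq_monotone_tendsto_atTop_atTop (Finset (V × ℕ))
  set F : ℕ → (V → unitInterval) → ℝ := fun n u =>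
    ∫ ξ, (((TT μ a (S' (xs n)) u ξ e : unitInterval) : ℝ) - TT μ a (S (xs n)) u ξ e) ^ 2
      ∂(PP (V × ℕ)) with hF
  have hm : ∀ T T' : Finset (V × ℕ), Measurable
      fun p : (V → unitInterval) × (V × ℕ → unitInterval) =>
      (((TT μ a T' p.1 p.2 e : unitInterval) : ℝ) - TT μ a T p.1 p.2 e) ^ 2 := fun T T' =>
    ((measurable_TT_coord μ a T' e).sub (measurable_TT_coord μ a T e)).pow_const 2
  have hb : ∀ x y : unitInterval, |((x : ℝ) - y) ^ 2| ≤ 1 := by
    intro x y
    rw [abs_pow]
    exact pow_le_one₀ (abs_nonneg _) (unit_sub_abs_le x y)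
  have hFm : ∀ n, AEStronglyMeasurable (F n) (PP V) := by
    intro n
    exact (StronglyMeasurable.integral_prod_right' (ν := PP (V × ℕ))
      (hm (S (xs n)) (S' (xs n))).stronglyMeasurable).aestronglyMeasurable
  have hFb : ∀ n, ∀ᵐ u ∂(PP V), ‖F n u‖ ≤ (1 : ℝ) := by
    intro n
    refine Eventually.of_forall fun u => ?_
    have := norm_integral_le_of_norm_le_const (μ := PP (V × ℕ))
      (f := fun ξ => (((TT μ a (S' (xs n)) u ξ e : unitInterval) : ℝ) -
        TT μ a (S (xs n)) u ξ e) ^ 2) (C := 1) (Eventually.of_forall fun ξ => hb _ _)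
    simpa using this
  have hFlim : ∀ᵐ u ∂(PP V), Tendsto (fun n => F n u) atTop (nhds 0) := by
    filter_upwards [ae_injective] with u hu
    rw [Metric.tendsto_atTop]
    intro δ hδ
    obtain ⟨S₀, hS₀⟩ := h u hu e (δ / 8) (by positivity)
    obtain ⟨n₀, hn₀⟩ := (tendsto_atTop_atTop.1 hxs) S₀
    refine ⟨n₀, fun n hn => ?_⟩
    have h1 : S₀ ⊆ S (xs n) := (hn₀ n hn).trans (hS _)
    have h2 : S₀ ⊆ S' (xs n) := (hn₀ n hn).trans (hS' _)
    have k1 := hS₀ (S (xs n)) (S (xs n) ∪ S' (xs n)) h1 Finset.subset_union_left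
    have k2 := hS₀ (S' (xs n)) (S (xs n) ∪ S' (xs n)) h2 Finset.subset_union_right
    have h3 : F n u ≤ 2 * (δ / 8) + 2 * (δ / 8) :=
      (TT_triangle a u e (S (xs n)) (S' (xs n)) (S (xs n) ∪ S' (xs n))).trans
        (add_le_add (mul_le_mul_of_nonneg_left k2 zero_le_two)
          (mul_le_mul_of_nonneg_left k1 zero_le_two))
    have h4 : 0 ≤ F n u := integral_nonneg fun ξ => sq_nonneg _
    rw [Real.dist_eq, sub_zero, abs_of_nonneg h4]
    linarith
  have hlim := tendsto_integral_of_dominated_convergence (μ := PP V) (fun _ => (1 : ℝ)) hFm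
    (integrable_const 1) hFb hFlim
  simp only [integral_zero] at hlim
  obtain ⟨n, hn⟩ := (hlim.eventually (gt_mem_nhds hε)).exists
  have h5 := hlt (xs n)
  rw [integral_prod _ (integrable_QQ (hm _ _) fun p => hb _ _)] at h5
  exact absurd hn (not_lt.2 h5.le)

end Vale.Agent.P161
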