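import Vale.Agent.Lib.P161.Core7

/-!
P161, core part 8: the limiting map and its law.
-/

open MeasureTheory Filter

namespace Vale.Agent.P161

variable {V : Type*}

theorem sq_YY_sub_le {a : ℝ} (ha : 0 < a) {K : ℕ} (hK : 0 < K) (v : V)
    (t t' : V × ℕ → unitInterval) :
    (YY a K v t - YY a K v t') ^ 2 ≤
      36 / (a ^ 2 * K) * ∑ k ∈ Finset.range K, ((t (v, k) : ℝ) - t' (v, k)) ^ 2 := by
  have hK' : (0 : ℝ) < K := by exact_mod_cast hK
  have h1 : YY a K v t - YY a K v t' =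
      6 / (a * K) * ∑ k ∈ Finset.range K, ((t (v, k) : ℝ) - t' (v, k)) := by
    unfold YY
    rw [← mul_sub, ← Finset.sum_sub_distrib]
    have : ∀ k ∈ Finset.range K, (2 * (t (v, k) : ℝ) - 1) - (2 * (t' (v, k) : ℝ) - 1) =
        2 * ((t (v, k) : ℝ) - t' (v, k)) := fun k _ => by ring
    rw [Finset.sum_congr rfl this, ← Finset.mul_sum]
    ring
  have h2 := sq_sum_le_card_mul_sum_sq (s := Finset.range K)
    (f := fun k => ((t (v, k) : ℝ) - t' (v, k)))
  rw [Finset.card_range] at h2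
  rw [h1, mul_pow]
  calc (6 / (a * K)) ^ 2 * (∑ k ∈ Finset.range K, ((t (v, k) : ℝ) - t' (v, k))) ^ 2
      ≤ (6 / (a * K)) ^ 2 * (K * ∑ k ∈ Finset.range K, ((t (v, k) : ℝ) - t' (v, k)) ^ 2) :=
        mul_le_mul_of_nonneg_left h2 (by positivity)
    _ = _ := by
      rw [← mul_assoc]
      congr 1
      field_simp
      norm_num

/-- Closeness of the averages of two sampling maps. -/
theorem integral_YY_TT_sub_sq {μ : Measure (V → Bool)} [IsProbabilityMeasure μ] {a : ℝ}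
    (ha : 0 < a) {K : ℕ} (hK : 0 < K) (v : V) (S S' : Finset (V × ℕ)) {δ : ℝ}
    (h : ∀ k < K, ∫ p, (((TT μ a S' p.1 p.2 (v, k) : unitInterval) : ℝ) -
      TT μ a S p.1 p.2 (v, k)) ^ 2 ∂(QQ V) ≤ δ) :
    ∫ p, (YY a K v (TT μ a S' p.1 p.2) - YY a K v (TT μ a S p.1 p.2)) ^ 2 ∂(QQ V) ≤
      36 / a ^ 2 * δ := by
  have hK' : (0 : ℝ) < K := by exact_mod_cast hK
  have hi : ∀ k ∈ Finset.range K, Integrable
      (fun p : (V → unitInterval) × (V × ℕ → unitInterval) =>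
      (((TT μ a S' p.1 p.2 (v, k) : unitInterval) : ℝ) - TT μ a S p.1 p.2 (v, k)) ^ 2)
      (QQ V) := by
    intro k _
    refine integrable_QQ (((measurable_TT_coord μ a S' (v, k)).sub
      (measurable_TT_coord μ a S (v, k))).pow_const 2) (C := 1) fun p => ?_
    rw [abs_pow]
    exact pow_le_one₀ (abs_nonneg _) (unit_sub_abs_le _ _)
  have hY : ∀ S : Finset (V × ℕ), Measurable
      (fun p : (V → unitInterval) × (V × ℕ → unitInterval) => YY a K v (TT μ a S p.1 p.2)) :=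
    fun S => (measurable_YY a K v).comp (measurable_TT μ a S)
  calc ∫ p, (YY a K v (TT μ a S' p.1 p.2) - YY a K v (TT μ a S p.1 p.2)) ^ 2 ∂(QQ V)
      ≤ ∫ p, 36 / (a ^ 2 * K) * ∑ k ∈ Finset.range K,
          (((TT μ a S' p.1 p.2 (v, k) : unitInterval) : ℝ) -
            TT μ a S p.1 p.2 (v, k)) ^ 2 ∂(QQ V) := by
        refine integral_mono ?_ ((integrable_finsetSum _ hi).const_mul _) fun p => ?_
        · refine integrable_QQ (((hY S').sub (hY S)).pow_const 2)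
            (C := (3 / a + 3 / a) ^ 2) fun p => ?_
          rw [abs_pow]
          exact pow_le_pow_left₀ (abs_nonneg _) ((abs_sub _ _).trans
            (add_le_add (abs_YY_le ha hK v _) (abs_YY_le ha hK v _))) 2
        · exact sq_YY_sub_le ha hK v _ _
    _ = 36 / (a ^ 2 * K) * ∑ k ∈ Finset.range K,
          ∫ p, (((TT μ a S' p.1 p.2 (v, k) : unitInterval) : ℝ) -
            TT μ a S p.1 p.2 (v, k)) ^ 2 ∂(QQ V) := by
        rw [integral_const_mul, integral_finsetSum _ hi]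
    _ ≤ 36 / (a ^ 2 * K) * ∑ k ∈ Finset.range K, δ := by
        refine mul_le_mul_of_nonneg_left (Finset.sum_le_sum fun k hk => ?_) (by positivity)
        exact h k (Finset.mem_range.1 hk)
    _ = 36 / a ^ 2 * δ := by
        rw [Finset.sum_const, Finset.card_range, nsmul_eq_mul]
        field_simp

theorem integral_abs_le_of_sq {α : Type*} [MeasurableSpace α] {P : Measure α}
    [IsProbabilityMeasure P] {f : α → ℝ} (hf : Measurable f) {C : ℝ} (hC : ∀ x, |f x| ≤ C)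
    {b : ℝ} (hb : 0 ≤ b) {j : ℕ} (h : ∫ x, f x ^ 2 ∂P ≤ b * (1 / 4) ^ j) :
    ∫ x, |f x| ∂P ≤ (b + 1) * (1 / 2) ^ j := by
  have hs : (0 : ℝ) < (1 / 2) ^ j := by positivity
  have h4 : ((1 : ℝ) / 4) ^ j = (1 / 2) ^ j * (1 / 2) ^ j := by
    rw [← mul_pow]; norm_num
  have h1 : ∀ x, |f x| ≤ ((1 / 2) ^ j)⁻¹ * f x ^ 2 + (1 / 2) ^ j := by
    intro x
    rw [← sub_nonneg]
    have h2 : ((1 / 2 : ℝ) ^ j)⁻¹ * f x ^ 2 + (1 / 2) ^ j - |f x| =
        ((1 / 2) ^ j)⁻¹ * (f x ^ 2 - (1 / 2) ^ j * |f x| + (1 / 2) ^ j * (1 / 2) ^ j) := by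
      field_simp
      ring
    rw [h2]
    refine mul_nonneg (by positivity) ?_
    rw [← sq_abs (f x)]
    nlinarith [sq_nonneg (|f x| - (1 / 2) ^ j), abs_nonneg (f x), sq_nonneg (|f x|)]
  have hi : Integrable (fun x => f x ^ 2) P := by
    refine Integrable.of_bound (hf.pow_const 2).aestronglyMeasurable (C ^ 2)
      (Eventually.of_forall fun x => ?_)
    rw [Real.norm_eq_abs, abs_pow]
    exact pow_le_pow_left₀ (abs_nonneg _) (hC x) 2
  have hi' : Integrable (fun x => |f x|) P := by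
    refine Integrable.of_bound hf.abs.aestronglyMeasurable C
      (Eventually.of_forall fun x => ?_)
    rw [Real.norm_eq_abs, abs_abs]; exact hC x
  calc ∫ x, |f x| ∂P ≤ ∫ x, (((1 / 2) ^ j)⁻¹ * f x ^ 2 + (1 / 2) ^ j) ∂P :=
        integral_mono hi' ((hi.const_mul _).add (integrable_const _)) h1
    _ = ((1 / 2) ^ j)⁻¹ * (∫ x, f x ^ 2 ∂P) + (1 / 2) ^ j := by
        rw [integral_add (hi.const_mul _) (integrable_const _), integral_const_mul]
        simp
    _ ≤ ((1 / 2) ^ j)⁻¹ * (b * (1 / 4) ^ j) + (1 / 2) ^ j :=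
        add_le_add (mul_le_mul_of_nonneg_left h (by positivity)) le_rfl
    _ = _ := by rw [h4]; field_simp

/-- Finite event sets beyond which the signals at `v` in the first `4^j` rounds have stabilised. -/
def GoodSet (μ : Measure (V → Bool)) (a : ℝ) (j : ℕ) (v : V) (T : Finset (V × ℕ)) : Prop :=
  ∀ k < 4 ^ j, ∀ S S' : Finset (V × ℕ), T ⊆ S → T ⊆ S' →
    ∫ p, (((TT μ a S' p.1 p.2 (v, k) : unitInterval) : ℝ) - TT μ a S p.1 p.2 (v, k)) ^ 2
      ∂(QQ V) ≤ (1 / 4) ^ j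

theorem GoodSet.mono {μ : Measure (V → Bool)} {a : ℝ} {j : ℕ} {v : V} {T T' : Finset (V × ℕ)}
    (h : GoodSet μ a j v T) (hT : T ⊆ T') : GoodSet μ a j v T' :=
  fun k hk S S' hS hS' => h k hk S S' (hT.trans hS) (hT.trans hS')

theorem exists_goodSet {μ : Measure (V → Bool)} {a : ℝ} (h : L2Cauchy μ a) (j : ℕ) (v : V) :
    ∃ T, GoodSet μ a j v T := by
  classical
  choose T hT using fun k : ℕ => h (v, k) ((1 / 4 : ℝ) ^ j) (by positivity)
  refine ⟨(Finset.range (4 ^ j)).biUnion T, fun k hk S S' hS hS' => ?_⟩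
  have hk' : T k ⊆ (Finset.range (4 ^ j)).biUnion T :=
    Finset.subset_biUnion_of_mem T (Finset.mem_range.2 hk)
  exact hT k S S' (hk'.trans hS) (hk'.trans hS')

/-- Blocks of events. -/
def SB (N : ℕ → V → Finset V) (n : ℕ) (v : V) : Finset (V × ℕ) := N n v ×ˢ Finset.range n

theorem SB_mono {N : ℕ → V → Finset V} {v : V} (hN : Monotone fun n => N n v) :
    Monotone fun n => SB N n v := by
  intro m n hmn x hx
  simp only [SB, Finset.mem_product, Finset.mem_range] at *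
  exact ⟨hN hmn hx.1, lt_of_lt_of_le hx.2 hmn⟩

theorem eventually_subset_SB {N : ℕ → V → Finset V} {v : V}
    (hN : ∀ w, ∀ᶠ n in atTop, w ∈ N n v) (T : Finset (V × ℕ)) :
    ∀ᶠ n in atTop, T ⊆ SB N n v := by
  have h1 : ∀ᶠ n in atTop, ∀ x ∈ T, x ∈ SB N n v := by
    rw [Finset.eventually_all]
    intro x _
    filter_upwards [hN x.1, eventually_gt_atTop x.2] with n h1 h2
    simp only [SB, Finset.mem_product, Finset.mem_range]
    exact ⟨h1, h2⟩
  filter_upwards [h1] with n hn x hx using hn x hx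

/-- A good choice of radii. -/
theorem exists_nn [Countable V] {μ : Measure (V → Bool)} {a : ℝ} (h : L2Cauchy μ a)
    {N : ℕ → V → Finset V} (hN : ∀ v w, ∀ᶠ n in atTop, w ∈ N n v) :
    ∃ nn : ℕ → ℕ, Monotone nn ∧ (∀ j, 4 ^ j ≤ nn j) ∧
      ∀ v, ∀ᶠ j in atTop, GoodSet μ a j v (SB N (nn j) v) := by
  classical
  obtain ⟨W, -, hW⟩ := exists_seq_monotone_tendsto_atTop_atTop (Finset V)
  choose T hT using fun (j : ℕ) (v : V) => exists_goodSet h j v
  choose n₀ hn₀ using fun (j : ℕ) (v : V) =>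
    eventually_atTop.1 (eventually_subset_SB (hN v) (T j v))
  set g : ℕ → ℕ := fun j => ∑ v ∈ W j, n₀ j v + 4 ^ j with hg
  refine ⟨fun j => ∑ i ∈ Finset.range (j + 1), g i, ?_, ?_, ?_⟩
  · intro i j hij
    exact Finset.sum_le_sum_of_subset (Finset.range_subset_range.2 (by omega))
  · intro j
    calc 4 ^ j ≤ g j := Nat.le_add_left _ _
      _ ≤ _ := Finset.single_le_sum (f := g) (fun i _ => Nat.zero_le _)
        (Finset.mem_range.2 (Nat.lt_succ_self j))
  · intro v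
    obtain ⟨j₀, hj₀⟩ := (tendsto_atTop_atTop.1 hW) {v}
    filter_upwards [eventually_ge_atTop j₀] with j hj
    have hv : v ∈ W j := hj₀ j hj (Finset.mem_singleton_self v)
    refine (hT j v).mono (hn₀ j v _ ?_)
    calc n₀ j v ≤ ∑ v ∈ W j, n₀ j v :=
          Finset.single_le_sum (f := fun v => n₀ j v) (fun i _ => Nat.zero_le _) hv
      _ ≤ g j := Nat.le_add_right _ _
      _ ≤ _ := Finset.single_le_sum (f := g) (fun i _ => Nat.zero_le _)
        (Finset.mem_range.2 (Nat.lt_succ_self j))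

/-- Approximate spins. -/
noncomputable def XX (μ : Measure (V → Bool)) (a : ℝ) (N : ℕ → V → Finset V) (nn : ℕ → ℕ)
    (j : ℕ) (v : V) (p : (V → unitInterval) × (V × ℕ → unitInterval)) : ℝ :=
  YY a (4 ^ j) v (TT μ a (SB N (nn j) v) p.1 p.2)

section limit

variable {μ : Measure (V → Bool)} [IsProbabilityMeasure μ] {a : ℝ} {N : ℕ → V → Finset V}
  {nn : ℕ → ℕ}

theorem measurable_XX (μ : Measure (V → Bool)) [IsProbabilityMeasure μ] (a : ℝ)
    (N : ℕ → V → Finset V) (nn : ℕ → ℕ) (j : ℕ) (v : V) : Measurable (XX μ a N nn j v) :=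
  (measurable_YY a (4 ^ j) v).comp (measurable_TT μ a _)

omit [IsProbabilityMeasure μ] in
theorem abs_XX_le (ha : 0 < a) (j : ℕ) (v : V)
    (p : (V → unitInterval) × (V × ℕ → unitInterval)) : |XX μ a N nn j v p| ≤ 3 / a :=
  abs_YY_le ha (by positivity) v _

theorem mem_SB_self (hN0 : ∀ n v, v ∈ N n v) (h4 : ∀ j, 4 ^ j ≤ nn j) {j : ℕ} {v : V} {k : ℕ}
    (hk : k < 4 ^ j) : (v, k) ∈ SB N (nn j) v := by
  simp only [SB, Finset.mem_product, Finset.mem_range]
  exact ⟨hN0 _ _, lt_of_lt_of_le hk (h4 j)⟩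

/-- Consecutive approximations are close in mean square. -/
theorem integral_XX_succ_sub_sq [Countable V] (ha : 0 < a) (ha1 : a < 1)
    (hN0 : ∀ n v, v ∈ N n v) (hNm : ∀ v, Monotone fun n => N n v) (hnn : Monotone nn)
    (h4 : ∀ j, 4 ^ j ≤ nn j) {j : ℕ} {v : V} (hg : GoodSet μ a j v (SB N (nn j) v)) :
    ∫ p, (XX μ a N nn j v p - XX μ a N nn (j + 1) v p) ^ 2 ∂(QQ V) ≤
      96 / a ^ 2 * (1 / 4) ^ j := by
  set S := SB N (nn j) v with hS
  set S' := SB N (nn (j + 1)) v with hS'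
  have hSS' : S ⊆ S' := SB_mono (hNm v) (hnn (Nat.le_succ j))
  have hK : 0 < 4 ^ j := by positivity
  have hK' : 0 < 4 ^ (j + 1) := by positivity
  have hYm : ∀ (K : ℕ) (S : Finset (V × ℕ)), Measurable
      (fun p : (V → unitInterval) × (V × ℕ → unitInterval) => YY a K v (TT μ a S p.1 p.2)) :=
    fun K S => (measurable_YY a K v).comp (measurable_TT μ a S)
  have h1 : ∫ p, (YY a (4 ^ j) v (TT μ a S' p.1 p.2) - YY a (4 ^ j) v (TT μ a S p.1 p.2)) ^ 2
      ∂(QQ V) ≤ 36 / a ^ 2 * (1 / 4) ^ j :=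
    integral_YY_TT_sub_sq ha hK v S S' fun k hk => hg k hk S S' subset_rfl hSS'
  have h2 : ∫ p, (YY a (4 ^ j) v (TT μ a S' p.1 p.2) -
      YY a (4 ^ (j + 1)) v (TT μ a S' p.1 p.2)) ^ 2 ∂(QQ V) ≤ 12 / a ^ 2 * (1 / 4) ^ j := by
    have h3 := integral_TT_QQ (μ := μ) ha.le ha1 S'
      (f := fun t => (YY a (4 ^ j) v t - YY a (4 ^ (j + 1)) v t) ^ 2)
      (((measurable_YY a _ v).sub (measurable_YY a _ v)).pow_const 2)
      (C := (3 / a + 3 / a) ^ 2) (fun t => by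
        rw [abs_pow]
        exact pow_le_pow_left₀ (abs_nonneg _) ((abs_sub _ _).trans
          (add_le_add (abs_YY_le ha hK v _) (abs_YY_le ha hK' v _))) 2)
    rw [h3]
    have h5 : ∀ k < 4 ^ (j + 1), (v, k) ∈ S' := fun k hk => mem_SB_self hN0 h4 hk
    have h6 : ∀ k < 4 ^ j, (v, k) ∈ S' := fun k hk =>
      h5 k (lt_of_lt_of_le hk (Nat.pow_le_pow_right (by norm_num) (Nat.le_succ j)))
    refine (integral_YY_sub_YY_sq ha ha1 S' v hK hK' h6 h5).trans ?_
    push_cast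
    rw [one_div, inv_pow, pow_succ (4 : ℝ) j]
    have h7 : (0 : ℝ) < 4 ^ j := by positivity
    have h8 : 3 / (a ^ 2 * (4 ^ j * 4)) ≤ 3 / (a ^ 2 * 4 ^ j) := by
      apply div_le_div_of_nonneg_left (by norm_num) (by positivity)
      nlinarith [mul_pos (pow_pos ha 2) h7]
    have h9 : 12 / a ^ 2 * ((4 : ℝ) ^ j)⁻¹ = 2 * (3 / (a ^ 2 * 4 ^ j) + 3 / (a ^ 2 * 4 ^ j)) := by
      field_simp; norm_num
    rw [h9]
    linarith
  have h10 := integral_sq_triangle (P := QQ V) (hYm (4 ^ j) S) (hYm (4 ^ (j + 1)) S')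
    (hYm (4 ^ j) S') (C := 3 / a) (fun p => abs_YY_le ha hK v _)
    (fun p => abs_YY_le ha hK' v _) (fun p => abs_YY_le ha hK v _)
  refine h10.trans ?_
  have h11 : (0:ℝ) ≤ 1 / a ^ 2 * (1 / 4) ^ j := by positivity
  calc _ ≤ 2 * (36 / a ^ 2 * (1 / 4) ^ j) + 2 * (12 / a ^ 2 * (1 / 4) ^ j) := by linarith
    _ = 96 * (1 / a ^ 2 * (1 / 4) ^ j) := by ring
    _ = _ := by ring

/-- Consecutive approximations are close in mean. -/
theorem integral_abs_XX_succ_sub [Countable V] (ha : 0 < a) (ha1 : a < 1)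
    (hN0 : ∀ n v, v ∈ N n v) (hNm : ∀ v, Monotone fun n => N n v) (hnn : Monotone nn)
    (h4 : ∀ j, 4 ^ j ≤ nn j) {j : ℕ} {v : V} (hg : GoodSet μ a j v (SB N (nn j) v)) :
    ∫ p, |XX μ a N nn j v p - XX μ a N nn (j + 1) v p| ∂(QQ V) ≤
      (96 / a ^ 2 + 1) * (1 / 2) ^ j := by
  exact integral_abs_le_of_sq (P := QQ V) (((measurable_XX μ a N nn j v).sub
    (measurable_XX μ a N nn (j + 1) v))) (C := 3 / a + 3 / a)
    (fun p => (abs_sub _ _).trans (add_le_add (abs_XX_le ha _ v p) (abs_XX_le ha _ v p)))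
    (by positivity)
    (integral_XX_succ_sub_sq ha ha1 hN0 hNm hnn h4 hg)

/-- The approximations converge almost surely. -/
theorem ae_tendsto_XX [Countable V] (ha : 0 < a) (ha1 : a < 1)
    (hN0 : ∀ n v, v ∈ N n v) (hNm : ∀ v, Monotone fun n => N n v) (hnn : Monotone nn)
    (h4 : ∀ j, 4 ^ j ≤ nn j) (v : V)
    (hg : ∀ᶠ j in atTop, GoodSet μ a j v (SB N (nn j) v)) :
    ∀ᵐ p ∂(QQ V), ∃ l, Tendsto (fun j => XX μ a N nn j v p) atTop (nhds l) := by
  obtain ⟨j₀, hj₀⟩ := eventually_atTop.1 hg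
  set c : ℝ := 96 / a ^ 2 + 1 with hc
  have hc0 : 0 ≤ c := by positivity
  have hm : ∀ n, Measurable fun p => ‖XX μ a N nn (n + j₀) v p - XX μ a N nn (n + j₀ + 1) v p‖ₑ :=
    fun n => ((measurable_XX μ a N nn _ v).sub (measurable_XX μ a N nn _ v)).enorm
  have h1 : ∀ n, ∫⁻ p, ‖XX μ a N nn (n + j₀) v p - XX μ a N nn (n + j₀ + 1) v p‖ₑ ∂(QQ V) ≤
      ENNReal.ofReal (c * (1 / 2) ^ n) := by
    intro n
    have hi : Integrable (fun p => XX μ a N nn (n + j₀) v p - XX μ a N nn (n + j₀ + 1) v p)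
        (QQ V) := integrable_QQ ((measurable_XX μ a N nn _ v).sub (measurable_XX μ a N nn _ v))
          (C := 3 / a + 3 / a)
          (fun p => (abs_sub _ _).trans (add_le_add (abs_XX_le ha _ v p) (abs_XX_le ha _ v p)))
    rw [← ofReal_integral_norm_eq_lintegral_enorm hi]
    refine ENNReal.ofReal_le_ofReal ?_
    refine (integral_abs_XX_succ_sub ha ha1 hN0 hNm hnn h4 (hj₀ (n + j₀) (by omega))).trans ?_
    refine mul_le_mul_of_nonneg_left ?_ hc0
    exact pow_le_pow_of_le_one (by norm_num) (by norm_num) (by omega)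
  have h2 : ∫⁻ p, ∑' n, ‖XX μ a N nn (n + j₀) v p - XX μ a N nn (n + j₀ + 1) v p‖ₑ ∂(QQ V) ≠ ⊤ := by
    rw [lintegral_tsum fun n => (hm n).aemeasurable]
    refine ne_top_of_le_ne_top ?_ (ENNReal.tsum_le_tsum h1)
    rw [← ENNReal.ofReal_tsum_of_nonneg (fun n => by positivity)
      (summable_geometric_two.mul_left c)]
    exact ENNReal.ofReal_ne_top
  have h3 := ae_lt_top (Measurable.tsum hm) h2
  filter_upwards [h3] with p hp
  have h5 : CauchySeq fun n => XX μ a N nn (n + j₀) v p := by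
    refine cauchySeq_of_edist_le_of_tsum_ne_top _ (fun n => ?_) hp.ne
    rw [edist_eq_enorm_sub]
    rw [show n.succ + j₀ = n + j₀ + 1 by omega]
  obtain ⟨l, hl⟩ := cauchySeq_tendsto_of_complete h5
  exact ⟨l, (tendsto_add_atTop_iff_nat j₀).1 hl⟩

/-- The limiting real-valued spin. -/
noncomputable def XL (μ : Measure (V → Bool)) (a : ℝ) (N : ℕ → V → Finset V) (nn : ℕ → ℕ)
    (v : V) (p : (V → unitInterval) × (V × ℕ → unitInterval)) : ℝ :=
  limsup (fun j => XX μ a N nn j v p) atTop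

theorem measurable_XL (μ : Measure (V → Bool)) [IsProbabilityMeasure μ] (a : ℝ)
    (N : ℕ → V → Finset V) (nn : ℕ → ℕ) (v : V) : Measurable (XL μ a N nn v) :=
  Measurable.limsup fun j => measurable_XX μ a N nn j v

end limit

end Vale.Agent.P161
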