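import Vale.Agent.Lib.P161.Core8

/-!
P161, core part 9: the law of the limiting map.
-/

open MeasureTheory Filter

namespace Vale.Agent.P161

variable {V : Type*}

section limit

variable {μ : Measure (V → Bool)} [IsProbabilityMeasure μ] {a : ℝ} {N : ℕ → V → Finset V}
  {nn : ℕ → ℕ}

/-- Test functions of the approximate spins converge to test functions of the spins. -/
theorem tendsto_integral_test_XX [Countable V] (ha : 0 < a) (ha1 : a < 1)
    (hN0 : ∀ n v, v ∈ N n v) (h4 : ∀ j, 4 ^ j ≤ nn j)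
    (hg : ∀ v, ∀ᶠ j in atTop, GoodSet μ a j v (SB N (nn j) v))
    (V₀ : Finset V) {φ : (V → ℝ) → ℝ} (hφm : Measurable φ) (hφb : ∀ x, |φ x| ≤ 1) {L : ℝ}
    (hL0 : 0 ≤ L) (hφL : ∀ x y : V → ℝ, |φ x - φ y| ≤ L * ∑ v ∈ V₀, |x v - y v|) :
    Tendsto (fun j => ∫ p, φ (fun v => XX μ a N nn j v p) ∂(QQ V)) atTop
      (nhds (∫ σ, φ (fun v => spin (σ v)) ∂μ)) := by
  classical
  set c : ℝ := L * (V₀.card * (36 / a ^ 2 + 1)) + L * (V₀.card * (2 / a)) with hc
  have hc0 : 0 ≤ c := by positivity
  have hev : ∀ᶠ j in atTop, ∀ v ∈ V₀, GoodSet μ a j v (SB N (nn j) v) := by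
    rw [Finset.eventually_all]
    exact fun v _ => hg v
  have key : ∀ᶠ j in atTop, |(∫ p, φ (fun v => XX μ a N nn j v p) ∂(QQ V)) -
      ∫ σ, φ (fun v => spin (σ v)) ∂μ| ≤ c * (1 / 2) ^ j := by
    filter_upwards [hev] with j hj
    have hK : 0 < 4 ^ j := by positivity
    set T : Finset (V × ℕ) := V₀.biUnion fun v => SB N (nn j) v with hT
    have hsub : ∀ v ∈ V₀, SB N (nn j) v ⊆ T := fun v hv =>
      Finset.subset_biUnion_of_mem (fun v => SB N (nn j) v) hv
    have hXm : ∀ v, Measurable fun p : (V → unitInterval) × (V × ℕ → unitInterval) =>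
        YY a (4 ^ j) v (TT μ a T p.1 p.2) :=
      fun v => (measurable_YY a (4 ^ j) v).comp (measurable_TT μ a T)
    have hφX : Measurable fun p => φ (fun v => XX μ a N nn j v p) :=
      hφm.comp (measurable_pi_lambda _ fun v => measurable_XX μ a N nn j v)
    have hφT : Measurable fun p : (V → unitInterval) × (V × ℕ → unitInterval) =>
        φ (fun v => YY a (4 ^ j) v (TT μ a T p.1 p.2)) :=
      hφm.comp (measurable_pi_lambda _ hXm)
    have h1 : |(∫ p, φ (fun v => XX μ a N nn j v p) ∂(QQ V)) -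
        ∫ p, φ (fun v => YY a (4 ^ j) v (TT μ a T p.1 p.2)) ∂(QQ V)| ≤
        L * (V₀.card * (36 / a ^ 2 + 1)) * (1 / 2) ^ j := by
      have hI1 := integrable_QQ hφX (C := 1) fun p => hφb _
      have hI2 := integrable_QQ hφT (C := 1) fun p => hφb _
      rw [← integral_sub hI1 hI2]
      have hdm : ∀ v, Measurable fun p => XX μ a N nn j v p - YY a (4 ^ j) v (TT μ a T p.1 p.2) :=
        fun v => (measurable_XX μ a N nn j v).sub (hXm v)
      have hdb : ∀ v p, |XX μ a N nn j v p - YY a (4 ^ j) v (TT μ a T p.1 p.2)| ≤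
          3 / a + 3 / a := fun v p => (abs_sub _ _).trans
            (add_le_add (abs_XX_le ha j v p) (abs_YY_le ha hK v _))
      have hI3 : ∀ v ∈ V₀, Integrable
          (fun p => |XX μ a N nn j v p - YY a (4 ^ j) v (TT μ a T p.1 p.2)|) (QQ V) :=
        fun v _ => integrable_QQ (hdm v).abs (C := 3 / a + 3 / a) fun p => by
          rw [abs_abs]; exact hdb v p
      have hstep : ∀ v ∈ V₀,
          ∫ p, |XX μ a N nn j v p - YY a (4 ^ j) v (TT μ a T p.1 p.2)| ∂(QQ V) ≤
            (36 / a ^ 2 + 1) * (1 / 2) ^ j := by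
        intro v hv
        refine integral_abs_le_of_sq (P := QQ V) (hdm v) (hdb v) (by positivity) ?_
        exact integral_YY_TT_sub_sq ha hK v T (SB N (nn j) v) fun k hk =>
          hj v hv k hk T (SB N (nn j) v) (hsub v hv) subset_rfl
      calc |∫ p, (φ (fun v => XX μ a N nn j v p) -
            φ (fun v => YY a (4 ^ j) v (TT μ a T p.1 p.2))) ∂(QQ V)|
          ≤ ∫ p, |φ (fun v => XX μ a N nn j v p) -
            φ (fun v => YY a (4 ^ j) v (TT μ a T p.1 p.2))| ∂(QQ V) :=
            abs_integral_le_integral_abs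
        _ ≤ ∫ p, L * ∑ v ∈ V₀, |XX μ a N nn j v p - YY a (4 ^ j) v (TT μ a T p.1 p.2)|
            ∂(QQ V) := integral_mono (hI1.sub hI2).abs
              ((integrable_finsetSum _ hI3).const_mul L) fun p => hφL _ _
        _ = L * ∑ v ∈ V₀, ∫ p, |XX μ a N nn j v p - YY a (4 ^ j) v (TT μ a T p.1 p.2)|
            ∂(QQ V) := by rw [integral_const_mul, integral_finsetSum _ hI3]
        _ ≤ L * ∑ v ∈ V₀, (36 / a ^ 2 + 1) * (1 / 2) ^ j :=
            mul_le_mul_of_nonneg_left (Finset.sum_le_sum hstep) hL0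
        _ = _ := by rw [Finset.sum_const, nsmul_eq_mul]; ring
    have h2 : |(∫ p, φ (fun v => YY a (4 ^ j) v (TT μ a T p.1 p.2)) ∂(QQ V)) -
        ∫ σ, φ (fun v => spin (σ v)) ∂μ| ≤ L * (V₀.card * (2 / a)) * (1 / 2) ^ j := by
      have h3 := integral_TT_QQ (μ := μ) ha.le ha1 T
        (f := fun t => φ (fun v => YY a (4 ^ j) v t))
        (hφm.comp (measurable_pi_lambda _ fun v => measurable_YY a (4 ^ j) v)) (C := 1)
        fun t => hφb _
      rw [h3]
      have h5 := abs_integral_test_le (μ := μ) ha ha1 T V₀ hK (fun v hv k hk =>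
        hsub v hv (mem_SB_self hN0 h4 hk)) hφm hφb hL0 hφL (ε := 2 / a * (1 / 2) ^ j)
        (by positivity) (by
          push_cast
          have h6 : ((1 : ℝ) / 2) ^ j * (1 / 2) ^ j * 4 ^ j = 1 := by
            rw [← mul_pow, ← mul_pow]; norm_num
          rw [div_le_iff₀ (by positivity)]
          have h7 : (2 / a * (1 / 2) ^ j) ^ 2 * (a ^ 2 * 4 ^ j) =
              4 * ((1 / 2) ^ j * (1 / 2) ^ j * 4 ^ j) := by
            field_simp; ring
          rw [h7, h6]; norm_num)
      refine h5.trans (le_of_eq (by ring))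
    calc _ ≤ |(∫ p, φ (fun v => XX μ a N nn j v p) ∂(QQ V)) -
        ∫ p, φ (fun v => YY a (4 ^ j) v (TT μ a T p.1 p.2)) ∂(QQ V)| +
        |(∫ p, φ (fun v => YY a (4 ^ j) v (TT μ a T p.1 p.2)) ∂(QQ V)) -
        ∫ σ, φ (fun v => spin (σ v)) ∂μ| := abs_sub_le _ _ _
      _ ≤ _ := by rw [hc, add_mul]; exact add_le_add h1 h2
  rw [tendsto_iff_dist_tendsto_zero]
  have hlim : Tendsto (fun j : ℕ => c * (1 / 2 : ℝ) ^ j) atTop (nhds 0) := by
    have := (tendsto_pow_atTop_nhds_zero_of_lt_one (r := (1 / 2 : ℝ)) (by norm_num)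
      (by norm_num)).const_mul c
    simpa using this
  refine squeeze_zero' (Eventually.of_forall fun j => dist_nonneg) ?_ hlim
  filter_upwards [key] with j hj
  rwa [Real.dist_eq]

/-- The law of the limiting real-valued field on finite sets. -/
theorem integral_test_XL [Countable V] (ha : 0 < a) (ha1 : a < 1)
    (hN0 : ∀ n v, v ∈ N n v) (hNm : ∀ v, Monotone fun n => N n v) (hnn : Monotone nn)
    (h4 : ∀ j, 4 ^ j ≤ nn j)
    (hg : ∀ v, ∀ᶠ j in atTop, GoodSet μ a j v (SB N (nn j) v))
    (V₀ : Finset V) {φ : (V → ℝ) → ℝ} (hφm : Measurable φ) (hφb : ∀ x, |φ x| ≤ 1) {L : ℝ}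
    (hL0 : 0 ≤ L) (hφL : ∀ x y : V → ℝ, |φ x - φ y| ≤ L * ∑ v ∈ V₀, |x v - y v|) :
    ∫ p, φ (fun v => XL μ a N nn v p) ∂(QQ V) = ∫ σ, φ (fun v => spin (σ v)) ∂μ := by
  refine tendsto_nhds_unique (f := fun j => ∫ p, φ (fun v => XX μ a N nn j v p) ∂(QQ V))
    (l := atTop) ?_ (tendsto_integral_test_XX ha ha1 hN0 h4 hg V₀ hφm hφb hL0 hφL)
  have hall : ∀ᵐ p ∂(QQ V), ∀ v, ∃ l, Tendsto (fun j => XX μ a N nn j v p) atTop (nhds l) := by
    rw [ae_all_iff]
    exact fun v => ae_tendsto_XX ha ha1 hN0 hNm hnn h4 v (hg v)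
  refine tendsto_integral_of_dominated_convergence (fun _ => (1 : ℝ))
    (fun j => (hφm.comp (measurable_pi_lambda _ fun v =>
      measurable_XX μ a N nn j v)).aestronglyMeasurable) (integrable_const 1)
    (fun j => Eventually.of_forall fun p => hφb _) ?_
  filter_upwards [hall] with p hp
  have hlim : ∀ v, Tendsto (fun j => XX μ a N nn j v p) atTop (nhds (XL μ a N nn v p)) := by
    intro v
    obtain ⟨l, hl⟩ := hp v
    have : XL μ a N nn v p = l := hl.limsup_eq
    rw [this]; exact hl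
  rw [tendsto_iff_dist_tendsto_zero]
  have hz : Tendsto (fun j => L * ∑ v ∈ V₀, |XX μ a N nn j v p - XL μ a N nn v p|) atTop
      (nhds (L * ∑ v ∈ V₀, 0)) := by
    refine Tendsto.const_mul L (tendsto_finsetSum V₀ fun v _ => ?_)
    have := ((hlim v).sub_const (XL μ a N nn v p)).abs
    simpa using this
  simp only [Finset.sum_const_zero, mul_zero] at hz
  refine squeeze_zero (fun j => dist_nonneg) (fun j => ?_) hz
  rw [Real.dist_eq]
  exact hφL _ _

end limit

/-- Clipping to `[0, 1]`. -/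
noncomputable def clip (x : ℝ) : ℝ := max 0 (min 1 x)

theorem clip_nonneg (x : ℝ) : 0 ≤ clip x := le_max_left _ _

theorem clip_le_one (x : ℝ) : clip x ≤ 1 := max_le zero_le_one (min_le_left _ _)

theorem abs_clip_sub_le (x y : ℝ) : |clip x - clip y| ≤ |x - y| := by
  unfold clip
  refine (abs_max_sub_max_le_max _ _ _ _).trans ?_
  rw [sub_self, abs_zero]
  refine max_le (abs_nonneg _) ?_
  refine (abs_min_sub_min_le_max _ _ _ _).trans ?_
  rw [sub_self, abs_zero]
  exact max_le (abs_nonneg _) le_rfl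

theorem continuous_clip : Continuous clip := by
  unfold clip; fun_prop

theorem clip_one : clip 1 = 1 := by simp [clip]

theorem clip_zero : clip 0 = 0 := by simp [clip]

/-- Products of numbers in `[0, 1]` are Lipschitz. -/
theorem abs_prod_sub_prod_le {ι : Type*} (s : Finset ι) (f g : ι → ℝ)
    (hf0 : ∀ i, 0 ≤ f i) (hf1 : ∀ i, f i ≤ 1) (hg0 : ∀ i, 0 ≤ g i) (hg1 : ∀ i, g i ≤ 1) :
    |∏ i ∈ s, f i - ∏ i ∈ s, g i| ≤ ∑ i ∈ s, |f i - g i| := by
  classical
  induction s using Finset.induction_on with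
  | empty => simp
  | insert b s hb ih =>
    rw [Finset.prod_insert hb, Finset.prod_insert hb, Finset.sum_insert hb]
    have h1 : f b * ∏ i ∈ s, f i - g b * ∏ i ∈ s, g i =
        (f b - g b) * ∏ i ∈ s, f i + g b * (∏ i ∈ s, f i - ∏ i ∈ s, g i) := by ring
    rw [h1]
    refine (abs_add_le _ _).trans ?_
    rw [abs_mul, abs_mul]
    have h2 : |∏ i ∈ s, f i| ≤ 1 := by
      rw [abs_of_nonneg (Finset.prod_nonneg fun i _ => hf0 i)]
      exact Finset.prod_le_one (fun i _ => hf0 i) fun i _ => hf1 i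
    have h3 : |g b| ≤ 1 := by rw [abs_of_nonneg (hg0 b)]; exact hg1 b
    refine add_le_add ?_ ?_
    · exact (mul_le_mul_of_nonneg_left h2 (abs_nonneg _)).trans (by rw [mul_one])
    · exact (mul_le_mul_of_nonneg_right h3 (abs_nonneg _)).trans (by rw [one_mul]; exact ih)

theorem clip_spin (b c : Bool) : clip ((1 + spin b * spin c) / 2) = if c = b then 1 else 0 := by
  cases b <;> cases c <;> norm_num [spin, clip]

/-- Measures on `V → Bool` are determined by the probabilities of cylinders. -/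
theorem measure_ext_of_cylinder {μ ν : Measure (V → Bool)} [IsFiniteMeasure μ]
    [IsFiniteMeasure ν] (h : ∀ (D : Finset V) (η : V → Bool),
      μ {σ | ∀ v ∈ D, σ v = η v} = ν {σ | ∀ v ∈ D, σ v = η v}) : μ = ν := by
  classical
  have h1 : ∀ D : Finset V, μ.map D.restrict = ν.map D.restrict := by
    intro D
    refine Measure.ext_of_singleton fun x => ?_
    have hm : Measurable (D.restrict : (V → Bool) → (D → Bool)) := Finset.measurable_restrict D
    rw [Measure.map_apply hm (measurableSet_singleton x),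
      Measure.map_apply hm (measurableSet_singleton x)]
    have h2 : (D.restrict : (V → Bool) → (D → Bool)) ⁻¹' {x} =
        {σ | ∀ v ∈ D, σ v = (fun v => if hv : v ∈ D then x ⟨v, hv⟩ else true) v} := by
      ext σ
      simp only [Set.mem_preimage, Set.mem_singleton_iff, Set.mem_ofPred_eq]
      constructor
      · rintro rfl v hv
        simp [hv]
      · intro hσ
        funext v
        have := hσ v.1 v.2
        simpa using this
    rw [h2]
    exact h D _
  exact IsProjectiveLimit.unique (P := fun D : Finset V => μ.map D.restrict)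
    (fun D => rfl) (fun D => (h1 D).symm)

section law

variable {μ : Measure (V → Bool)} [IsProbabilityMeasure μ] {a : ℝ} {N : ℕ → V → Finset V}
  {nn : ℕ → ℕ}

/-- The limiting spins. -/
noncomputable def PHI (μ : Measure (V → Bool)) (a : ℝ) (N : ℕ → V → Finset V) (nn : ℕ → ℕ)
    (p : (V → unitInterval) × (V × ℕ → unitInterval)) (v : V) : Bool :=
  decide (0 < XL μ a N nn v p)

theorem measurable_PHI (μ : Measure (V → Bool)) [IsProbabilityMeasure μ] (a : ℝ)
    (N : ℕ → V → Finset V) (nn : ℕ → ℕ) : Measurable (PHI μ a N nn) := by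
  refine measurable_pi_lambda _ fun v => ?_
  have hs : MeasurableSet {p : (V → unitInterval) × (V × ℕ → unitInterval) |
      0 < XL μ a N nn v p} := measurableSet_lt measurable_const (measurable_XL μ a N nn v)
  exact measurable_to_bool (by
    convert hs using 1
    ext p
    simp [PHI])

/-- The law of the limiting spins is `μ`. -/
theorem map_PHI [Countable V] (ha : 0 < a) (ha1 : a < 1)
    (hN0 : ∀ n v, v ∈ N n v) (hNm : ∀ v, Monotone fun n => N n v) (hnn : Monotone nn)
    (h4 : ∀ j, 4 ^ j ≤ nn j)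
    (hg : ∀ v, ∀ᶠ j in atTop, GoodSet μ a j v (SB N (nn j) v)) :
    (QQ V).map (PHI μ a N nn) = μ := by
  classical
  have hone : ∀ᵐ p ∂(QQ V), ∀ v, |XL μ a N nn v p| = 1 := by
    rw [ae_all_iff]
    intro v
    have h1 := integral_test_XL (μ := μ) ha ha1 hN0 hNm hnn h4 hg {v}
      (φ := fun x => clip |(|x v| - 1)|)
      (continuous_clip.measurable.comp (((measurable_pi_apply v).abs.sub_const 1).abs))
      (fun x => by rw [abs_of_nonneg (clip_nonneg _)]; exact clip_le_one _) (L := 1)
      zero_le_one (fun x y => by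
        rw [one_mul, Finset.sum_singleton]
        refine (abs_clip_sub_le _ _).trans ((abs_abs_sub_abs_le _ _).trans ?_)
        rw [sub_sub_sub_cancel_right]
        exact abs_abs_sub_abs_le _ _)
    have h2 : ∫ σ, clip |(|spin (σ v)| - 1)| ∂μ = 0 := by
      simp [abs_spin27, clip_zero]
    have h1' : ∫ p, clip |(|XL μ a N nn v p| - 1)| ∂(QQ V) = 0 := h1.trans h2
    have hm : Measurable fun p => clip |(|XL μ a N nn v p| - 1)| :=
      continuous_clip.measurable.comp (((measurable_XL μ a N nn v).abs.sub_const 1).abs)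
    rw [integral_eq_zero_iff_of_nonneg (fun p => clip_nonneg _) (integrable_QQ hm (C := 1)
      fun p => by rw [abs_of_nonneg (clip_nonneg _)]; exact clip_le_one _)] at h1'
    filter_upwards [h1'] with p hp
    simp only [Pi.zero_apply] at hp
    unfold clip at hp
    have h3 : |(|XL μ a N nn v p| - 1)| ≤ 0 := by
      by_contra hcon
      push Not at hcon
      have : 0 < max 0 (min 1 |(|XL μ a N nn v p| - 1)|) :=
        lt_max_of_lt_right (lt_min zero_lt_one hcon)
      linarith
    have h5 := abs_nonpos_iff.1 h3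
    linarith
  have hsp : ∀ᵐ p ∂(QQ V), ∀ v, XL μ a N nn v p = spin (PHI μ a N nn p v) := by
    filter_upwards [hone] with p hp v
    rcases eq_or_eq_neg_of_abs_eq (hp v) with h | h
    · rw [h]; simp [PHI, h, spin]
    · rw [h]; simp [PHI, h, spin]
  have hprob : IsProbabilityMeasure ((QQ V).map (PHI μ a N nn)) :=
    Measure.isProbabilityMeasure_map (measurable_PHI μ a N nn).aemeasurable
  refine measure_ext_of_cylinder fun D η => ?_
  have hDm : MeasurableSet {σ : V → Bool | ∀ v ∈ D, σ v = η v} := by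
    have : {σ : V → Bool | ∀ v ∈ D, σ v = η v} = ⋂ v ∈ D, {σ : V → Bool | σ v = η v} := by
      ext σ; simp
    rw [this]
    exact Finset.measurableSet_biInter _ fun v _ =>
      measurableSet_eq_fun (measurable_pi_apply v) measurable_const
  rw [Measure.map_apply (measurable_PHI μ a N nn) hDm]
  set φ : (V → ℝ) → ℝ := fun x => ∏ v ∈ D, clip ((1 + spin (η v) * x v) / 2) with hφ
  have hφm : Measurable φ := by
    refine Finset.measurable_prod _ fun v _ => continuous_clip.measurable.comp ?_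
    exact (((measurable_pi_apply v).const_mul _).const_add 1).div_const 2
  have hφb : ∀ x, |φ x| ≤ 1 := by
    intro x
    rw [abs_of_nonneg (Finset.prod_nonneg fun v _ => clip_nonneg _)]
    exact Finset.prod_le_one (fun v _ => clip_nonneg _) fun v _ => clip_le_one _
  have hφL : ∀ x y : V → ℝ, |φ x - φ y| ≤ 1 * ∑ v ∈ D, |x v - y v| := by
    intro x y
    refine (abs_prod_sub_prod_le D _ _ (fun v => clip_nonneg _) (fun v => clip_le_one _)
      (fun v => clip_nonneg _) (fun v => clip_le_one _)).trans ?_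
    rw [one_mul]
    refine Finset.sum_le_sum fun v _ => (abs_clip_sub_le _ _).trans ?_
    have h1 : (1 + spin (η v) * x v) / 2 - (1 + spin (η v) * y v) / 2 =
        spin (η v) * ((x v - y v) / 2) := by ring
    rw [h1, abs_mul, abs_spin27, one_mul, abs_div]
    have := abs_nonneg (x v - y v)
    norm_num
  have hmain := integral_test_XL (μ := μ) ha ha1 hN0 hNm hnn h4 hg D hφm hφb zero_le_one hφL
  have hφs : ∀ σ : V → Bool, φ (fun v => spin (σ v)) =
      ({σ : V → Bool | ∀ v ∈ D, σ v = η v}).indicator (fun _ => (1 : ℝ)) σ := by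
    intro σ
    simp only [hφ, clip_spin]
    rw [Finset.prod_ite_zero]
    simp [Set.indicator_apply]
  have hR : ∫ σ, φ (fun v => spin (σ v)) ∂μ = μ.real {σ : V → Bool | ∀ v ∈ D, σ v = η v} := by
    simp_rw [hφs]
    rw [integral_indicator_const _ hDm]
    simp
  have hLft : ∫ p, φ (fun v => XL μ a N nn v p) ∂(QQ V) =
      (QQ V).real (PHI μ a N nn ⁻¹' {σ : V → Bool | ∀ v ∈ D, σ v = η v}) := by
    have h1 : ∀ᵐ p ∂(QQ V), φ (fun v => XL μ a N nn v p) =
        (PHI μ a N nn ⁻¹' {σ : V → Bool | ∀ v ∈ D, σ v = η v}).indicator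
          (fun _ => (1 : ℝ)) p := by
      filter_upwards [hsp] with p hp
      have h2 : (fun v => XL μ a N nn v p) = fun v => spin (PHI μ a N nn p v) := funext hp
      rw [h2, hφs]
      rfl
    rw [integral_congr_ae h1, integral_indicator_const _ (measurable_PHI μ a N nn hDm)]
    simp
  rw [hR, hLft] at hmain
  exact (measureReal_eq_measureReal_iff).1 hmain

end law

end Vale.Agent.P161
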