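import Vale.Agent.Lib.P161.Ising

/-!
P161: one and two point functions of the free Ising measure.
-/

open MeasureTheory

namespace Vale.Agent.P161

variable {V : Type*} {G : SimpleGraph V}

theorem measurable_spin_eval (v : V) : Measurable fun σ : V → Bool => spin (σ v) :=
  (measurable_of_finite spin).comp (measurable_pi_apply v)

theorem IsFreeIsing.integral_spin {β : ℝ} {μ : Measure (V → Bool)} (hμ : IsFreeIsing G β μ)
    (v : V) : ∫ σ, spin (σ v) ∂μ = 0 := by
  classical
  have : Nonempty V := ⟨v⟩
  have := hμ.isProbabilityMeasure
  have h1 := fun η => hμ.real_cyl (connected_singleton (G := G) v) η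
  simp only [wt_singleton, mul_one] at h1
  have hs : ∀ σ : V → Bool, spin (σ v) =
      (cyl {v} (fun _ => true)).indicator (fun _ => (1 : ℝ)) σ -
      (cyl {v} (fun _ => false)).indicator (fun _ => (1 : ℝ)) σ := by
    intro σ
    cases h : σ v <;> simp [Set.indicator, cyl, spin, h]
  simp_rw [hs]
  rw [integral_sub, integral_indicator_const _ (measurableSet_cyl _ _),
    integral_indicator_const _ (measurableSet_cyl _ _), h1, h1, sub_self]
  · exact (integrable_const _).indicator (measurableSet_cyl _ _)
  · exact (integrable_const _).indicator (measurableSet_cyl _ _)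

theorem IsFreeIsing.integral_spin_mul [G.LocallyFinite] {β : ℝ} {μ : Measure (V → Bool)}
    (hG : G.IsTree) (hμ : IsFreeIsing G β μ) (u v : V) :
    ∫ σ, spin (σ u) * spin (σ v) ∂μ = Real.tanh β ^ G.dist u v := by
  classical
  have : Nonempty V := ⟨v⟩
  have := hμ.isProbabilityMeasure
  have hc := hG.connected
  have key : ∀ n : ℕ, ∀ v : V, G.dist u v = n →
      ∫ σ, spin (σ u) * spin (σ v) ∂μ = Real.tanh β ^ n := by
    intro n
    induction n with
    | zero =>
      intro v hv
      have : u = v := (hc.dist_eq_zero_iff).1 hv
      subst this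
      simp [spin_mul_self]
    | succ n ih =>
      intro v hv
      obtain ⟨w, hvw, hw⟩ := exists_parent hc hv
      have hwv : G.dist v w = 1 := SimpleGraph.dist_eq_one_iff_adj.2 hvw
      have h := hμ.integral_mul_edge hG hvw.symm (A := {u}) (B := {v})
        (fun y hy => by
          rw [Finset.mem_singleton] at hy; subst hy
          rw [hv, hw])
        (fun y hy => by
          rw [Finset.mem_singleton] at hy; subst hy
          rw [hwv, SimpleGraph.dist_self])
        (f := fun σ => spin (σ u)) (g := fun σ => spin (σ v))
        (depOn_spin (by simp)) (depOn_spin (by simp))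
      rw [h, hμ.integral_spin u, hμ.integral_spin v]
      have h2 : ∫ σ, spin (σ w) * spin (σ u) ∂μ = Real.tanh β ^ n := by
        rw [← ih w hw]
        exact integral_congr_ae (Filter.Eventually.of_forall fun σ => by simp only; ring)
      rw [h2]
      simp only [spin_mul_self]
      simp
      ring
  exact key _ v rfl

end Vale.Agent.P161
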