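import Vale.Agent.Lib.P161.Tree

/-!
P161: the Schur test for the sphere operators of the regular tree.
-/

namespace Vale.Agent.P161

variable {V : Type*} {G : SimpleGraph V}

/-- Sizes of one-sided spheres: the vertices at distance `n` from `v` on the side of `v` of the
edge `v v'`. -/
theorem card_side_le [G.LocallyFinite] (hG : G.IsTree) {d : ℕ}
    (hreg : G.IsRegularOfDegree d) {v v' : V} (hvv' : G.Adj v v') (n : ℕ) (A : Finset V)
    (hA : ∀ w ∈ A, G.dist v w = n ∧ G.dist w v' = n + 1) : A.card ≤ (d - 1) ^ n := by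
  classical
  have hc := hG.connected
  induction n generalizing A with
  | zero =>
    have : A ⊆ {v} := fun w hw => by
      have := (hc.dist_eq_zero_iff).1 (hA w hw).1
      simp [this]
    have h1 := Finset.card_le_card this
    simpa using h1
  | succ n ih =>
    have hpar : ∀ w ∈ A, ∃ u, G.Adj w u ∧ G.dist v u = n := fun w hw =>
      exists_parent hc (hA w hw).1
    choose! f hf using hpar
    have hside : ∀ w ∈ A, G.dist (f w) v' = n + 1 := by
      intro w hw
      obtain ⟨h1, h2⟩ := hf w hw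
      have h3 : G.dist w v' ≤ G.dist w (f w) + G.dist (f w) v' := hc.dist_triangle
      have h4 : G.dist w (f w) = 1 := SimpleGraph.dist_eq_one_iff_adj.2 h1
      have h5 : G.dist (f w) v' ≤ G.dist (f w) v + G.dist v v' := hc.dist_triangle
      have h6 : G.dist v v' = 1 := SimpleGraph.dist_eq_one_iff_adj.2 hvv'
      have h7 : G.dist (f w) v = G.dist v (f w) := SimpleGraph.dist_comm
      have h8 := (hA w hw).2
      omega
    have hIH := ih (A.image f) (fun u hu => by
      obtain ⟨w, hw, rfl⟩ := Finset.mem_image.1 hu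
      exact ⟨(hf w hw).2, hside w hw⟩)
    have hfib : ∀ b ∈ A.image f, (A.filter fun a => f a = b).card ≤ d - 1 := by
      intro b hb
      obtain ⟨w, hw, rfl⟩ := Finset.mem_image.1 hb
      have hd1 := (hf w hw).2
      have hbs := hside w hw
      -- the excluded neighbour
      obtain ⟨c, hbc, hcne⟩ : ∃ c, G.Adj (f w) c ∧ ∀ a ∈ A, a ≠ c := by
        rcases n with _ | n
        · have hbv : v = f w := (hc.dist_eq_zero_iff).1 hd1
          refine ⟨v', hbv ▸ hvv', fun a ha hac => ?_⟩
          have := (hA a ha).2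
          rw [hac, SimpleGraph.dist_self] at this
          omega
        · obtain ⟨c, hbc, hc'⟩ := exists_parent hc hd1
          refine ⟨c, hbc, fun a ha hac => ?_⟩
          have := (hA a ha).1
          rw [hac, hc'] at this
          omega
      have hsub : (A.filter fun a => f a = f w) ⊆ (G.neighborFinset (f w)).erase c := by
        intro a ha
        obtain ⟨haA, hfa⟩ := Finset.mem_filter.1 ha
        rw [Finset.mem_erase, SimpleGraph.mem_neighborFinset]
        refine ⟨hcne a haA, ?_⟩
        have := (hf a haA).1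
        rw [hfa] at this
        exact this.symm
      have h1 := Finset.card_le_card hsub
      rw [Finset.card_erase_of_mem (by simpa using hbc),
        SimpleGraph.card_neighborFinset_eq_degree, hreg (f w)] at h1
      exact h1
    have h2 := Finset.card_le_mul_card_image A (d - 1) hfib
    calc A.card ≤ (d - 1) * (A.image f).card := h2
      _ ≤ (d - 1) * (d - 1) ^ n := Nat.mul_le_mul_left _ hIH
      _ = (d - 1) ^ (n + 1) := by rw [pow_succ, mul_comm]

/-- Schur test for the sphere operator on the regular tree. -/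
theorem schur_sphere {V : Type*} {G : SimpleGraph V} [G.LocallyFinite] (hG : G.IsTree) {d : Nat}
    (hd : 2 ≤ d) (hreg : G.IsRegularOfDegree d) (n : Nat) (o v : V) (A : Finset V)
    (hA : ∀ w ∈ A, G.dist v w = n) :
    ∑ w ∈ A, ((Real.sqrt ((d:ℝ)-1))⁻¹) ^ G.dist o w
      ≤ 2 * (n + 1) * (Real.sqrt ((d:ℝ)-1)) ^ n * ((Real.sqrt ((d:ℝ)-1))⁻¹) ^ G.dist o v := by
  classical
  have hc := hG.connected
  have hd' : (1 : ℝ) ≤ (d : ℝ) - 1 := by
    have : (2 : ℝ) ≤ d := by exact_mod_cast hd
    linarith
  set s := Real.sqrt ((d : ℝ) - 1) with hs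
  have hs2 : s ^ 2 = (d : ℝ) - 1 := Real.sq_sqrt (by linarith)
  have hs1 : 1 ≤ s := by rw [hs]; exact Real.one_le_sqrt.2 hd'
  have hs0 : 0 < s := by linarith
  have hcast : (((d - 1 : ℕ) : ℝ)) = s ^ 2 := by
    rw [hs2, Nat.cast_sub (by omega)]; simp
  induction n generalizing v A with
  | zero =>
    have hsub : A ⊆ {v} := fun w hw => by
      have := (hc.dist_eq_zero_iff).1 (hA w hw)
      simp [this]
    have h1 : ∑ w ∈ A, (s⁻¹) ^ G.dist o w ≤ ∑ w ∈ ({v} : Finset V), (s⁻¹) ^ G.dist o w :=
      Finset.sum_le_sum_of_subset_of_nonneg hsub fun w _ _ => by positivity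
    rw [Finset.sum_singleton] at h1
    have h2 : 0 ≤ (s⁻¹) ^ G.dist o v := by positivity
    simp only [Nat.cast_zero, zero_add, mul_one, pow_zero]
    linarith
  | succ n ih =>
    rcases Nat.eq_zero_or_pos (G.dist o v) with h0 | hpos
    · -- the centre
      have hov : o = v := (hc.dist_eq_zero_iff).1 h0
      subst hov
      rw [h0, pow_zero, mul_one]
      have h1 : ∑ w ∈ A, (s⁻¹) ^ G.dist o w = (A.card : ℝ) * (s⁻¹) ^ (n + 1) := by
        rw [Finset.sum_congr rfl (g := fun _ => (s⁻¹) ^ (n + 1)) (fun w hw => by rw [hA w hw])]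
        simp
      have h2 := card_sphere_le hG hd hreg o (n + 1) A hA
      have h3 : (A.card : ℝ) ≤ d * (s ^ 2) ^ n := by
        rw [← hcast]
        exact_mod_cast h2
      have h4 : (d : ℝ) ≤ 2 * s ^ 2 := by rw [hs2]; linarith
      have h5 : (A.card : ℝ) ≤ 2 * (s ^ 2) ^ (n + 1) := by
        calc (A.card : ℝ) ≤ d * (s ^ 2) ^ n := h3
          _ ≤ (2 * s ^ 2) * (s ^ 2) ^ n := mul_le_mul_of_nonneg_right h4 (by positivity)
          _ = 2 * (s ^ 2) ^ (n + 1) := by ring
      rw [h1]
      calc (A.card : ℝ) * (s⁻¹) ^ (n + 1) ≤ (2 * (s ^ 2) ^ (n + 1)) * (s⁻¹) ^ (n + 1) :=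
            mul_le_mul_of_nonneg_right h5 (by positivity)
        _ = 2 * s ^ (n + 1) := by
            rw [mul_assoc, ← mul_pow]
            congr 2
            field_simp
        _ ≤ 2 * (((n + 1 : ℕ) : ℝ) + 1) * s ^ (n + 1) := by
            have : (0 : ℝ) ≤ ((n + 1 : ℕ) : ℝ) := Nat.cast_nonneg _
            have h6 : 0 ≤ s ^ (n + 1) := by positivity
            linarith only [mul_nonneg this h6]
    · obtain ⟨k, hk⟩ : ∃ k, G.dist o v = k + 1 := ⟨G.dist o v - 1, by omega⟩
      obtain ⟨v', hvv', hv'⟩ := exists_parent hc hk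
      have hov : G.dist o v = G.dist o v' + 1 := by omega
      rw [← Finset.sum_filter_add_sum_filter_not A (fun w => G.dist w v' = G.dist w v + 1)]
      have hA1 : ∑ w ∈ A with G.dist w v' = G.dist w v + 1, (s⁻¹) ^ G.dist o w
          ≤ s ^ (n + 1) * (s⁻¹) ^ G.dist o v := by
        have h1 : ∀ w ∈ A.filter (fun w => G.dist w v' = G.dist w v + 1),
            (s⁻¹) ^ G.dist o w = (s⁻¹) ^ (n + 1) * (s⁻¹) ^ G.dist o v := by
          intro w hw
          obtain ⟨hwA, hw'⟩ := Finset.mem_filter.1 hw
          have h3 := dist_through_edge hG hvv' hw' hov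
          have h4 : G.dist o w = (n + 1) + G.dist o v := by
            rw [SimpleGraph.dist_comm (u := o) (v := w), h3, SimpleGraph.dist_comm (u := w),
              hA w hwA, SimpleGraph.dist_comm (u := v') (v := o), hov]
            ring
          rw [h4, pow_add]
        rw [Finset.sum_congr rfl h1, Finset.sum_const, nsmul_eq_mul]
        have h2 := card_side_le hG hreg hvv' (n + 1)
          (A.filter (fun w => G.dist w v' = G.dist w v + 1)) (fun w hw => by
            obtain ⟨hwA, hw'⟩ := Finset.mem_filter.1 hw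
            refine ⟨hA w hwA, ?_⟩
            rw [hw', SimpleGraph.dist_comm (u := w), hA w hwA])
        have h3 : ((A.filter (fun w => G.dist w v' = G.dist w v + 1)).card : ℝ)
            ≤ (s ^ 2) ^ (n + 1) := by
          rw [← hcast]
          exact_mod_cast h2
        calc ((A.filter (fun w => G.dist w v' = G.dist w v + 1)).card : ℝ)
              * ((s⁻¹) ^ (n + 1) * (s⁻¹) ^ G.dist o v)
            ≤ (s ^ 2) ^ (n + 1) * ((s⁻¹) ^ (n + 1) * (s⁻¹) ^ G.dist o v) :=
              mul_le_mul_of_nonneg_right h3 (by positivity)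
          _ = s ^ (n + 1) * (s⁻¹) ^ G.dist o v := by
              rw [← mul_assoc, ← mul_pow]
              congr 2
              field_simp
      have hA2 : ∑ w ∈ A with ¬ (G.dist w v' = G.dist w v + 1), (s⁻¹) ^ G.dist o w
          ≤ 2 * (n + 1) * s ^ (n + 1) * (s⁻¹) ^ G.dist o v := by
        have h1 := ih v' (A.filter (fun w => ¬ (G.dist w v' = G.dist w v + 1))) (fun w hw => by
          obtain ⟨hwA, hw'⟩ := Finset.mem_filter.1 hw
          have h3 := hG.dist_eq_dist_add_one_of_adj w hvv'
          have h4 := hA w hwA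
          rw [SimpleGraph.dist_comm] at h4 ⊢
          omega)
        refine h1.trans (le_of_eq ?_)
        rw [hov, pow_succ (s⁻¹), pow_succ s]
        have : s * s⁻¹ = 1 := mul_inv_cancel₀ hs0.ne'
        calc 2 * ((n : ℝ) + 1) * s ^ n * (s⁻¹) ^ G.dist o v'
            = 2 * ((n : ℝ) + 1) * s ^ n * (s⁻¹) ^ G.dist o v' * (s * s⁻¹) := by rw [this, mul_one]
          _ = _ := by ring
      have h5 : 0 ≤ s ^ (n + 1) * (s⁻¹) ^ G.dist o v := by positivity
      push_cast
      calc _ ≤ s ^ (n + 1) * (s⁻¹) ^ G.dist o v + 2 * (n + 1) * s ^ (n + 1) * (s⁻¹) ^ G.dist o v :=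
            add_le_add hA1 hA2
        _ ≤ 2 * ((n : ℝ) + 1 + 1) * s ^ (n + 1) * (s⁻¹) ^ G.dist o v := by
            linarith only [h5]

end Vale.Agent.P161
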