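import Mathlib

/-!
P161: the free zero-field Ising measure on a tree, with spins in `ℤˣ = {1, -1}`, built from a
vertex along the edges directed away from it.
-/

open MeasureTheory

namespace Vale.Agent.P161

/-- The law of a random sign which equals `1` with probability `p` and `-1` with probability
`1 - p`. -/
noncomputable def randomSign (p : ℝ) : Measure ℤˣ :=
  ENNReal.ofReal p • Measure.dirac 1 + ENNReal.ofReal (1 - p) • Measure.dirac (-1)

open Classical in
/-- The free zero-field Ising measure on the tree `T`, built from the vertex `o`. The signs
`ξ v` are independent; `ξ o` is a fair sign (the spin of `o`), and for `v ≠ o` the sign `ξ v` is `1`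
with probability `(1 + tanh β) / 2` (it says whether `v` agrees with its parent). The spin of
`v` is the product of the signs `ξ w` over the vertices `w` of the path from `o` to `v`. -/
noncomputable def freeIsingFrom {V : Type*} {T : SimpleGraph V} (hT : T.IsTree) (o : V) (β : ℝ) :
    Measure (V → ℤˣ) :=
  (Measure.infinitePi fun v : V => randomSign (if v = o then 1 / 2 else (1 + Real.tanh β) / 2)).map
    fun ξ v => ((hT.existsUnique_path o v).choose.support.map ξ).prod

end Vale.Agent.P161
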