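import Vale.Agent.Lib.P161.Exist
import Vale.Agent.Lib.P161.Draw2Defs

/-!
P161: relation of `freeIsingFrom` (spins in `ℤˣ`) with `isingOf` (Boolean spins).
-/

open MeasureTheory

namespace Vale.Agent.P161

/-- the Boolean of a sign -/
def toB (s : ℤˣ) : Bool := decide (s = 1)

/-- the sign of a Boolean -/
def ofB (b : Bool) : ℤˣ := if b then 1 else -1

theorem toB_ofB (b : Bool) : toB (ofB b) = b := by
  cases b <;> decide

theorem ofB_toB (s : ℤˣ) : ofB (toB s) = s := by
  rcases Int.units_eq_one_or s with h | h <;> subst h <;> decide

theorem toB_mul (s t : ℤˣ) : toB (s * t) = (toB s == toB t) := by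
  rcases Int.units_eq_one_or s with h | h <;> rcases Int.units_eq_one_or t with h' | h' <;>
    subst h <;> subst h' <;> decide

theorem msc_units : MeasurableSingletonClass ℤˣ := by
  refine ⟨fun s => ⟨{(s : ℤ)}, measurableSet_singleton _, ?_⟩⟩
  ext t
  simp [Units.ext_iff]

theorem measurable_of_units {Y : Type*} [MeasurableSpace Y] (f : ℤˣ → Y) : Measurable f := by
  have := msc_units
  exact measurable_of_countable f

theorem measurable_toB : Measurable toB := measurable_of_units _

theorem measurable_ofB : Measurable ofB := measurable_of_countable _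

theorem isProbabilityMeasure_randomSign {p : ℝ} (h0 : 0 ≤ p) (h1 : p ≤ 1) :
    IsProbabilityMeasure (randomSign p) := by
  constructor
  unfold randomSign
  simp only [Measure.coe_add, Measure.coe_smul, Pi.add_apply, Pi.smul_apply, measure_univ,
    smul_eq_mul, mul_one]
  rw [← ENNReal.ofReal_add h0 (by linarith)]
  have : p + (1 - p) = 1 := by ring
  rw [this, ENNReal.ofReal_one]

theorem map_toB_randomSign (q : ℝ) : (randomSign ((1 + q) / 2)).map toB = signLaw q := by
  unfold randomSign signLaw
  rw [Measure.map_add _ _ measurable_toB, Measure.map_smul, Measure.map_smul,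
    Measure.map_dirac' measurable_toB, Measure.map_dirac' measurable_toB]
  have h1 : toB 1 = true := by decide
  have h2 : toB (-1) = false := by decide
  rw [h1, h2]
  congr 3
  ring

variable {V : Type*} {T : SimpleGraph V}

/-- the path from `o` to `v` -/
theorem path_length (hT : T.IsTree) (o v : V) :
    (hT.existsUnique_path o v).choose.length = T.dist o v := by
  obtain ⟨p, hp⟩ := hT.connected.exists_walk_length_eq_dist o v
  have h1 := p.isPath_of_length_eq_dist hp
  have h2 := (hT.existsUnique_path o v).choose_spec.2 p h1
  rw [← h2, hp]

theorem path_step (hT : T.IsTree) {o v : V} (hv : v ≠ o) :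
    (hT.existsUnique_path o v).choose.support =
      (hT.existsUnique_path o (par T o v)).choose.support ++ [v] := by
  classical
  obtain ⟨hadj, hdist⟩ := par_spec hT.connected hv
  have hnot : v ∉ (hT.existsUnique_path o (par T o v)).choose.support := by
    intro h
    have h1 := (hT.existsUnique_path o (par T o v)).choose.length_takeUntil_le_length h
    have h2 := T.dist_le ((hT.existsUnique_path o (par T o v)).choose.takeUntil v h)
    rw [path_length hT] at h1
    omega
  have hpath := (hT.existsUnique_path o (par T o v)).choose_spec.1.concat hnot hadj.symm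
  have h1 := (hT.existsUnique_path o v).choose_spec.2 _ hpath
  rw [← h1, SimpleGraph.Walk.support_concat]

theorem path_root (hT : T.IsTree) (o : V) :
    (hT.existsUnique_path o o).choose.support = [o] := by
  have h1 := (hT.existsUnique_path o o).choose_spec.2 SimpleGraph.Walk.nil
    SimpleGraph.Walk.IsPath.nil
  rw [← h1]
  rfl

theorem toB_prod_path (hT : T.IsTree) (o v : V) (ξ : V → ℤˣ) :
    toB (((hT.existsUnique_path o v).choose.support.map ξ).prod) =
      build T o (fun w => toB (ξ w)) v := by
  have key : ∀ n : ℕ, ∀ v, T.dist o v = n →
      toB (((hT.existsUnique_path o v).choose.support.map ξ).prod) =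
      build T o (fun w => toB (ξ w)) v := by
    intro n
    induction n with
    | zero =>
      intro v hv
      have h1 : o = v := (hT.connected.dist_eq_zero_iff).1 hv
      subst h1
      rw [path_root hT, build_root]
      simp
    | succ n ih =>
      intro v hv
      have hvo : v ≠ o := by
        rintro rfl
        rw [SimpleGraph.dist_self] at hv
        omega
      rw [path_step hT hvo, build_step hT.connected hvo, ← ih _ (by
        have := (par_spec hT.connected hvo).2
        omega), List.map_append, List.prod_append, toB_mul]
      simp
  exact key _ v rfl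

theorem measurable_pathProd (hT : T.IsTree) (o : V) :
    Measurable (fun (ξ : V → ℤˣ) (v : V) =>
      ((hT.existsUnique_path o v).choose.support.map ξ).prod) := by
  have h1 : (fun (ξ : V → ℤˣ) (v : V) =>
      ((hT.existsUnique_path o v).choose.support.map ξ).prod) =
      fun ξ v => ofB (build T o (fun w => toB (ξ w)) v) := by
    funext ξ v
    rw [← toB_prod_path hT, ofB_toB]
  rw [h1]
  refine measurable_pi_iff.2 fun v => measurable_ofB.comp ?_
  have h2 : Measurable (fun ξ : V → ℤˣ => fun w => toB (ξ w)) :=
    measurable_pi_iff.2 fun w => measurable_toB.comp (measurable_pi_apply w)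
  have h3 : Measurable (fun ξ : V → ℤˣ => build T o (fun w => toB (ξ w))) :=
    (measurable_build (G := T) o).comp h2
  exact measurable_pi_iff.1 h3 v

theorem map_toB_freeIsingFrom (hT : T.IsTree) (o : V) (β : ℝ) :
    (freeIsingFrom hT o β).map (fun σ v => toB (σ v)) = isingOf T o (Real.tanh β) := by
  classical
  have hθ : |Real.tanh β| ≤ 1 := abs_tanh_le_one β
  obtain ⟨hθ1, hθ2⟩ := abs_le.1 hθ
  have hprob : ∀ v : V, IsProbabilityMeasure
      (randomSign (if v = o then 1 / 2 else (1 + Real.tanh β) / 2)) := by
    intro v
    split_ifs
    · exact isProbabilityMeasure_randomSign (by norm_num) (by norm_num)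
    · exact isProbabilityMeasure_randomSign (by linarith) (by linarith)
  have h0 : Measurable (fun (σ : V → ℤˣ) (v : V) => toB (σ v)) :=
    measurable_pi_iff.2 fun w => measurable_toB.comp (measurable_pi_apply w)
  have h1 : Measure.infinitePi (signs (Real.tanh β) o) =
      (Measure.infinitePi fun v : V =>
        randomSign (if v = o then 1 / 2 else (1 + Real.tanh β) / 2)).map
        (fun ξ v => toB (ξ v)) := by
    have h2 := Measure.infinitePi_map_pi (fun v : V =>
        randomSign (if v = o then 1 / 2 else (1 + Real.tanh β) / 2))
        (f := fun _ => toB) (fun _ => measurable_toB)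
    rw [h2]
    congr 1
    funext v
    unfold signs
    split_ifs
    · have := map_toB_randomSign 0
      rw [add_zero] at this
      exact this.symm
    · exact (map_toB_randomSign _).symm
  unfold isingOf freeIsingFrom
  rw [h1, Measure.map_map h0 (measurable_pathProd hT o), Measure.map_map (measurable_build o) h0]
  congr 1
  funext ξ v
  exact toB_prod_path hT o v ξ

/-- the constructed measure is a free Ising measure, for every root -/
theorem isFreeIsing_isingOf [T.LocallyFinite] {β : ℝ} (hG : T.IsTree) (r : V) :
    IsFreeIsing T β (isingOf T r (Real.tanh β)) := by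
  classical
  have hc := hG.connected
  set θ := Real.tanh β with hθdef
  have hθ : |θ| ≤ 1 := abs_tanh_le_one β
  have key : ∀ n : ℕ, ∀ D : Finset V, (T.induce (D : Set V)).Connected →
      (∃ t ∈ D, T.dist r t = n) → (∀ v ∈ D, n ≤ T.dist r v) →
      ∀ η, isingOf T r θ (cyl D η) = ENNReal.ofReal (1 / 2 * wt T θ D η) := by
    intro n
    induction n with
    | zero =>
      rintro D hD ⟨t, ht, htn⟩ _ η
      have : r = t := (hc.dist_eq_zero_iff).1 htn
      subst this
      exact isingOf_rooted hG hθ hD ht η
    | succ n ih =>
      rintro D hD ⟨t, ht, htn⟩ hmin η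
      have htr : t ≠ r := by
        rintro rfl
        rw [SimpleGraph.dist_self] at htn
        omega
      obtain ⟨hadj, hdist⟩ := par_spec hc htr
      set p := par T r t with hp
      have hpn : T.dist r p = n := by omega
      have hpD : p ∉ D := fun h => by
        have := hmin p h
        omega
      have hne' : ∀ v ∈ D, v ≠ p := fun v hv h => hpD (by rw [← h]; exact hv)
      have hside : ∀ y ∈ D, T.dist y p = T.dist y t + 1 := fun y hy =>
        side_of_connected hG hD (Finset.mem_coe.2 ht) (by exact_mod_cast hpD) hadj
          (Finset.mem_coe.2 hy)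
      have hsidep : ∀ y ∈ ({p} : Finset V), T.dist y t = T.dist y p + 1 := by
        intro y hy
        rw [Finset.mem_singleton] at hy
        subst hy
        rw [SimpleGraph.dist_self, SimpleGraph.dist_eq_one_iff_adj.2 hadj.symm]
      have hD' : (T.induce ((({p} : Finset V) ∪ D : Finset V) : Set V)).Connected :=
        connected_union hadj.symm (Finset.mem_singleton_self p) ht (connected_singleton p) hD
      have hform : ∀ b : Bool, isingOf T r θ (cyl ({p} ∪ D) (Function.update η p b))
          = ENNReal.ofReal (1 / 2 * (wt T θ D η * ((1 + θ * spin b * spin (η t)) / 2))) := by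
        intro b
        rw [ih ({p} ∪ D) hD' ⟨p, by simp, hpn⟩ (by
          intro v hv
          rcases Finset.mem_union.1 hv with h | h
          · rw [Finset.mem_singleton.1 h, hpn]
          · have := hmin v h
            omega) _,
          wt_union hG hadj.symm (Finset.mem_singleton_self p) ht hsidep hside,
          wt_singleton, one_mul]
        have hne : t ≠ p := hne' t ht
        rw [Function.update_self, Function.update_of_ne hne,
          wt_congr θ D (η := Function.update η p b) (η' := η) (fun v hv => by
            rw [Function.update_of_ne (hne' v hv)])]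
      have hsplit : cyl D η = cyl ({p} ∪ D) (Function.update η p true)
          ∪ cyl ({p} ∪ D) (Function.update η p false) := by
        ext σ
        simp only [cyl, Set.mem_union, Set.mem_ofPred_eq, Finset.mem_union,
          Finset.mem_singleton]
        constructor
        · intro h
          cases hσ : σ p
          · right
            rintro v (rfl | hv)
            · rw [Function.update_self, hσ]
            · rw [Function.update_of_ne (hne' v hv), h v hv]
          · left
            rintro v (rfl | hv)
            · rw [Function.update_self, hσ]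
            · rw [Function.update_of_ne (hne' v hv), h v hv]
        · rintro (h | h) v hv
          · rw [h v (Or.inr hv), Function.update_of_ne (hne' v hv)]
          · rw [h v (Or.inr hv), Function.update_of_ne (hne' v hv)]
      have hdisj : Disjoint (cyl ({p} ∪ D) (Function.update η p true))
          (cyl ({p} ∪ D) (Function.update η p false)) := by
        rw [Set.disjoint_left]
        intro σ h1 h2
        have e1 := h1 p (by simp)
        have e2 := h2 p (by simp)
        rw [Function.update_self] at e1 e2
        rw [e1] at e2
        exact Bool.noConfusion e2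
      have hnn : ∀ b : Bool, 0 ≤ 1 / 2 * (wt T θ D η * ((1 + θ * spin b * spin (η t)) / 2)) := by
        intro b
        have h1 : |θ * spin b * spin (η t)| ≤ 1 := by
          rw [abs_mul, abs_mul, abs_spin, abs_spin]; simpa using hθ
        have h2 := (abs_le.1 h1).1
        exact mul_nonneg (by norm_num) (mul_nonneg (wt_nonneg hθ D η) (by linarith))
      rw [hsplit, measure_union hdisj (measurableSet_cyl _ _), hform, hform,
        ← ENNReal.ofReal_add (hnn _) (hnn _)]
      congr 1
      have s1 : spin true = 1 := by simp [spin]
      have s2 : spin false = -1 := by simp [spin]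
      rw [s1, s2]
      ring
  intro D hD η
  obtain ⟨⟨v0, hv0⟩⟩ := hD.nonempty
  have hne : D.Nonempty := ⟨v0, Finset.mem_coe.1 hv0⟩
  obtain ⟨t, ht, hmin⟩ := Finset.exists_min_image D (fun v => T.dist r v) hne
  exact key (T.dist r t) D hD ⟨t, ht, rfl⟩ hmin η



/-- factors of IID with values in `ℤˣ` and Boolean factors of IID -/
theorem fiid_iff (hT : T.IsTree) (o : V) (β : ℝ) :
    (∃ Φ : (V → unitInterval) → V → ℤˣ, Measurable Φ ∧
      (∀ g : T ≃g T, ∀ᵐ x ∂(Measure.infinitePi fun _ : V => (volume : Measure unitInterval)),
        Φ (fun v => x (g.symm v)) = fun v => Φ x (g.symm v)) ∧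
      (Measure.infinitePi fun _ : V => (volume : Measure unitInterval)).map Φ =
        freeIsingFrom hT o β) ↔ IsFactorOfIID T (isingOf T o (Real.tanh β)) := by
  have h0 : Measurable (fun (σ : V → ℤˣ) (v : V) => toB (σ v)) :=
    measurable_pi_iff.2 fun w => measurable_toB.comp (measurable_pi_apply w)
  have h0' : Measurable (fun (σ : V → Bool) (v : V) => ofB (σ v)) :=
    measurable_pi_iff.2 fun w => measurable_ofB.comp (measurable_pi_apply w)
  constructor
  · rintro ⟨Φ, hΦ, hg, hmap⟩
    refine ⟨fun x v => toB (Φ x v), h0.comp hΦ, fun g => ?_, ?_⟩
    · filter_upwards [hg g] with x hx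
      rw [hx]
    · rw [← map_toB_freeIsingFrom hT, ← hmap, Measure.map_map h0 hΦ]
      rfl
  · rintro ⟨Φ, hΦ, hg, hmap⟩
    refine ⟨fun x v => ofB (Φ x v), h0'.comp hΦ, fun g => ?_, ?_⟩
    · filter_upwards [hg g] with x hx
      rw [hx]
    · have h1 : (Measure.infinitePi fun _ : V => (volume : Measure unitInterval)).map
          (fun x v => ofB (Φ x v)) =
          ((Measure.infinitePi fun _ : V => (volume : Measure unitInterval)).map Φ).map
            (fun σ v => ofB (σ v)) := by
        rw [Measure.map_map h0' hΦ]
        rfl
      rw [h1, hmap, ← map_toB_freeIsingFrom hT, Measure.map_map h0' h0]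
      have h2 : ((fun (σ : V → Bool) (v : V) => ofB (σ v)) ∘
          (fun (σ : V → ℤˣ) (v : V) => toB (σ v))) = id := by
        funext σ v
        exact ofB_toB (σ v)
      rw [h2, Measure.map_id]

end Vale.Agent.P161
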