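import Vale.Agent.Lib.P161.Homog
import Vale.Agent.Lib.P161.Schur

/-!
P161: positive definite radial functions of finite range on the regular tree obey the
Ramanujan bound (moment method).
-/

open Finset

namespace Vale.Agent.P161

namespace PosDef

section

variable {V : Type*} {G : SimpleGraph V} [G.LocallyFinite]

open Classical in
/-- The sphere of radius `n` around `v`. -/
noncomputable def sph (hc : G.Connected) (n : ℕ) (v : V) : Finset V :=
  (finite_ball hc v n).toFinset.filter (fun w => G.dist v w = n)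

theorem mem_sph (hc : G.Connected) (n : ℕ) (v w : V) :
    w ∈ sph hc n v ↔ G.dist v w = n := by
  classical
  unfold sph
  rw [mem_filter, Set.Finite.mem_toFinset]
  constructor
  · exact fun h => h.2
  · intro h
    exact ⟨h.le, h⟩

/-- Sphere sizes in the `d`-regular tree. -/
theorem card_sph (hG : G.IsTree) {d : ℕ} (hreg : G.IsRegularOfDegree d) (o : V) (n : ℕ) :
    (sph hG.connected (n + 1) o).card = d * (d - 1) ^ n := by
  classical
  have hc := hG.connected
  induction n with
  | zero =>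
    have h : sph hG.connected (0 + 1) o = G.neighborFinset o := by
      ext w
      rw [mem_sph, SimpleGraph.mem_neighborFinset, zero_add, SimpleGraph.dist_eq_one_iff_adj]
    rw [h, SimpleGraph.card_neighborFinset_eq_degree, hreg o, pow_zero, mul_one]
  | succ n ih =>
    have hpar : ∀ w ∈ sph hG.connected (n + 1 + 1) o, ∃ v, G.Adj w v ∧ G.dist o v = n + 1 :=
      fun w hw => exists_parent hc ((mem_sph _ _ _ _).1 hw)
    choose! f hf using hpar
    have hmaps : ∀ w ∈ sph hG.connected (n + 1 + 1) o, f w ∈ sph hG.connected (n + 1) o :=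
      fun w hw => (mem_sph _ _ _ _).2 (hf w hw).2
    rw [card_eq_sum_card_fiberwise hmaps]
    have hfib : ∀ v ∈ sph hG.connected (n + 1) o,
        ((sph hG.connected (n + 1 + 1) o).filter fun w => f w = v).card = d - 1 := by
      intro v hv
      have hv' := (mem_sph _ _ _ _).1 hv
      obtain ⟨c, hvc, hc'⟩ := exists_parent hc hv'
      have heq : ((sph hG.connected (n + 1 + 1) o).filter fun w => f w = v)
          = (G.neighborFinset v).erase c := by
        ext a
        rw [mem_filter, mem_erase, SimpleGraph.mem_neighborFinset]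
        constructor
        · rintro ⟨ha, rfl⟩
          refine ⟨fun hac => ?_, (hf a ha).1.symm⟩
          have h1 := (mem_sph _ _ _ _).1 ha
          rw [hac, hc'] at h1
          omega
        · rintro ⟨hac, hva⟩
          have hda : G.dist o a = n + 1 + 1 := by
            rcases hG.dist_eq_dist_add_one_of_adj o hva with h | h
            · exact absurd (parent_unique hG hva hvc h (by omega)) hac
            · omega
          have ha : a ∈ sph hG.connected (n + 1 + 1) o := (mem_sph _ _ _ _).2 hda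
          refine ⟨ha, ?_⟩
          have h1 := hf a ha
          exact parent_unique hG (u := o) h1.1 hva.symm (by omega) (by omega)
      rw [heq, card_erase_of_mem (by simpa using hvc),
        SimpleGraph.card_neighborFinset_eq_degree, hreg v]
    rw [sum_congr rfl hfib, sum_const, smul_eq_mul, ih, pow_succ, mul_assoc]

/-- The sphere operator. -/
noncomputable def Sop (hc : G.Connected) (n : ℕ) : (V →₀ ℝ) →ₗ[ℝ] (V →₀ ℝ) :=
  Finsupp.linearCombination ℝ (fun w => ∑ v ∈ sph hc n w, Finsupp.single v (1 : ℝ))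

theorem Sop_single (hc : G.Connected) (n : ℕ) (w : V) :
    Sop hc n (Finsupp.single w 1) = ∑ v ∈ sph hc n w, Finsupp.single v (1 : ℝ) := by
  simp [Sop]

theorem Sop_apply (hc : G.Connected) (n : ℕ) (f : V →₀ ℝ) (v : V) :
    Sop hc n f v = ∑ w ∈ sph hc n v, f w := by
  classical
  induction f using Finsupp.induction_linear with
  | zero => simp
  | add f g hf hg => simp [map_add, hf, hg, sum_add_distrib]
  | single w x =>
    simp only [Sop, Finsupp.linearCombination_single, Finsupp.smul_apply, Finsupp.coe_finsetSum,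
      Finset.sum_apply, Finsupp.single_apply, sum_ite_eq', sum_ite_eq, smul_eq_mul]
    by_cases h : G.dist w v = n
    · rw [if_pos ((mem_sph _ _ _ _).2 h),
        if_pos ((mem_sph _ _ _ _).2 (by rw [SimpleGraph.dist_comm]; exact h)), mul_one]
    · rw [if_neg (fun h' => h ((mem_sph _ _ _ _).1 h')),
        if_neg (fun h' => h (by rw [SimpleGraph.dist_comm]; exact (mem_sph _ _ _ _).1 h')),
        mul_zero]

end

section

variable {V : Type*} {G : SimpleGraph V}

/-- The bilinear form of a radial kernel. -/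
noncomputable def Bf (G : SimpleGraph V) (rho : ℕ → ℝ) : (V →₀ ℝ) →ₗ[ℝ] (V →₀ ℝ) →ₗ[ℝ] ℝ :=
  Finsupp.linearCombination ℝ
    (fun u => Finsupp.linearCombination ℝ (fun v => rho (G.dist u v)))

theorem Bf_single (rho : ℕ → ℝ) (u : V) (g : V →₀ ℝ) :
    Bf G rho (Finsupp.single u 1) g = ∑ v ∈ g.support, g v * rho (G.dist u v) := by
  simp [Bf, Finsupp.linearCombination_apply, Finsupp.sum]

theorem Bf_apply (rho : ℕ → ℝ) (f g : V →₀ ℝ) :
    Bf G rho f g = ∑ u ∈ f.support, ∑ v ∈ g.support, f u * g v * rho (G.dist u v) := by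
  simp [Bf, Finsupp.linearCombination_apply, Finsupp.sum, mul_sum, mul_assoc]

theorem Bf_symm (rho : ℕ → ℝ) (f g : V →₀ ℝ) : Bf G rho f g = Bf G rho g f := by
  rw [Bf_apply, Bf_apply, sum_comm]
  refine sum_congr rfl fun u _ => sum_congr rfl fun v _ => ?_
  rw [SimpleGraph.dist_comm]
  ring

/-- Graph isomorphisms of a connected graph preserve the distance. -/
theorem dist_iso_conn (hc : G.Connected) (g : G ≃g G) (v w : V) :
    G.dist (g v) (g w) = G.dist v w := by
  have h : ∀ (f : G ≃g G) (v w : V), G.dist (f v) (f w) ≤ G.dist v w := by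
    intro f v w
    obtain ⟨p, hp⟩ := hc.exists_walk_length_eq_dist v w
    have := SimpleGraph.dist_le (p.map f.toHom)
    rw [SimpleGraph.Walk.length_map, hp] at this
    exact this
  refine le_antisymm (h g v w) ?_
  have := h g.symm (g v) (g w)
  simpa using this

/-- Cauchy-Schwarz for the form of a positive definite radial kernel. -/
theorem cauchy_schwarz (rho : ℕ → ℝ)
    (hpos : ∀ (A : Finset V) (c : V → ℝ), 0 ≤ ∑ u ∈ A, ∑ v ∈ A, c u * c v * rho (G.dist u v))
    (f g : V →₀ ℝ) : Bf G rho f g ^ 2 ≤ Bf G rho f f * Bf G rho g g := by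
  have hp : ∀ f : V →₀ ℝ, 0 ≤ Bf G rho f f := fun f => by
    rw [Bf_apply]
    exact hpos f.support f
  have h : ∀ x : ℝ, 0 ≤ Bf G rho g g * (x * x) + (2 * Bf G rho f g) * x + Bf G rho f f := by
    intro x
    have h1 := hp (f + x • g)
    simp only [map_add, map_smul, LinearMap.add_apply, LinearMap.smul_apply, smul_eq_mul] at h1
    rw [Bf_symm rho g f] at h1
    linarith
  have h2 := discrim_le_zero h
  unfold discrim at h2
  linarith

end

section

variable {V : Type*} {G : SimpleGraph V} [G.LocallyFinite]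

theorem sphere_sum_comm (hG : G.IsTree) {d : ℕ} (hreg : G.IsRegularOfDegree d) (rho : ℕ → ℝ)
    (n : ℕ) (u v : V) :
    ∑ w ∈ sph hG.connected n u, rho (G.dist w v) = ∑ w ∈ sph hG.connected n v, rho (G.dist u w) := by
  obtain ⟨g, hg1, hg2⟩ := exists_iso_of_dist_eq hG hreg (u := u) (v := v) (u2 := v) (v2 := u)
    SimpleGraph.dist_comm
  have hd := dist_iso_conn hG.connected g
  refine sum_bij' (fun w _ => g w) (fun w _ => g.symm w) ?_ ?_ ?_ ?_ ?_
  · intro w hw
    rw [mem_sph] at hw ⊢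
    rw [← hg1, hd]
    exact hw
  · intro w hw
    rw [mem_sph] at hw ⊢
    rw [← hd, hg1]
    simpa using hw
  · intro w _
    simp
  · intro w _
    simp
  · intro w _
    rw [← hd, hg2, SimpleGraph.dist_comm]

theorem Bf_Sop (hG : G.IsTree) {d : ℕ} (hreg : G.IsRegularOfDegree d) (rho : ℕ → ℝ) (n : ℕ)
    (f g : V →₀ ℝ) :
    Bf G rho (Sop hG.connected n f) g = Bf G rho f (Sop hG.connected n g) := by
  have h : (Bf G rho) ∘ₗ (Sop hG.connected n) =
      (LinearMap.lcomp ℝ ℝ (Sop hG.connected n)) ∘ₗ (Bf G rho) := by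
    refine Finsupp.lhom_ext' fun u => LinearMap.ext_ring ?_
    refine Finsupp.lhom_ext' fun v => LinearMap.ext_ring ?_
    simp only [LinearMap.comp_apply, Finsupp.lsingle_apply, LinearMap.lcomp_apply, Sop_single,
      map_sum, LinearMap.sum_apply]
    have hb : ∀ u v : V, Bf G rho (Finsupp.single u 1) (Finsupp.single v 1) = rho (G.dist u v) := by
      intro u v
      simp [Bf]
    rw [sum_congr rfl (fun w _ => hb w v), sum_congr rfl (fun w _ => hb u w)]
    exact sphere_sum_comm hG hreg rho n u v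
  have h2 := LinearMap.congr_fun (LinearMap.congr_fun h f) g
  simpa using h2

/-- The iterates of the sphere operator on a point mass. -/
noncomputable def it (hc : G.Connected) (n : ℕ) (o : V) (k : ℕ) : V →₀ ℝ :=
  (Sop hc n)^[k] (Finsupp.single o 1)

theorem it_succ (hc : G.Connected) (n : ℕ) (o : V) (k : ℕ) :
    it hc n o (k + 1) = Sop hc n (it hc n o k) := by
  unfold it
  rw [Function.iterate_succ_apply']

theorem Bf_it (hG : G.IsTree) {d : ℕ} (hreg : G.IsRegularOfDegree d) (rho : ℕ → ℝ) (n : ℕ)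
    (o : V) (j k : ℕ) :
    Bf G rho (it hG.connected n o j) (it hG.connected n o k) =
      Bf G rho (Finsupp.single o 1) (it hG.connected n o (j + k)) := by
  induction j generalizing k with
  | zero =>
    rw [zero_add]
    rfl
  | succ j ih =>
    rw [it_succ, Bf_Sop hG hreg, ← it_succ, ih]
    congr 2
    omega

theorem it_bound (hG : G.IsTree) {d : ℕ} (hd : 3 ≤ d) (hreg : G.IsRegularOfDegree d) (n : ℕ)
    (o : V) (k : ℕ) (v : V) : 0 ≤ it hG.connected n o k v ∧ it hG.connected n o k v ≤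
      (2 * (n + 1) * (Real.sqrt ((d:ℝ)-1)) ^ n) ^ k * ((Real.sqrt ((d:ℝ)-1))⁻¹) ^ G.dist o v := by
  classical
  have hr : 0 ≤ (Real.sqrt ((d:ℝ)-1))⁻¹ := inv_nonneg.2 (Real.sqrt_nonneg _)
  have hc : 0 ≤ 2 * ((n:ℝ) + 1) * (Real.sqrt ((d:ℝ)-1)) ^ n := by positivity
  induction k generalizing v with
  | zero =>
    unfold it
    rw [Function.iterate_zero, id, Finsupp.single_apply, pow_zero, one_mul]
    split_ifs with h
    · subst h
      simp
    · exact ⟨le_rfl, pow_nonneg hr _⟩
  | succ k ih =>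
    rw [it_succ, Sop_apply]
    refine ⟨sum_nonneg fun w _ => (ih w).1, ?_⟩
    calc ∑ w ∈ sph hG.connected n v, it hG.connected n o k w
        ≤ ∑ w ∈ sph hG.connected n v, (2 * (n + 1) * (Real.sqrt ((d:ℝ)-1)) ^ n) ^ k *
            ((Real.sqrt ((d:ℝ)-1))⁻¹) ^ G.dist o w := sum_le_sum fun w _ => (ih w).2
      _ = (2 * (n + 1) * (Real.sqrt ((d:ℝ)-1)) ^ n) ^ k * ∑ w ∈ sph hG.connected n v,
            ((Real.sqrt ((d:ℝ)-1))⁻¹) ^ G.dist o w := by rw [mul_sum]
      _ ≤ (2 * (n + 1) * (Real.sqrt ((d:ℝ)-1)) ^ n) ^ k * (2 * (n + 1) *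
            (Real.sqrt ((d:ℝ)-1)) ^ n * ((Real.sqrt ((d:ℝ)-1))⁻¹) ^ G.dist o v) :=
          mul_le_mul_of_nonneg_left (schur_sphere hG (by omega) hreg n o v _
            (fun w hw => (mem_sph _ _ _ _).1 hw)) (pow_nonneg hc k)
      _ = _ := by ring

theorem moment_bound (hG : G.IsTree) {d : ℕ} (hd : 3 ≤ d) (hreg : G.IsRegularOfDegree d)
    (rho : ℕ → ℝ) (M : ℕ) (hM : ∀ m, M < m → rho m = 0) (n : ℕ) (o : V) :
    ∃ K : ℝ, 0 ≤ K ∧ ∀ k, |Bf G rho (Finsupp.single o 1) (it hG.connected n o k)| ≤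
      K * (2 * (n + 1) * (Real.sqrt ((d:ℝ)-1)) ^ n) ^ k := by
  classical
  set B := (finite_ball hG.connected o M).toFinset with hB
  refine ⟨∑ v ∈ B, |rho (G.dist o v)|, sum_nonneg fun _ _ => abs_nonneg _, fun k => ?_⟩
  have hc : 0 ≤ 2 * ((n:ℝ) + 1) * (Real.sqrt ((d:ℝ)-1)) ^ n := by positivity
  have hd' : (1 : ℝ) ≤ Real.sqrt ((d:ℝ)-1) := by
    rw [Real.one_le_sqrt]
    have : (3 : ℝ) ≤ d := by exact_mod_cast hd
    linarith
  have hle : ∀ v, |it hG.connected n o k v| ≤ (2 * (n + 1) * (Real.sqrt ((d:ℝ)-1)) ^ n) ^ k := by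
    intro v
    have h := it_bound hG hd hreg n o k v
    rw [abs_of_nonneg h.1]
    refine h.2.trans ?_
    have h1 : ((Real.sqrt ((d:ℝ)-1))⁻¹) ^ G.dist o v ≤ 1 :=
      pow_le_one₀ (inv_nonneg.2 (Real.sqrt_nonneg _)) (inv_le_one_of_one_le₀ hd')
    calc _ ≤ (2 * (n + 1) * (Real.sqrt ((d:ℝ)-1)) ^ n) ^ k * 1 :=
          mul_le_mul_of_nonneg_left h1 (pow_nonneg hc k)
      _ = _ := mul_one _
  rw [Bf_single]
  calc |∑ v ∈ (it hG.connected n o k).support, it hG.connected n o k v * rho (G.dist o v)|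
      ≤ ∑ v ∈ (it hG.connected n o k).support,
          |it hG.connected n o k v * rho (G.dist o v)| := abs_sum_le_sum_abs _ _
    _ ≤ ∑ v ∈ (it hG.connected n o k).support ∪ B,
          |it hG.connected n o k v * rho (G.dist o v)| :=
        sum_le_sum_of_subset_of_nonneg subset_union_left fun _ _ _ => abs_nonneg _
    _ = ∑ v ∈ B, |it hG.connected n o k v * rho (G.dist o v)| := by
        symm
        refine sum_subset subset_union_right fun v _ hv => ?_
        have h1 : M < G.dist o v := by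
          by_contra h
          exact hv (by rw [hB, Set.Finite.mem_toFinset]; exact not_lt.1 h)
        rw [hM _ h1, mul_zero, abs_zero]
    _ ≤ ∑ v ∈ B, |rho (G.dist o v)| * (2 * (n + 1) * (Real.sqrt ((d:ℝ)-1)) ^ n) ^ k := by
        refine sum_le_sum fun v _ => ?_
        rw [abs_mul, mul_comm]
        exact mul_le_mul_of_nonneg_left (hle v) (abs_nonneg _)
    _ = _ := by rw [sum_mul]

/-- The real-variable part of the moment method. -/
theorem moment_method (m : ℕ → ℝ) (c K : ℝ) (hc : 0 < c) (h0 : 0 ≤ m 0)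
    (hcs : ∀ k, m k ^ 2 ≤ m 0 * m (2 * k)) (hb : ∀ k, |m k| ≤ K * c ^ k) :
    |m 1| ≤ c * m 0 := by
  have hj : ∀ j : ℕ, m 0 * |m 1| ^ (2 ^ j) ≤ m 0 ^ (2 ^ j) * |m (2 ^ j)| := by
    intro j
    induction j with
    | zero => simp
    | succ j ih =>
      rcases h0.eq_or_lt with h00 | h00
      · rw [← h00]
        have : (0 : ℝ) ^ (2 ^ (j + 1)) = 0 := zero_pow (by positivity)
        rw [this]; simp
      · have h1 := hcs (2 ^ j)
        have h2 : (m 0 * |m 1| ^ (2 ^ j)) ^ 2 ≤ (m 0 ^ (2 ^ j) * |m (2 ^ j)|) ^ 2 := by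
          gcongr
        have h3 : m 0 * (m 0 * |m 1| ^ (2 ^ (j + 1))) ≤
            m 0 * (m 0 ^ (2 ^ (j + 1)) * |m (2 ^ (j + 1))|) := by
          calc m 0 * (m 0 * |m 1| ^ (2 ^ (j + 1))) = (m 0 * |m 1| ^ (2 ^ j)) ^ 2 := by
                rw [pow_succ 2 j, pow_mul]; ring
            _ ≤ (m 0 ^ (2 ^ j) * |m (2 ^ j)|) ^ 2 := h2
            _ = m 0 ^ (2 ^ (j + 1)) * m (2 ^ j) ^ 2 := by
                rw [mul_pow, sq_abs, pow_succ 2 j, pow_mul]
            _ ≤ m 0 ^ (2 ^ (j + 1)) * (m 0 * |m (2 ^ (j + 1))|) := by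
                gcongr
                refine h1.trans ?_
                rw [pow_succ, mul_comm (2 ^ j) 2]
                gcongr
                exact le_abs_self _
            _ = _ := by ring
        exact le_of_mul_le_mul_left h3 h00
  rcases h0.eq_or_lt with h00 | h00
  · have h1 := hcs 1
    rw [← h00, zero_mul] at h1
    have h2 : m 1 = 0 := by nlinarith [sq_nonneg (m 1)]
    rw [h2, ← h00]
    simp
  · by_contra hcon
    have hcon := not_le.1 hcon
    have hq : 1 < |m 1| / (c * m 0) := (one_lt_div (by positivity)).2 hcon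
    obtain ⟨N, hN⟩ := pow_unbounded_of_one_lt (K / m 0) hq
    have h1 : (|m 1| / (c * m 0)) ^ (2 ^ N) ≤ K / m 0 := by
      rw [div_pow, div_le_div_iff₀ (by positivity) h00]
      have h2 := (hj N).trans (mul_le_mul_of_nonneg_left (hb (2 ^ N)) (by positivity))
      calc |m 1| ^ (2 ^ N) * m 0 = m 0 * |m 1| ^ (2 ^ N) := mul_comm _ _
        _ ≤ _ := h2
        _ = K * (c * m 0) ^ (2 ^ N) := by rw [mul_pow]; ring
    have h3 : (|m 1| / (c * m 0)) ^ N ≤ (|m 1| / (c * m 0)) ^ (2 ^ N) :=
      pow_le_pow_right₀ hq.le Nat.lt_two_pow_self.le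
    linarith

end

end PosDef

open PosDef in
/-- A positive definite radial function of finite range on the `d`-regular tree satisfies
`d (d-1)^(n-1) |rho n| ≤ 2 (n+1) (d-1)^(n/2) rho 0`. -/
theorem posdef_bound {V : Type*} {G : SimpleGraph V} [G.LocallyFinite] (hG : G.IsTree) {d : Nat}
    (hd : 3 ≤ d) (hreg : G.IsRegularOfDegree d) (rho : Nat → ℝ) (M : Nat)
    (hM : ∀ m, M < m → rho m = 0)
    (hpos : ∀ (A : Finset V) (c : V → ℝ), 0 ≤ ∑ u ∈ A, ∑ v ∈ A, c u * c v * rho (G.dist u v))
    (n : Nat) (hn : 1 ≤ n) :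
    (d:ℝ) * ((d:ℝ)-1)^(n-1) * |rho n| ≤ 2 * (n+1) * (Real.sqrt ((d:ℝ)-1))^n * rho 0 := by
  classical
  obtain ⟨o⟩ := hG.connected.nonempty
  have hd1 : (1 : ℝ) ≤ Real.sqrt ((d:ℝ)-1) := by
    rw [Real.one_le_sqrt]
    have : (3 : ℝ) ≤ d := by exact_mod_cast hd
    linarith
  have hm0 : Bf G rho (Finsupp.single o 1) (it hG.connected n o 0) = rho 0 := by
    unfold it
    rw [Function.iterate_zero, id]
    simp [Bf]
  have hr0 : 0 ≤ rho 0 := by
    have := hpos {o} (fun _ => 1)
    simpa using this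
  obtain ⟨n, rfl⟩ : ∃ k, n = k + 1 := ⟨n - 1, by omega⟩
  have hm1 : Bf G rho (Finsupp.single o 1) (it hG.connected (n + 1) o 1) =
      (d:ℝ) * ((d:ℝ)-1)^n * rho (n + 1) := by
    unfold it
    rw [Function.iterate_one, Sop_single, map_sum]
    have hb : ∀ v ∈ sph hG.connected (n + 1) o,
        Bf G rho (Finsupp.single o 1) (Finsupp.single v 1) = rho (n + 1) := by
      intro v hv
      rw [← (mem_sph _ _ _ _).1 hv]
      simp [Bf]
    rw [sum_congr rfl hb, sum_const, card_sph hG hreg, nsmul_eq_mul]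
    have : (((d - 1 : ℕ) : ℝ)) = (d : ℝ) - 1 := by
      rw [Nat.cast_sub (by omega)]; simp
    push_cast
    rw [this]
  obtain ⟨K, _, hKb⟩ := moment_bound hG hd hreg rho M hM (n + 1) o
  have h := moment_method (fun k => Bf G rho (Finsupp.single o 1) (it hG.connected (n + 1) o k))
    (2 * (((n + 1 : ℕ) : ℝ) + 1) * (Real.sqrt ((d:ℝ)-1)) ^ (n + 1)) K (by positivity)
    (by rw [hm0]; exact hr0) (fun k => by
      have h1 := cauchy_schwarz rho hpos (it hG.connected (n + 1) o 0)
        (it hG.connected (n + 1) o k)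
      rw [Bf_it hG hreg, Bf_it hG hreg, Bf_it hG hreg] at h1
      rw [two_mul]
      simpa using h1) hKb
  rw [hm0, hm1, abs_mul, abs_of_nonneg (by
    have : (1 : ℝ) ≤ (d : ℝ) - 1 := by
      have : (3 : ℝ) ≤ d := by exact_mod_cast hd
      linarith
    positivity)] at h
  simpa using h

end Vale.Agent.P161
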