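import Vale.Agent.Lib.P161.Corr
import Vale.Agent.Lib.P161.Block
import Vale.Agent.Lib.P161.PosDef

/-!
P161: above the reconstruction threshold the free Ising measure is not a factor of IID.
-/

open MeasureTheory

namespace Vale.Agent.P161

variable {V : Type*} {G : SimpleGraph V}

/-- In a regular tree of degree at least two there are vertices at every distance. -/
theorem exists_dist_eq [G.LocallyFinite] (hG : G.IsTree) {d : ℕ} (hd : 2 ≤ d)
    (hreg : G.IsRegularOfDegree d) (o : V) (n : ℕ) : ∃ v, G.dist o v = n := by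
  classical
  have hc := hG.connected
  induction n with
  | zero => exact ⟨o, by simp⟩
  | succ n ih =>
    obtain ⟨v, hv⟩ := ih
    by_contra hcon
    push Not at hcon
    -- all neighbours of `v` are parents of `v`, but the parent is unique
    have hnb : ∀ w, G.Adj v w → G.dist o w + 1 = n := by
      intro w hw
      have h1 : G.dist o w ≤ G.dist o v + G.dist v w := hc.dist_triangle
      have h2 : G.dist o v ≤ G.dist o w + G.dist w v := hc.dist_triangle
      have h3 : G.dist v w = 1 := SimpleGraph.dist_eq_one_iff_adj.2 hw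
      have h4 : G.dist w v = 1 := by rw [SimpleGraph.dist_comm]; exact h3
      have h5 := hcon w
      rcases Nat.lt_or_ge (G.dist o w) n with h6 | h6
      · omega
      · exfalso
        have h7 : G.dist o w = n := by omega
        have h8 := hG.dist_ne_of_adj (u := o) hw
        exact h8 (by rw [h7, hv])
    have hcard : (G.neighborFinset v).card = d := by
      rw [SimpleGraph.card_neighborFinset_eq_degree, hreg v]
    have h1 : 1 < (G.neighborFinset v).card := by omega
    obtain ⟨a, ha, b, hb, hab⟩ := Finset.one_lt_card.1 h1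
    rw [SimpleGraph.mem_neighborFinset] at ha hb
    have ha' := hnb a ha
    have hb' := hnb b hb
    exact hab (parent_unique hG (u := o) ha hb (by omega) (by omega))

/-- The free Ising measure is not a factor of IID above the reconstruction threshold. -/
theorem not_isFactorOfIID [G.LocallyFinite] (hG : G.IsTree) {d : ℕ} (hd : 3 ≤ d)
    (hreg : G.IsRegularOfDegree d) {β : ℝ}
    (hsup : 1 < Real.tanh β * Real.sqrt ((d : ℝ) - 1))
    {μ : Measure (V → Bool)} (hμ : IsFreeIsing G β μ) : ¬ IsFactorOfIID G μ := by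
  intro hF
  have hne := hG.connected.nonempty
  obtain ⟨o⟩ := hne
  set θ := Real.tanh β with hθ
  have hd1 : (1 : ℝ) < (d : ℝ) - 1 := by
    have : (3 : ℝ) ≤ d := by exact_mod_cast hd
    linarith
  set s := Real.sqrt ((d : ℝ) - 1) with hs
  have hs0 : 0 < s := Real.sqrt_pos.2 (by linarith)
  have hss : s * s = (d : ℝ) - 1 := Real.mul_self_sqrt (by linarith)
  have hθ0 : 0 < θ := by
    by_contra hcon
    push Not at hcon
    nlinarith
  -- the key inequality
  have key : ∀ n : ℕ, 1 ≤ n → (d : ℝ) * ((d : ℝ) - 1) ^ (n - 1) * θ ^ n ≤ 2 * (n + 1) * s ^ n := by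
    intro n hn
    refine le_of_forall_pos_le_add fun ε hε => ?_
    set Cn : ℝ := (d : ℝ) * ((d : ℝ) - 1) ^ (n - 1) + 2 * (n + 1) * s ^ n with hCn
    have hCn0 : 0 < Cn := by positivity
    obtain ⟨ρ, M, hM, hpos, happ⟩ := exists_blockApprox hG hreg hF
      (fun v => hμ.integral_spin v) (eps := ε / Cn) (by positivity)
    have h1 := posdef_bound hG hd hreg ρ M hM hpos n hn
    obtain ⟨v, hv⟩ := exists_dist_eq hG (by omega : 2 ≤ d) hreg o n
    have h2 := happ o v
    rw [hμ.integral_spin_mul hG, hv] at h2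
    have h3 := happ o o
    rw [hμ.integral_spin_mul hG, SimpleGraph.dist_self, pow_zero] at h3
    have h4 : θ ^ n ≤ |ρ n| + ε / Cn := by
      have := (abs_le.1 h2).1
      have h5 := le_abs_self (ρ n)
      linarith
    have h5 : ρ 0 ≤ 1 + ε / Cn := by
      have := (abs_le.1 h3).2
      linarith
    have hA : 0 ≤ (d : ℝ) * ((d : ℝ) - 1) ^ (n - 1) := by positivity
    have hB : 0 ≤ 2 * ((n : ℝ) + 1) * s ^ n := by positivity
    calc (d : ℝ) * ((d : ℝ) - 1) ^ (n - 1) * θ ^ n
        ≤ (d : ℝ) * ((d : ℝ) - 1) ^ (n - 1) * (|ρ n| + ε / Cn) :=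
          mul_le_mul_of_nonneg_left h4 hA
      _ = (d : ℝ) * ((d : ℝ) - 1) ^ (n - 1) * |ρ n| +
          (d : ℝ) * ((d : ℝ) - 1) ^ (n - 1) * (ε / Cn) := by ring
      _ ≤ 2 * (n + 1) * s ^ n * ρ 0 + (d : ℝ) * ((d : ℝ) - 1) ^ (n - 1) * (ε / Cn) := by
          linarith
      _ ≤ 2 * (n + 1) * s ^ n * (1 + ε / Cn) + (d : ℝ) * ((d : ℝ) - 1) ^ (n - 1) * (ε / Cn) := by
          have := mul_le_mul_of_nonneg_left h5 hB
          linarith
      _ = 2 * (n + 1) * s ^ n + Cn * (ε / Cn) := by rw [hCn]; ring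
      _ = 2 * (n + 1) * s ^ n + ε := by rw [mul_div_cancel₀ _ hCn0.ne']
  -- exponential growth beats linear growth
  have hx : 1 < θ * s := hsup
  have key2 : ∀ n : ℕ, 1 ≤ n → (θ * s) ^ n ≤ 2 * (n + 1) := by
    intro n hn
    obtain ⟨m, rfl⟩ := Nat.exists_eq_add_of_le' hn
    have h1 := key (m + 1) hn
    simp only [Nat.add_sub_cancel] at h1
    have h2 : s ^ (m + 1) * s ^ (m + 1) = ((d : ℝ) - 1) ^ m * ((d : ℝ) - 1) := by
      rw [← mul_pow, hss, pow_succ]
    have hdd : (d : ℝ) - 1 ≤ d := by linarith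
    have hP : 0 < s ^ (m + 1) := by positivity
    have h3 : s ^ (m + 1) * (θ * s) ^ (m + 1) ≤ (d : ℝ) * ((d : ℝ) - 1) ^ m * θ ^ (m + 1) := by
      rw [mul_pow]
      calc s ^ (m + 1) * (θ ^ (m + 1) * s ^ (m + 1))
          = (s ^ (m + 1) * s ^ (m + 1)) * θ ^ (m + 1) := by ring
        _ = (((d : ℝ) - 1) * ((d : ℝ) - 1) ^ m) * θ ^ (m + 1) := by rw [h2]; ring
        _ ≤ _ := by
            refine mul_le_mul_of_nonneg_right (mul_le_mul_of_nonneg_right hdd ?_) ?_
            · positivity
            · positivity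
    have h4 : s ^ (m + 1) * (θ * s) ^ (m + 1) ≤ s ^ (m + 1) * (2 * ((m + 1 : ℕ) + 1)) := by
      refine h3.trans (h1.trans (le_of_eq ?_))
      ring
    exact le_of_mul_le_mul_left h4 hP
  have hlim : Filter.Tendsto (fun n : ℕ => (n : ℝ) ^ 1 / (θ * s) ^ n) Filter.atTop (nhds 0) :=
    tendsto_pow_const_div_const_pow_of_one_lt 1 hx
  obtain ⟨n, hn, hn1⟩ := ((hlim.eventually (gt_mem_nhds (show (0 : ℝ) < 1 / 5 by norm_num))).and
    (Filter.eventually_ge_atTop 1)).exists
  have hpos : 0 < (θ * s) ^ n := by positivity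
  rw [pow_one, div_lt_iff₀ hpos] at hn
  have h6 := key2 n hn1
  have h7 : (1 : ℝ) ≤ n := by exact_mod_cast hn1
  linarith

end Vale.Agent.P161
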