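import Vale.Agent.Lib.P161.Imp

/-!
Definitions for P161: the free zero-field Ising measure on a tree and factors of IID.
-/

open MeasureTheory

namespace Vale.Agent.P161

/-- The real value `±1` of a spin (`true ↦ 1`, `false ↦ -1`). -/
def spin (b : Bool) : ℝ := if b then 1 else -1

/-- The factor `(1 + θ η_u η_v) / 2` of the edge `{u, v}`. -/
noncomputable def edgeFactor {V : Type*} (θ : ℝ) (η : V → Bool) : Sym2 V → ℝ :=
  Sym2.lift ⟨fun u v => (1 + θ * spin (η u) * spin (η v)) / 2, fun u v => by ring⟩

open Classical in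
/-- `μ` is the free zero-field Ising measure on `G` at inverse temperature `β`: for every finite
nonempty connected vertex set `D` the probability that the configuration agrees with `η` on `D` is
`(1/2) ∏_{edges {u,v} inside D} (1 + tanh β · η_u η_v) / 2`. -/
def IsFreeIsing {V : Type*} (G : SimpleGraph V) (β : ℝ) (μ : Measure (V → Bool)) : Prop :=
  ∀ D : Finset V, (G.induce (D : Set V)).Connected → ∀ η : V → Bool,
    μ {σ | ∀ v ∈ D, σ v = η v} =
      ENNReal.ofReal (1 / 2 * ∏ e ∈ D.sym2 with e ∈ G.edgeSet, edgeFactor (Real.tanh β) η e)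

/-- `ν` is a factor of IID over the automorphism group of `G`: it is the law of `Φ(U)` with
`(U_v)` i.i.d. uniform on `[0,1]`, `Φ` measurable and `Φ(gU) = gΦ(U)` almost surely for each
automorphism `g`, where `(gx)_v = x_{g⁻¹ v}`. -/
def IsFactorOfIID {V : Type*} (G : SimpleGraph V) (ν : Measure (V → Bool)) : Prop :=
  ∃ Φ : (V → unitInterval) → (V → Bool), Measurable Φ ∧
    (∀ g : G ≃g G, ∀ᵐ U ∂(Measure.infinitePi fun _ : V => (volume : Measure unitInterval)),
      Φ (fun v => U (g.symm v)) = fun v => Φ U (g.symm v)) ∧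
    (Measure.infinitePi fun _ : V => (volume : Measure unitInterval)).map Φ = ν

end Vale.Agent.P161
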