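import Vale.Agent.Lib.P161.Ising

/-!
P161: existence of the free Ising measure on a tree.
-/

open MeasureTheory

namespace Vale.Agent.P161

variable {V : Type*} {G : SimpleGraph V}

theorem spin_beq (a b : Bool) : spin (a == b) = spin a * spin b := by
  cases a <;> cases b <;> simp [spin]

/-- The sign law with mean `q`. -/
noncomputable def signLaw (q : ℝ) : Measure Bool :=
  ENNReal.ofReal ((1 + q) / 2) • Measure.dirac true
    + ENNReal.ofReal ((1 - q) / 2) • Measure.dirac false

theorem signLaw_singleton (q : ℝ) (b : Bool) :
    signLaw q {b} = ENNReal.ofReal ((1 + q * spin b) / 2) := by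
  unfold signLaw
  cases b <;> simp [spin, sub_eq_add_neg]

theorem isProbabilityMeasure_signLaw {q : ℝ} (hq : |q| ≤ 1) :
    IsProbabilityMeasure (signLaw q) := by
  obtain ⟨h1, h2⟩ := abs_le.1 hq
  constructor
  unfold signLaw
  simp only [Measure.coe_add, Measure.coe_smul, Pi.add_apply, Pi.smul_apply, measure_univ,
    smul_eq_mul, mul_one]
  rw [← ENNReal.ofReal_add (by linarith) (by linarith)]
  have : (1 + q) / 2 + (1 - q) / 2 = 1 := by ring
  rw [this, ENNReal.ofReal_one]

open Classical in
/-- The parent of `v`, seen from the root `r`. -/
noncomputable def par (G : SimpleGraph V) (r v : V) : V :=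
  if h : ∃ w, G.Adj v w ∧ G.dist r v = G.dist r w + 1 then h.choose else v

theorem par_spec (hG : G.Connected) {r v : V} (hv : v ≠ r) :
    G.Adj v (par G r v) ∧ G.dist r v = G.dist r (par G r v) + 1 := by
  have hpos : 0 < G.dist r v := hG.pos_dist_of_ne (Ne.symm hv)
  obtain ⟨n, hn⟩ : ∃ n, G.dist r v = n + 1 := ⟨G.dist r v - 1, by omega⟩
  obtain ⟨w, hw, hd⟩ := exists_parent hG hn
  have h : ∃ w, G.Adj v w ∧ G.dist r v = G.dist r w + 1 := ⟨w, hw, by omega⟩
  unfold par
  rw [dif_pos h]
  exact h.choose_spec

/-- The spins along the path to the root, as a function of the edge signs. -/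
noncomputable def buildAux (G : SimpleGraph V) (r : V) (b : V → Bool) : ℕ → V → Bool
  | 0, v => b v
  | n + 1, v => buildAux G r b n (par G r v) == b v

/-- The spin configuration built from the root spin `b r` and the agreement signs `b v` of the
edges from `v` to its parent. -/
noncomputable def build (G : SimpleGraph V) (r : V) (b : V → Bool) (v : V) : Bool :=
  buildAux G r b (G.dist r v) v

theorem build_root (r : V) (b : V → Bool) : build G r b r = b r := by
  unfold build
  rw [SimpleGraph.dist_self]
  rfl

theorem build_step (hG : G.Connected) {r v : V} (hv : v ≠ r) (b : V → Bool) :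
    build G r b v = (build G r b (par G r v) == b v) := by
  unfold build
  rw [(par_spec hG hv).2]
  rfl

theorem measurable_build (r : V) : Measurable (build G r) := by
  refine measurable_pi_iff.2 fun v => ?_
  have key : ∀ n : ℕ, ∀ v : V, Measurable fun b : V → Bool => buildAux G r b n v := by
    intro n
    induction n with
    | zero => exact fun v => measurable_pi_apply v
    | succ n ih =>
      intro v
      have h : Measurable fun b : V → Bool => (buildAux G r b n (par G r v), b v) :=
        (ih _).prodMk (measurable_pi_apply v)
      have h2 : Measurable fun p : Bool × Bool => (p.1 == p.2) := measurable_of_countable _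
      exact h2.comp h
  exact key _ v

open Classical in
/-- Law of the edge signs. -/
noncomputable def signs (θ : ℝ) (r : V) (v : V) : Measure Bool :=
  if v = r then signLaw 0 else signLaw θ

theorem isProbabilityMeasure_signs {θ : ℝ} (hθ : |θ| ≤ 1) (r v : V) :
    IsProbabilityMeasure (signs θ r v) := by
  unfold signs
  split_ifs
  · exact isProbabilityMeasure_signLaw (by simp)
  · exact isProbabilityMeasure_signLaw hθ

theorem par_mem (hG : G.IsTree) {D : Set V} (hD : (G.induce D).Connected) {r v : V} (hr : r ∈ D)
    (hv : v ∈ D) (hvr : v ≠ r) : par G r v ∈ D := by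
  by_contra hp
  obtain ⟨h1, h2⟩ := par_spec hG.connected hvr
  have h3 := side_of_connected hG hD hv hp h1 hr
  omega

theorem wt_rooted (hG : G.IsTree) [DecidableEq V] {D : Finset V}
    (hD : (G.induce (D : Set V)).Connected)
    {r : V} (hr : r ∈ D) (θ : ℝ) (η : V → Bool) :
    wt G θ D η = ∏ v ∈ D.erase r, edgeFactor θ η s(v, par G r v) := by
  classical
  have hc := hG.connected
  symm
  unfold wt
  refine Finset.prod_nbij (fun v => s(v, par G r v)) ?_ ?_ ?_ ?_
  · intro v hv
    obtain ⟨hvr, hvD⟩ := Finset.mem_erase.1 hv
    rw [Finset.mem_filter, Finset.mk_mem_sym2_iff, SimpleGraph.mem_edgeSet]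
    exact ⟨⟨hvD, par_mem hG hD (Finset.mem_coe.2 hr) (Finset.mem_coe.2 hvD) hvr⟩,
      (par_spec hc hvr).1⟩
  · intro v hv w hw hvw
    obtain ⟨hvr, hvD⟩ := Finset.mem_erase.1 (Finset.mem_coe.1 hv)
    obtain ⟨hwr, hwD⟩ := Finset.mem_erase.1 (Finset.mem_coe.1 hw)
    rcases Sym2.eq_iff.1 hvw with ⟨h, _⟩ | ⟨h1, h2⟩
    · exact h
    · exfalso
      have h3 := (par_spec hc hvr).2
      have h4 := (par_spec hc hwr).2
      rw [h2] at h3
      rw [← h1] at h4
      omega
  · intro e he
    induction e using Sym2.ind with
    | _ a b =>
      simp only [Finset.coe_filter, Finset.mk_mem_sym2_iff, SimpleGraph.mem_edgeSet,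
        Set.mem_ofPred_eq] at he
      obtain ⟨⟨ha, hb⟩, hab⟩ := he
      rcases hG.dist_eq_dist_add_one_of_adj r hab with h | h
      · have har : a ≠ r := by
          rintro rfl
          rw [SimpleGraph.dist_self] at h
          omega
        refine ⟨a, Finset.mem_coe.2 (Finset.mem_erase.2 ⟨har, ha⟩), ?_⟩
        have h1 := par_spec hc har
        have h2 : par G r a = b := parent_unique hG h1.1 hab h1.2 h
        simp only [h2]
      · have hbr : b ≠ r := by
          rintro rfl
          rw [SimpleGraph.dist_self] at h
          omega
        refine ⟨b, Finset.mem_coe.2 (Finset.mem_erase.2 ⟨hbr, hb⟩), ?_⟩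
        have h1 := par_spec hc hbr
        have h2 : par G r b = a := parent_unique hG h1.1 hab.symm h1.2 h
        simp only [h2]
        exact Sym2.eq_swap
  · intro v _
    rfl

theorem bool_eq_beq {x y z : Bool} : x = (y == z) ↔ z = (y == x) := by
  cases x <;> cases y <;> cases z <;> simp

theorem preimage_build (hG : G.IsTree) [DecidableEq V] {D : Finset V}
    (hD : (G.induce (D : Set V)).Connected) {r : V} (hr : r ∈ D) (η : V → Bool) :
    build G r ⁻¹' cyl D η = (D : Set V).pi
      (fun v => {if v = r then η r else (η (par G r v) == η v)}) := by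
  have hc := hG.connected
  ext b
  simp only [Set.mem_preimage, cyl, Set.mem_ofPred_eq, Set.mem_pi, Finset.mem_coe,
    Set.mem_singleton_iff]
  constructor
  · intro h v hv
    by_cases hvr : v = r
    · subst hvr
      rw [if_pos rfl, ← h v hv, build_root]
    · rw [if_neg hvr]
      have h1 := h v hv
      have h2 := h _ (Finset.mem_coe.1 (par_mem hG hD (Finset.mem_coe.2 hr)
        (Finset.mem_coe.2 hv) hvr))
      rw [build_step hc hvr, h2] at h1
      exact bool_eq_beq.1 h1.symm
  · intro h
    have key : ∀ n : ℕ, ∀ v ∈ D, G.dist r v = n → build G r b v = η v := by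
      intro n
      induction n with
      | zero =>
        intro v hv hd
        have hvr : r = v := (hc.dist_eq_zero_iff).1 hd
        subst hvr
        have := h r hv
        rw [if_pos rfl] at this
        rw [build_root, this]
      | succ n ih =>
        intro v hv hd
        have hvr : v ≠ r := by
          rintro rfl
          rw [SimpleGraph.dist_self] at hd
          omega
        have hp := Finset.mem_coe.1 (par_mem hG hD (Finset.mem_coe.2 hr)
          (Finset.mem_coe.2 hv) hvr)
        have h1 := ih _ hp (by have := (par_spec hc hvr).2; omega)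
        have h2 := h v hv
        rw [if_neg hvr] at h2
        rw [build_step hc hvr, h1]
        exact (bool_eq_beq.1 h2).symm
    exact fun v hv => key _ v hv rfl

/-- The constructed measure. -/
noncomputable def isingOf (G : SimpleGraph V) (r : V) (θ : ℝ) : Measure (V → Bool) :=
  (Measure.infinitePi (signs θ r)).map (build G r)

theorem isingOf_rooted (hG : G.IsTree) {θ : ℝ} (hθ : |θ| ≤ 1) {D : Finset V}
    (hD : (G.induce (D : Set V)).Connected) {r : V} (hr : r ∈ D) (η : V → Bool) :
    isingOf G r θ (cyl D η) = ENNReal.ofReal (1 / 2 * wt G θ D η) := by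
  classical
  have := fun v => isProbabilityMeasure_signs hθ r v
  unfold isingOf
  rw [Measure.map_apply (measurable_build r) (measurableSet_cyl D η), preimage_build hG hD hr,
    Measure.infinitePi_pi _ (fun v _ => measurableSet_singleton _),
    ← Finset.mul_prod_erase D _ hr, wt_rooted hG hD hr, ENNReal.ofReal_mul (by norm_num),
    ENNReal.ofReal_prod_of_nonneg (fun v _ => edgeFactor_nonneg hθ η _)]
  congr 1
  · rw [if_pos rfl]
    unfold signs
    rw [if_pos rfl, signLaw_singleton]
    simp
  · refine Finset.prod_congr rfl fun v hv => ?_
    have hvr : v ≠ r := (Finset.mem_erase.1 hv).1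
    rw [if_neg hvr]
    unfold signs
    rw [if_neg hvr, signLaw_singleton, spin_beq, edgeFactor_mk]
    congr 1
    ring

/-- Existence of the free Ising measure (random spin at a root, independent agreement signs along
the edges directed away from the root). -/
theorem exists_isFreeIsing [G.LocallyFinite] {β : ℝ} (hG : G.IsTree) :
    ∃ μ : Measure (V → Bool), IsFreeIsing G β μ := by
  classical
  have hc := hG.connected
  obtain ⟨r⟩ := hc.nonempty
  set θ := Real.tanh β with hθdef
  have hθ : |θ| ≤ 1 := abs_tanh_le_one β
  refine ⟨isingOf G r θ, ?_⟩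
  have key : ∀ n : ℕ, ∀ D : Finset V, (G.induce (D : Set V)).Connected →
      (∃ t ∈ D, G.dist r t = n) → (∀ v ∈ D, n ≤ G.dist r v) →
      ∀ η, isingOf G r θ (cyl D η) = ENNReal.ofReal (1 / 2 * wt G θ D η) := by
    intro n
    induction n with
    | zero =>
      rintro D hD ⟨t, ht, htn⟩ _ η
      have : r = t := (hc.dist_eq_zero_iff).1 htn
      subst this
      exact isingOf_rooted hG hθ hD ht η
    | succ n ih =>
      rintro D hD ⟨t, ht, htn⟩ hmin η
      have htr : t ≠ r := by
        rintro rfl
        rw [SimpleGraph.dist_self] at htn
        omega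
      obtain ⟨hadj, hdist⟩ := par_spec hc htr
      set p := par G r t with hp
      have hpn : G.dist r p = n := by omega
      have hpD : p ∉ D := fun h => by
        have := hmin p h
        omega
      have hne' : ∀ v ∈ D, v ≠ p := fun v hv h => hpD (by rw [← h]; exact hv)
      have hside : ∀ y ∈ D, G.dist y p = G.dist y t + 1 := fun y hy =>
        side_of_connected hG hD (Finset.mem_coe.2 ht) (by exact_mod_cast hpD) hadj
          (Finset.mem_coe.2 hy)
      have hsidep : ∀ y ∈ ({p} : Finset V), G.dist y t = G.dist y p + 1 := by
        intro y hy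
        rw [Finset.mem_singleton] at hy
        subst hy
        rw [SimpleGraph.dist_self, SimpleGraph.dist_eq_one_iff_adj.2 hadj.symm]
      have hD' : (G.induce ((({p} : Finset V) ∪ D : Finset V) : Set V)).Connected :=
        connected_union hadj.symm (Finset.mem_singleton_self p) ht (connected_singleton p) hD
      have hform : ∀ b : Bool, isingOf G r θ (cyl ({p} ∪ D) (Function.update η p b))
          = ENNReal.ofReal (1 / 2 * (wt G θ D η * ((1 + θ * spin b * spin (η t)) / 2))) := by
        intro b
        rw [ih ({p} ∪ D) hD' ⟨p, by simp, hpn⟩ (by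
          intro v hv
          rcases Finset.mem_union.1 hv with h | h
          · rw [Finset.mem_singleton.1 h, hpn]
          · have := hmin v h
            omega) _,
          wt_union hG hadj.symm (Finset.mem_singleton_self p) ht hsidep hside,
          wt_singleton, one_mul]
        have hne : t ≠ p := hne' t ht
        rw [Function.update_self, Function.update_of_ne hne,
          wt_congr θ D (η := Function.update η p b) (η' := η) (fun v hv => by
            rw [Function.update_of_ne (hne' v hv)])]
      have hsplit : cyl D η = cyl ({p} ∪ D) (Function.update η p true)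
          ∪ cyl ({p} ∪ D) (Function.update η p false) := by
        ext σ
        simp only [cyl, Set.mem_union, Set.mem_ofPred_eq, Finset.mem_union,
          Finset.mem_singleton]
        constructor
        · intro h
          cases hσ : σ p
          · right
            rintro v (rfl | hv)
            · rw [Function.update_self, hσ]
            · rw [Function.update_of_ne (hne' v hv), h v hv]
          · left
            rintro v (rfl | hv)
            · rw [Function.update_self, hσ]
            · rw [Function.update_of_ne (hne' v hv), h v hv]
        · rintro (h | h) v hv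
          · rw [h v (Or.inr hv), Function.update_of_ne (hne' v hv)]
          · rw [h v (Or.inr hv), Function.update_of_ne (hne' v hv)]
      have hdisj : Disjoint (cyl ({p} ∪ D) (Function.update η p true))
          (cyl ({p} ∪ D) (Function.update η p false)) := by
        rw [Set.disjoint_left]
        intro σ h1 h2
        have e1 := h1 p (by simp)
        have e2 := h2 p (by simp)
        rw [Function.update_self] at e1 e2
        rw [e1] at e2
        exact Bool.noConfusion e2
      have hnn : ∀ b : Bool, 0 ≤ 1 / 2 * (wt G θ D η * ((1 + θ * spin b * spin (η t)) / 2)) := by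
        intro b
        have h1 : |θ * spin b * spin (η t)| ≤ 1 := by
          rw [abs_mul, abs_mul, abs_spin, abs_spin]; simpa using hθ
        have h2 := (abs_le.1 h1).1
        exact mul_nonneg (by norm_num) (mul_nonneg (wt_nonneg hθ D η) (by linarith))
      rw [hsplit, measure_union hdisj (measurableSet_cyl _ _), hform, hform,
        ← ENNReal.ofReal_add (hnn _) (hnn _)]
      congr 1
      have s1 : spin true = 1 := by simp [spin]
      have s2 : spin false = -1 := by simp [spin]
      rw [s1, s2]
      ring
  intro D hD η
  obtain ⟨⟨v0, hv0⟩⟩ := hD.nonempty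
  have hne : D.Nonempty := ⟨v0, Finset.mem_coe.1 hv0⟩
  obtain ⟨t, ht, hmin⟩ := Finset.exists_min_image D (fun v => G.dist r v) hne
  exact key (G.dist r t) D hD ⟨t, ht, rfl⟩ hmin η

end Vale.Agent.P161
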