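import Mathlib.Tactic
import Mathlib.Topology.UniformSpace.Uniformizable
import Mathlib.Probability.StrongLaw
import Mathlib.Probability.Moments.SubGaussian
import Mathlib.Probability.Kernel.Representation
import Mathlib.Probability.Independence.InfinitePi
import Mathlib.Order.CompletePartialOrder
import Mathlib.MeasureTheory.Measure.SeparableMeasure
import Mathlib.Combinatorics.SimpleGraph.Acyclic
import Mathlib.Analysis.Normed.Group.Tannery
import Mathlib.Analysis.SpecialFunctions.Trigonometric.DerivHyp
import Mathlib.Analysis.Complex.ExponentialBounds
import Mathlib.Algebra.Ring.IsFormallyReal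
import Mathlib.Algebra.Order.Chebyshev

/-!
# P161 Imp: the part of Mathlib used by the P161 files (faster to load than all of Mathlib).
-/
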