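import Vale.Agent.Lib.P161.Core10

/-!
P161: choice of parameters for the free Ising measure below the critical point.
-/

open MeasureTheory

namespace Vale.Agent.P161

variable {V : Type*} {G : SimpleGraph V}

theorem covBound_of_isFreeIsing [G.LocallyFinite] (hG : G.IsTree) {β : ℝ} (hβ : 0 ≤ β)
    {μ : Measure (V → Bool)} (hμ : IsFreeIsing G β μ) {a : ℝ} (ha : 0 ≤ a) (ha1 : a < 1) :
    CovBound μ a (fun u v => Real.tanh β ^ G.dist u v) := by
  intro R t u v
  exact hμ.cov_decay hβ hG R Prod.fst (fun x b => 1 + a * spin b * (2 * (t x : ℝ) - 1))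
    (fun x b => by
      have := factor_bounds ha b (t x)
      linarith [this.1]) u v

theorem exists_L2Cauchy [G.LocallyFinite] (hG : G.IsTree) {d : ℕ} (hd : 3 ≤ d)
    (hreg : G.IsRegularOfDegree d) {β : ℝ} (hβ : 0 ≤ β)
    (hcrit : Real.tanh β * Real.sqrt (d - 1) < 1)
    {μ : Measure (V → Bool)} (hμ : IsFreeIsing G β μ) :
    ∃ a : ℝ, 0 < a ∧ a < 1 ∧ L2Cauchy μ a := by
  have hne := hG.connected.nonempty
  have hprob := hμ.isProbabilityMeasure
  have hcount : Countable V := countable_of_locallyFinite hG.connected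
  set θ := Real.tanh β with hθ
  have hθ0 : 0 ≤ θ := tanh_nonneg_of_nonneg hβ
  have hd1 : (0 : ℝ) < (d : ℝ) - 1 := by
    have : (3 : ℝ) ≤ d := by exact_mod_cast hd
    linarith
  set s := Real.sqrt ((d : ℝ) - 1) with hs
  have hs0 : 0 < s := Real.sqrt_pos.2 hd1
  have hss : s * s = (d : ℝ) - 1 := Real.mul_self_sqrt hd1.le
  -- `θ < θ' < 1 / s`
  set θ' := (θ + 1 / s) / 2 with hθ'
  have hlt : θ < 1 / s := by rw [lt_div_iff₀ hs0]; exact hcrit
  have h1 : θ < θ' := by rw [hθ']; linarith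
  have h2 : θ' < 1 / s := by rw [hθ']; linarith
  have hθ'0 : 0 ≤ θ' := hθ0.trans h1.le
  have h3 : θ' * s < 1 := by rwa [lt_div_iff₀ hs0] at h2
  have h4 : θ * s < 1 := hcrit
  have h5 : θ * θ' * ((d : ℝ) - 1) < 1 := by
    rw [← hss]
    have : θ * θ' * (s * s) = (θ * s) * (θ' * s) := by ring
    rw [this]
    calc (θ * s) * (θ' * s) ≤ (θ * s) * 1 :=
          mul_le_mul_of_nonneg_left h3.le (mul_nonneg hθ0 hs0.le)
      _ < 1 := by rw [mul_one]; exact h4
  have h6 : θ' * θ' * ((d : ℝ) - 1) < 1 := by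
    rw [← hss]
    have : θ' * θ' * (s * s) = (θ' * s) * (θ' * s) := by ring
    rw [this]
    calc (θ' * s) * (θ' * s) ≤ (θ' * s) * 1 :=
          mul_le_mul_of_nonneg_left h3.le (mul_nonneg hθ'0 hs0.le)
      _ < 1 := by rw [mul_one]; exact h3
  obtain ⟨C, hC0, hC⟩ := kernel_bound hG (by omega : 2 ≤ d) hreg hθ0 h1 h5
  obtain ⟨S, hS⟩ := sum_pow_dist_le hG (by omega : 2 ≤ d) hreg (mul_nonneg hθ'0 hθ'0) h6
  -- choice of `a`
  set a : ℝ := 1 / (4 * (C + 1)) with ha
  have ha0 : 0 < a := by positivity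
  have ha4 : a ≤ 1 / 4 := by
    rw [ha]
    apply div_le_div_of_nonneg_left zero_le_one (by norm_num)
    linarith
  have ha1 : a < 1 := by linarith
  have haC : a * (C + 1) = 1 / 4 := by rw [ha]; field_simp
  have hpar : 1 / (4 * (1 - a)) * (a * (2 * a / (1 - a) ^ 2)) * C ≤ 1 - 1 / 2 := by
    have e1 : (3 : ℝ) / 4 ≤ 1 - a := by linarith
    have e2 : 1 / (4 * (1 - a)) ≤ 1 / 3 := by
      apply div_le_div_of_nonneg_left zero_le_one (by norm_num); linarith
    have e3 : 2 * a / (1 - a) ^ 2 ≤ 2 * a / (9 / 16) := by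
      apply div_le_div_of_nonneg_left (by linarith) (by norm_num)
      nlinarith only [e1]
    have e4 : a * (2 * a / (1 - a) ^ 2) ≤ a * (2 * a / (9 / 16)) :=
      mul_le_mul_of_nonneg_left e3 ha0.le
    have e5 : 0 ≤ a * (2 * a / (1 - a) ^ 2) := by positivity
    calc 1 / (4 * (1 - a)) * (a * (2 * a / (1 - a) ^ 2)) * C
        ≤ 1 / 3 * (a * (2 * a / (9 / 16))) * C :=
          mul_le_mul_of_nonneg_right (mul_le_mul e2 e4 e5 (by norm_num)) hC0
      _ = 32 / 27 * a * (a * C) := by ring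
      _ ≤ 32 / 27 * (1 / 4) * (1 / 4) := by
          have e6 : a * C ≤ 1 / 4 := by linarith only [ha0, haC]
          have e7 : 0 ≤ a * C := mul_nonneg ha0.le hC0
          nlinarith only [e1, e6, e7]
      _ ≤ 1 - 1 / 2 := by norm_num
  have hK : KernelBound (fun u v => θ ^ G.dist u v) (fun u v => θ' ^ G.dist u v) C :=
    ⟨fun v w => pow_nonneg hθ'0 _, fun v => by simp, fun v x A => hC v x A⟩
  have hsum : ∀ v, Summable fun w => (θ' ^ G.dist v w) ^ 2 := by
    intro v
    have h7 : (fun w => (θ' ^ G.dist v w) ^ 2) = fun w => (θ' * θ') ^ G.dist v w := by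
      funext w; rw [← pow_mul, mul_comm, pow_mul, sq]
    rw [h7]
    exact summable_of_sum_le (fun w => by positivity) fun A => hS v A
  refine ⟨a, ha0, ha1, L2Cauchy_of_injective fun u hu e ε hε => ?_⟩
  exact TT_cauchy ha0.le ha1 one_le_two (covBound_of_isFreeIsing hG hβ hμ ha0.le ha1) hK hpar
    hsum hu e hε

/-- The free Ising measure below the critical point is a factor of IID. -/
theorem isFactorOfIID_of_subcritical [G.LocallyFinite] (hG : G.IsTree) {d : ℕ} (hd : 3 ≤ d)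
    (hreg : G.IsRegularOfDegree d) {β : ℝ} (hβ : 0 ≤ β)
    (hcrit : Real.tanh β * Real.sqrt (d - 1) < 1)
    {μ : Measure (V → Bool)} (hμ : IsFreeIsing G β μ) : IsFactorOfIID G μ := by
  have hne := hG.connected.nonempty
  have hprob := hμ.isProbabilityMeasure
  obtain ⟨a, ha0, ha1, hL⟩ := exists_L2Cauchy hG hd hreg hβ hcrit hμ
  exact isFactorOfIID_of_L2Cauchy G hG.connected ha0 ha1 hL fun g => hμ.map_iso hG g

end Vale.Agent.P161
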